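import Mathlib

/-!
P304, randomized k-server: definitions of the statement and the interfaces between the parts
of the proof.  The proof is described in notes/P304.md.
-/

namespace Vale.Agent.P304

open Finset

section Statement

variable {X : Type} [MetricSpace X] {k : ℕ}

/-- Total movement when, starting from positions `p`, each request `r` is served by moving the
server `i` listed next to it. -/
noncomputable def svcCost : (Fin k → X) → List (X × Fin k) → ℝ
  | _, [] => 0
  | p, (r, i) :: l => dist (p i) r + svcCost (Function.update p i r) l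

/-- Optimal offline cost: minimum over all choices of the serving servers. -/
noncomputable def OPT (s : Fin k → X) (σ : List X) : ℝ :=
  ⨅ c : Fin σ.length → Fin k, svcCost s (List.ofFn fun t => (σ.get t, c t))

/-- A randomized online policy: given the past requests with the servers chosen for them and the
current request, a probability distribution of the server that is moved. -/
def Policy (X : Type) (k : ℕ) : Type := List (X × Fin k) → X → PMF (Fin k)

/-- Expected movement of a policy on a request sequence, from history `h` and positions `p`. -/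
noncomputable def expCost (A : Policy X k) : List (X × Fin k) → (Fin k → X) → List X → ℝ
  | _, _, [] => 0
  | h, p, r :: σ => ∑ i : Fin k, (A h r i).toReal *
      (dist (p i) r + expCost A (h ++ [(r, i)]) (Function.update p i r) σ)

end Statement

/-- The logarithmic factor used everywhere. -/
noncomputable def Lk (k : ℕ) : ℝ := Real.log k + 2

/-- A finite filtered probability space: positive weights and decreasing equivalence relations
(`rel t ω ω'` means that `ω` and `ω'` cannot be told apart at time `t`). -/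
structure FS (Ω : Type) [Fintype Ω] where
  P : Ω → ℝ
  pos : ∀ ω, 0 < P ω
  sum_one : ∑ ω, P ω = 1
  rel : ℕ → Ω → Ω → Prop
  equiv : ∀ t, Equivalence (rel t)
  anti : ∀ t ω ω', rel (t + 1) ω ω' → rel t ω ω'

variable {Ω : Type} [Fintype Ω]

/-- Expectation. -/
noncomputable def FS.E (F : FS Ω) (f : Ω → ℝ) : ℝ := ∑ ω, F.P ω * f ω

open Classical in
/-- Posterior weight of `ω'` at time `t` when the true outcome is `ω`. -/
noncomputable def FS.cw (F : FS Ω) (t : ℕ) (ω ω' : Ω) : ℝ :=
  if F.rel t ω ω' then F.P ω' / ∑ ω'', if F.rel t ω ω'' then F.P ω'' else 0 else 0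

/-- A process whose value at time `t` only depends on the information at time `t`. -/
def FS.Adapted (F : FS Ω) {α : Type} (f : ℕ → Ω → α) : Prop :=
  ∀ t ω ω', F.rel t ω ω' → f t ω = f t ω'

/-- An offline service of random requests: `r (t+1)` is the request of step `t → t+1`, it is
known at time `t+1`, and it is served by moving the server `mv (t+1)`. -/
structure Svc (F : FS Ω) (X : Type) (k : ℕ) where
  s : Fin k → X
  r : ℕ → Ω → X
  r_ad : F.Adapted r
  mv : ℕ → Ω → Fin k
  x : ℕ → Ω → Fin k → X
  x_zero : ∀ ω, x 0 ω = s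
  x_succ : ∀ t ω, x (t + 1) ω = Function.update (x t ω) (mv (t + 1) ω) (r (t + 1) ω)

/-- A pseudo-metric given as a plain function (used for rescaled distances). -/
structure IsD {X : Type} (d : X → X → ℝ) : Prop where
  refl : ∀ a, d a a = 0
  symm : ∀ a b, d a b = d b a
  tri : ∀ a b c, d a c ≤ d a b + d b c

section Level

variable {X : Type} {k : ℕ}

open Classical in
/-- Posterior mass of offline servers within distance `u` of `r`. -/
noncomputable def ballMass (d : X → X → ℝ) (w : Ω → ℝ) (x : Ω → Fin k → X) (r : X) (u : ℝ) : ℝ :=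
  ∑ ω, w ω * ∑ l : Fin k, if d (x ω l) r ≤ u then (1 : ℝ) else 0

open Classical in
/-- The budget of one scale: it is summable over geometric scales with sum `O(log k)`. -/
noncomputable def budget (d : X → X → ℝ) (w : Ω → ℝ) (x : Ω → Fin k → X) (r : X) : ℝ :=
  ∑ ω, w ω * ∑ l : Fin k,
    if d (x ω l) r ≤ 11 ∧ 1 / 2 ≤ ballMass d w x r (d (x ω l) r) then
      d (x ω l) r / ballMass d w x r (d (x ω l) r) else 0

/-- Length of the offline move of step `t → t+1`. -/
noncomputable def Svc.step {F : FS Ω} (S : Svc F X k) (d : X → X → ℝ) (t : ℕ) (ω : Ω) : ℝ :=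
  d (S.x t ω (S.mv (t + 1) ω)) (S.r (t + 1) ω)

/-- What one scale may spend in step `t → t+1`. -/
noncomputable def Svc.gain {F : FS Ω} (S : Svc F X k) (d : X → X → ℝ) (t : ℕ) (ω : Ω) : ℝ :=
  (min (S.step d t ω) 1) ^ 2 + (min (∑ ω', F.cw (t + 1) ω ω' * S.step d t ω') 1) ^ 2 +
    Lk k * budget d (F.cw (t + 1) ω) (S.x t) (S.r (t + 1) ω) *
      ∑ ω', F.cw (t + 1) ω ω' * S.step d t ω'

end Level

open Classical in
/-- One scale of the dynamic embedding (unit scale): an adapted labelling with classes of
diameter at most 6 whose expected number of label changes of offline servers is controlled. -/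
def LevelStmt : Prop :=
  ∃ C : ℝ, 0 < C ∧ ∀ (k : ℕ), 2 ≤ k → ∀ (Ω : Type) [Fintype Ω] (F : FS Ω) (X : Type) [Fintype X]
    (d : X → X → ℝ), IsD d → ∀ (S : Svc F X k) (T : ℕ) (l₀ : Fin k) (ε : ℝ), 0 < ε →
    ∃ lab : ℕ → Ω → X → (Fin (T + 1) ⊕ Fin (T + 1) ⊕ X), F.Adapted lab ∧
      (∀ ω ω', lab 0 ω = lab 0 ω') ∧
      (∀ t ω a b, lab t ω a = lab t ω b → d a b ≤ 6) ∧
      (∀ ω l, d (S.s l) (S.s l₀) ≤ 2 → lab 0 ω (S.s l) = lab 0 ω (S.s l₀)) ∧
      F.E (fun ω => ∑ t ∈ range T, ∑ l : Fin k,
          if lab t ω (S.x t ω l) = lab (t + 1) ω (S.x (t + 1) ω l) then (0 : ℝ) else 1) ≤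
        C * F.E (fun ω => ∑ t ∈ range T, S.gain d t ω) +
          C * ∑ l : Fin k, (min (d (S.s l) (S.s l₀)) 1) ^ 2 + ε

section Tree

variable {Lab : Type} [Fintype Lab] [DecidableEq Lab]

/-- The nodes of depth `n` of the tree of all label lists (the head of a list is the deepest
label, the children of `v` are the lists `a :: v`, the ancestors of `v` are its suffixes). -/
def nodes (Lab : Type) [Fintype Lab] [DecidableEq Lab] : ℕ → Finset (List Lab)
  | 0 => {[]}
  | n + 1 => (nodes Lab n).biUnion fun v => Finset.univ.image fun a => a :: v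

/-- Weight of depth `n`. -/
noncomputable def wt (W : ℝ) (n : ℕ) : ℝ := W / 2 ^ n

/-- Tree distance of two nodes of depth at most `J`. -/
noncomputable def td (W : ℝ) (J : ℕ) (a b : List Lab) : ℝ :=
  ∑ n ∈ range (J + 1), wt W n * ∑ v ∈ nodes Lab n,
    |(if v <:+ a then (1 : ℝ) else 0) - (if v <:+ b then 1 else 0)|

end Tree

/-- The tree game.  Offline servers have a tree position `p` and a physical position `x`.  Each
step either moves tree positions up (new information allowed, physical moves short compared with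
the weight of the new node) or moves them down (no new information, no physical move).  An
adapted algorithm `V` has a server at `a` whenever the offline side surely has a server at one
fixed leaf `v`, physically at `a`. -/
def TreeStmt : Prop :=
  ∃ C : ℝ, 0 < C ∧ ∀ (k : ℕ), 2 ≤ k → ∀ (Ω : Type) [Fintype Ω] (F : FS Ω)
    (X : Type) [MetricSpace X] (Lab : Type) [Fintype Lab] [DecidableEq Lab]
    (W : ℝ) (J T n₀ : ℕ) (D : ℝ) (s : Fin k → X) (p₀ : Fin k → List Lab)
    (p : ℕ → Ω → Fin k → List Lab) (x : ℕ → Ω → Fin k → X),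
    0 < W → (∀ a b : X, dist a b ≤ 24 * wt W J → a = b) →
    (∀ t ω l, (p t ω l).length ≤ J) →
    (∀ ω, p 0 ω = p₀) → (∀ ω, x 0 ω = s) → (∀ l l', dist (s l) (s l') ≤ D) →
    (∀ v : List Lab, v.length < n₀ → ∀ l l', v <:+ p₀ l → v <:+ p₀ l') →
    (∀ t ω ω' l l' v, F.rel t ω ω' → v <:+ p t ω l → v <:+ p t ω' l' →
      dist (x t ω l) (x t ω' l') ≤ 6 * wt W v.length) →
    (∀ t, (∀ ω l, p (t + 1) ω l <:+ p t ω l ∧
              dist (x t ω l) (x (t + 1) ω l) ≤ wt W (p (t + 1) ω l).length) ∨
          ((∀ ω ω', F.rel t ω ω' → F.rel (t + 1) ω ω') ∧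
            ∀ ω l, p t ω l <:+ p (t + 1) ω l ∧ x (t + 1) ω l = x t ω l)) →
    ∃ V : ℕ → Ω → Fin k → X, F.Adapted V ∧
      (∀ t ω (v : List Lab) (a : X), v.length = J →
        (∀ ω', F.rel t ω ω' → ∃ l, p t ω' l = v ∧ x t ω' l = a) → ∃ i, V t ω i = a) ∧
      F.E (fun ω => ∑ i, dist (s i) (V 0 ω i) +
          ∑ t ∈ range T, ∑ i, dist (V t ω i) (V (t + 1) ω i)) ≤
        C * Lk k ^ 2 * F.E (fun ω => ∑ t ∈ range T, ∑ l, td W J (p t ω l) (p (t + 1) ω l)) +
        C * Lk k * F.E (fun ω => ∑ t ∈ range T, ∑ l, dist (x t ω l) (x (t + 1) ω l)) +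
        C * k * Lk k * (wt W n₀ + D)

/-- The Bayesian theorem: against a known distribution of requests there is an adapted
(not necessarily lazy) algorithm with ratio `O(log^4 k)` and an additive constant that depends
only on `k` and on the diameter `D` of the initial configuration. -/
def BayesStmt : Prop :=
  ∃ C : ℝ, 0 < C ∧ ∀ (k : ℕ), 2 ≤ k → ∀ (Ω : Type) [Fintype Ω] (F : FS Ω)
    (X : Type) [MetricSpace X] [Fintype X] (S : Svc F X k) (T : ℕ) (D : ℝ),
    (∀ l l', dist (S.s l) (S.s l') ≤ D) →
    ∃ V : ℕ → Ω → Fin k → X, F.Adapted V ∧ (∀ ω, V 0 ω = S.s) ∧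
      (∀ t ω, ∃ i, V (t + 1) ω i = S.r (t + 1) ω) ∧
      F.E (fun ω => ∑ t ∈ range T, ∑ i, dist (V t ω i) (V (t + 1) ω i)) ≤
        C * Lk k ^ 4 * F.E (fun ω => ∑ t ∈ range T, S.step dist t ω) +
          C * k * Lk k ^ 2 * (D + 1)

end Vale.Agent.P304
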