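import Mathlib

/-! P304, randomized k-server: the definitions used in the statement of the result. -/

namespace Vale.Agent.P304.KS

universe u

variable {X : Type u} [MetricSpace X] {k : ℕ}

/-- Total movement when, starting from positions `p`, each request `r` is served by moving the
server `i` listed next to it. -/
noncomputable def svcCost : (Fin k → X) → List (X × Fin k) → ℝ
  | _, [] => 0
  | p, (r, i) :: l => dist (p i) r + svcCost (Function.update p i r) l

/-- Optimal offline cost: minimum over all choices of the serving servers. -/
noncomputable def OPT (s : Fin k → X) (σ : List X) : ℝ :=
  ⨅ c : Fin σ.length → Fin k, svcCost s (List.ofFn fun t => (σ.get t, c t))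

/-- A randomized online policy: given the past requests with the servers chosen for them and the
current request, a probability distribution of the server that is moved. -/
def Policy (X : Type u) (k : ℕ) : Type u := List (X × Fin k) → X → PMF (Fin k)

/-- Expected movement of a policy on a request sequence, from history `h` and positions `p`. -/
noncomputable def expCost (A : Policy X k) : List (X × Fin k) → (Fin k → X) → List X → ℝ
  | _, _, [] => 0
  | h, p, r :: σ => ∑ i : Fin k, (A h r i).toReal *
      (dist (p i) r + expCost A (h ++ [(r, i)]) (Function.update p i r) σ)

end Vale.Agent.P304.KS
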