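import Vale.Agent.P304.FDefs

/-! P304 FINAL: basic facts on the offline optimum. -/

namespace Vale.Agent.P304.KS

universe u v

variable {X : Type u} [MetricSpace X] {k : ℕ}

theorem svcCost_nonneg (p : Fin k → X) (l : List (X × Fin k)) : 0 ≤ svcCost p l := by
  induction l generalizing p with
  | nil => exact le_rfl
  | cons a l ih => exact add_nonneg dist_nonneg (ih _)

theorem OPT_le (s : Fin k → X) (l : List (X × Fin k)) :
    OPT s (l.map Prod.fst) ≤ svcCost s l := by
  have h := ciInf_le (f := fun c : Fin (l.map Prod.fst).length → Fin k =>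
      svcCost s (List.ofFn fun t => ((l.map Prod.fst).get t, c t))) (Finite.bddBelow_range _)
    (fun t => (l.get (t.cast (List.length_map _))).2)
  refine h.trans (le_of_eq ?_)
  congr 1
  apply List.ext_getElem
  · simp
  · intro n h1 h2
    simp

theorem OPT_exists (hk : 0 < k) (s : Fin k → X) (σ : List X) :
    ∃ l : List (X × Fin k), l.map Prod.fst = σ ∧ svcCost s l = OPT s σ := by
  have : Nonempty (Fin k) := ⟨⟨0, hk⟩⟩
  obtain ⟨c, hc⟩ := exists_eq_ciInf_of_finite (f := fun c : Fin σ.length → Fin k =>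
      svcCost s (List.ofFn fun t => (σ.get t, c t)))
  refine ⟨_, ?_, hc⟩
  rw [List.map_ofFn]
  exact List.ofFn_get σ

theorem OPT_nonneg (hk : 0 < k) (s : Fin k → X) (σ : List X) : 0 ≤ OPT s σ := by
  obtain ⟨l, -, h⟩ := OPT_exists hk s σ
  rw [← h]
  exact svcCost_nonneg _ _

theorem svcCost_replicate (p : Fin k → X) (i : Fin k) (m : ℕ) :
    svcCost p (List.replicate m (p i, i)) = 0 := by
  induction m with
  | zero => rfl
  | succ m ih =>
    rw [List.replicate_succ, svcCost, Function.update_eq_self, ih, dist_self, add_zero]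

theorem svcCost_pad (i : Fin k) (m : ℕ) (l : List (X × Fin k)) (p : Fin k → X) :
    ∃ y : X, svcCost p (l ++ List.replicate m (y, i)) = svcCost p l := by
  induction l generalizing p with
  | nil => exact ⟨p i, svcCost_replicate p i m⟩
  | cons a l ih =>
    obtain ⟨r, j⟩ := a
    obtain ⟨y, hy⟩ := ih (Function.update p j r)
    exact ⟨y, by rw [List.cons_append, svcCost, svcCost, hy]⟩

theorem OPT_pad (hk : 0 < k) (s : Fin k → X) (σ : List X) (m : ℕ) :
    ∃ τ : List X, τ.length = m ∧ OPT s (σ ++ τ) ≤ OPT s σ := by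
  obtain ⟨l, h1, h2⟩ := OPT_exists hk s σ
  obtain ⟨y, hy⟩ := svcCost_pad ⟨0, hk⟩ m l s
  refine ⟨List.replicate m y, List.length_replicate, ?_⟩
  have := OPT_le s (l ++ List.replicate m (y, ⟨0, hk⟩))
  rw [List.map_append, h1, List.map_replicate, hy, h2] at this
  exact this

theorem svcCost_map {Y : Type v} [MetricSpace Y] (ι : Y → X)
    (hι : ∀ a b, dist (ι a) (ι b) = dist a b) (l : List (Y × Fin k)) (p : Fin k → Y) :
    svcCost (ι ∘ p) (l.map (Prod.map ι id)) = svcCost p l := by
  induction l generalizing p with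
  | nil => rfl
  | cons a l ih =>
    obtain ⟨r, j⟩ := a
    rw [List.map_cons, Prod.map_apply, svcCost, svcCost, ← ih, Function.comp_apply, hι,
      Function.comp_update]
    rfl

omit [MetricSpace X] in
theorem exists_pull {Y : Type v} (ι : Y → X) (σ : List Y) (l : List (X × Fin k))
    (h : l.map Prod.fst = σ.map ι) :
    ∃ l' : List (Y × Fin k), l'.map Prod.fst = σ ∧ l'.map (Prod.map ι id) = l := by
  induction σ generalizing l with
  | nil =>
    refine ⟨[], rfl, ?_⟩
    exact (List.map_eq_nil_iff.1 h).symm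
  | cons r σ ih =>
    cases l with
    | nil => simp at h
    | cons a l =>
      simp only [List.map_cons, List.cons.injEq] at h
      obtain ⟨l', h1, h2⟩ := ih l h.2
      refine ⟨(r, a.2) :: l', by simp [h1], ?_⟩
      simp [h2, ← h.1]

theorem OPT_map (hk : 0 < k) {Y : Type v} [MetricSpace Y] (ι : Y → X)
    (hι : ∀ a b, dist (ι a) (ι b) = dist a b) (p : Fin k → Y) (σ : List Y) :
    OPT p σ ≤ OPT (ι ∘ p) (σ.map ι) := by
  obtain ⟨l, h1, h2⟩ := OPT_exists hk (ι ∘ p) (σ.map ι)
  obtain ⟨l', h3, h4⟩ := exists_pull ι σ l h1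
  rw [← h2, ← h4, svcCost_map ι hι, ← h3]
  exact OPT_le _ _

end Vale.Agent.P304.KS
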