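import Vale.Agent.P304.FDefs

/-! P304 FINAL: behavioural policies with real weights, mixing, continuity, transport. -/

namespace Vale.Agent.P304.KS

open Finset

universe u v

/-- policies with values in the standard simplex (a compact space) -/
abbrev RP (X : Type u) (k : ℕ) : Type u := List (X × Fin k) → X → stdSimplex ℝ (Fin k)

variable {X : Type u} [MetricSpace X] {k : ℕ}

/-- expected cost -/
noncomputable def rCost (A : RP X k) : List (X × Fin k) → (Fin k → X) → List X → ℝ
  | _, _, [] => 0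
  | h, p, r :: σ => ∑ i : Fin k, (A h r).1 i *
      (dist (p i) r + rCost A (h ++ [(r, i)]) (Function.update p i r) σ)

theorem rCost_nonneg (A : RP X k) (σ : List X) (h : List (X × Fin k)) (p : Fin k → X) :
    0 ≤ rCost A h p σ := by
  induction σ generalizing h p with
  | nil => exact le_rfl
  | cons r σ ih =>
    exact sum_nonneg fun i _ => mul_nonneg ((A h r).2.1 i) (add_nonneg dist_nonneg (ih _ _))

theorem rCost_le_append (A : RP X k) (σ τ : List X) (h : List (X × Fin k)) (p : Fin k → X) :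
    rCost A h p σ ≤ rCost A h p (σ ++ τ) := by
  induction σ generalizing h p with
  | nil => exact rCost_nonneg _ _ _ _
  | cons r σ ih =>
    exact sum_le_sum fun i _ => mul_le_mul_of_nonneg_left (add_le_add le_rfl (ih _ _))
      ((A h r).2.1 i)

theorem continuous_rCost (σ : List X) (h : List (X × Fin k)) (p : Fin k → X) :
    Continuous fun A : RP X k => rCost A h p σ := by
  induction σ generalizing h p with
  | nil => exact continuous_const
  | cons r σ ih =>
    refine continuous_finsetSum _ fun i _ => Continuous.mul ?_ (continuous_const.add (ih _ _))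
    exact (continuous_apply i).comp (continuous_subtype_val.comp
      ((continuous_apply r).comp (continuous_apply h)))

/-- reach probability along a reversed history -/
noncomputable def zr (A : RP X k) : List (X × Fin k) → ℝ
  | [] => 1
  | x :: l => zr A l * (A l.reverse x.1).1 x.2

omit [MetricSpace X] in
theorem zr_nonneg (A : RP X k) (l : List (X × Fin k)) : 0 ≤ zr A l := by
  induction l with
  | nil => exact zero_le_one
  | cons x l ih => exact mul_nonneg ih ((A _ _).2.1 _)

omit [MetricSpace X] in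
theorem exists_reach (A : RP X k) : ∃ z : List (X × Fin k) → ℝ, z [] = 1 ∧ (∀ h, 0 ≤ z h) ∧
    ∀ h r i, z (h ++ [(r, i)]) = z h * (A h r).1 i :=
  ⟨fun h => zr A h.reverse, rfl, fun _ => zr_nonneg _ _, fun h r i => by simp [zr]⟩

theorem exists_mix (A₁ A₂ : RP X k) {a b : ℝ} (ha : 0 ≤ a) (hb : 0 ≤ b) (hab : a + b = 1) :
    ∃ A : RP X k, ∀ p σ, rCost A [] p σ = a * rCost A₁ [] p σ + b * rCost A₂ [] p σ := by
  classical
  obtain ⟨z₁, h10, h11, h12⟩ := exists_reach A₁
  obtain ⟨z₂, h20, h21, h22⟩ := exists_reach A₂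
  have key : ∀ h r, ∃ w : stdSimplex ℝ (Fin k), ∀ i,
      (a * z₁ h + b * z₂ h) * w.1 i = a * z₁ (h ++ [(r, i)]) + b * z₂ (h ++ [(r, i)]) := by
    intro h r
    have hu : 0 ≤ a * z₁ h := mul_nonneg ha (h11 h)
    have hv : 0 ≤ b * z₂ h := mul_nonneg hb (h21 h)
    by_cases h0 : a * z₁ h + b * z₂ h = 0
    · refine ⟨A₁ h r, fun i => ?_⟩
      have e1 : a * z₁ h = 0 := by linarith
      have e2 : b * z₂ h = 0 := by linarith
      rw [h12, h22, ← mul_assoc, ← mul_assoc, e1, e2]
      ring
    · have hp : 0 < a * z₁ h + b * z₂ h := lt_of_le_of_ne (add_nonneg hu hv) (Ne.symm h0)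
      refine ⟨⟨_, convex_stdSimplex ℝ (Fin k) (A₁ h r).2 (A₂ h r).2 (div_nonneg hu hp.le)
        (div_nonneg hv hp.le) (by rw [← add_div, div_self h0])⟩, fun i => ?_⟩
      rw [h12, h22]
      simp only [Pi.add_apply, Pi.smul_apply, smul_eq_mul]
      field_simp
  choose A hA using key
  have main : ∀ σ h p, (a * z₁ h + b * z₂ h) * rCost A h p σ =
      a * z₁ h * rCost A₁ h p σ + b * z₂ h * rCost A₂ h p σ := by
    intro σ
    induction σ with
    | nil => intro h p; simp [rCost]
    | cons r σ ih =>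
      intro h p
      simp only [rCost, mul_sum, ← sum_add_distrib]
      refine sum_congr rfl fun i _ => ?_
      have e := ih (h ++ [(r, i)]) (Function.update p i r)
      rw [← mul_assoc, hA, mul_add, e, h12, h22]
      ring
  refine ⟨A, fun p σ => ?_⟩
  have := main σ [] p
  rwa [h10, h20, mul_one, mul_one, hab, one_mul] at this

theorem exists_map {Y : Type v} [MetricSpace Y] (ι : Y → X)
    (hι : ∀ a b, dist (ι a) (ι b) = dist a b) (ρ : X → Y) (hρ : ∀ y, ρ (ι y) = y) (A : RP Y k) :
    ∃ A' : RP X k, ∀ p σ, rCost A' [] (ι ∘ p) (List.map ι σ) = rCost A [] p σ := by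
  refine ⟨fun h r => A (h.map (Prod.map ρ id)) (ρ r), fun p σ => ?_⟩
  suffices H : ∀ h : List (X × Fin k), rCost (fun h r => A (h.map (Prod.map ρ id)) (ρ r)) h (ι ∘ p)
      (List.map ι σ) = rCost A (h.map (Prod.map ρ id)) p σ from H []
  induction σ generalizing p with
  | nil => intro h; rfl
  | cons r σ ih =>
    intro h
    simp only [List.map_cons, rCost, hρ]
    refine sum_congr rfl fun i _ => ?_
    rw [← Function.comp_update, ih, Function.comp_apply, hι]
    simp [hρ]

theorem exists_policy (A : RP X k) : ∃ P : Policy X k, ∀ h p σ, expCost P h p σ = rCost A h p σ := by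
  refine ⟨fun h r => PMF.ofFintype (fun i => ENNReal.ofReal ((A h r).1 i)) ?_, fun h p σ => ?_⟩
  · rw [← ENNReal.ofReal_sum_of_nonneg fun i _ => (A h r).2.1 i, (A h r).2.2, ENNReal.ofReal_one]
  · induction σ generalizing h p with
    | nil => rfl
    | cons r σ ih =>
      simp only [expCost, rCost]
      refine sum_congr rfl fun i _ => ?_
      rw [ih, PMF.ofFintype_apply, ENNReal.toReal_ofReal ((A h r).2.1 i)]

/-- finite minimax -/
theorem minimax {K : Type u} [TopologicalSpace K] [CompactSpace K] {ι : Type} [Fintype ι]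
    (f : K → ι → ℝ) (hf : Continuous f) (b : ι → ℝ) (A₀ : K)
    (hmix : ∀ A₁ A₂ (a c : ℝ), 0 ≤ a → 0 ≤ c → a + c = 1 → ∃ A, f A = a • f A₁ + c • f A₂)
    (H : ∀ π : ι → ℝ, (∀ j, 0 ≤ π j) → ∑ j, π j = 1 → ∃ A, ∑ j, π j * f A j ≤ ∑ j, π j * b j) :
    ∃ A, ∀ j, f A j ≤ b j := by
  classical
  by_contra hne
  push Not at hne
  have hc : Convex ℝ (Set.range f) := by
    rintro _ ⟨A₁, rfl⟩ _ ⟨A₂, rfl⟩ a c ha hc hac
    exact hmix A₁ A₂ a c ha hc hac
  have hd : Disjoint (Set.range f) (Set.Iic b) := by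
    rw [Set.disjoint_left]
    rintro _ ⟨A, rfl⟩ hA
    obtain ⟨j, hj⟩ := hne A
    exact absurd (hA j) (not_le.2 hj)
  obtain ⟨φ, u, v, h1, h2, h3⟩ := geometric_hahn_banach_compact_closed hc (isCompact_range hf)
    (convex_Iic b) isClosed_Iic hd
  set e : ι → ℝ := fun j => φ (Pi.single j 1) with he
  have hφ : ∀ x : ι → ℝ, φ x = ∑ j, x j * e j := fun x => by
    conv_lhs => rw [pi_eq_sum_univ' x]
    rw [map_sum]
    exact sum_congr rfl fun j _ => by rw [map_smul, smul_eq_mul]
  have hb := h3 b (Set.mem_Iic.2 le_rfl)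
  have hneg : ∀ j, e j ≤ 0 := fun j => by
    by_contra hp
    push Not at hp
    have hm : b - ((φ b - v) / e j) • (Pi.single j 1 : ι → ℝ) ∈ Set.Iic b := by
      refine Set.mem_Iic.2 (sub_le_self _ (smul_nonneg (div_nonneg (by linarith) hp.le) ?_))
      exact Pi.single_nonneg.2 zero_le_one
    have := h3 _ hm
    rw [map_sub, map_smul, smul_eq_mul] at this
    change v < φ b - (φ b - v) / e j * e j at this
    rw [div_mul_cancel₀ _ hp.ne'] at this
    linarith
  have hS : 0 < ∑ j, -e j := by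
    by_contra hS
    have h0 : ∑ j, -e j = 0 := le_antisymm (not_lt.1 hS) (sum_nonneg fun j _ => neg_nonneg.2 (hneg j))
    rw [sum_eq_zero_iff_of_nonneg fun j _ => neg_nonneg.2 (hneg j)] at h0
    have hz : ∀ x, φ x = 0 := fun x => by
      rw [hφ]
      exact sum_eq_zero fun j hj => by rw [neg_eq_zero.1 (h0 j hj), mul_zero]
    have := h1 _ ⟨A₀, rfl⟩
    rw [hz] at this hb
    linarith
  obtain ⟨A, hA⟩ := H (fun j => -e j / ∑ j, -e j)
    (fun j => div_nonneg (neg_nonneg.2 (hneg j)) hS.le) (by rw [← sum_div, div_self hS.ne'])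
  have e1 : ∀ x : ι → ℝ, ∑ j, -e j / (∑ j, -e j) * x j = -φ x / ∑ j, -e j := fun x => by
    rw [hφ, ← sum_neg_distrib, sum_div]
    exact sum_congr rfl fun j _ => by ring
  rw [e1, e1, div_le_div_iff_of_pos_right hS] at hA
  have := h1 _ ⟨A, rfl⟩
  linarith

end Vale.Agent.P304.KS
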