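import Vale.Agent.P304.FSBasic
import Vale.Agent.P304.FOpt
import Vale.Agent.P304.FPol

/-! P304 FINAL (a): from the Bayesian theorem to a lazy deterministic policy. -/

namespace Vale.Agent.P304.KS

open Finset

universe u

variable {X : Type u} [MetricSpace X] {k : ℕ}

theorem svcCost_eq_sum (l : List (X × Fin k)) (x : ℕ → Fin k → X) (R : ℕ → X) (M : ℕ → Fin k)
    (hx : ∀ t, x (t + 1) = Function.update (x t) (M t) (R t))
    (hl : ∀ t (h : t < l.length), l[t] = (R t, M t)) :
    ∑ t ∈ range l.length, dist (x t (M t)) (R t) = svcCost (x 0) l := by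
  induction l generalizing x R M with
  | nil => rfl
  | cons a l ih =>
    have h0 : a = (R 0, M 0) := hl 0 (Nat.succ_pos _)
    have := ih (fun t => x (t + 1)) (fun t => R (t + 1)) (fun t => M (t + 1)) (fun t => hx (t + 1))
      (fun t h => hl (t + 1) (Nat.succ_lt_succ h))
    rw [List.length_cons, sum_range_succ', this, h0, svcCost, hx 0, add_comm]

/-- the deterministic policy given by a choice function on request sequences -/
noncomputable def det (a : List X → Fin k) : RP X k := fun h r =>
  ⟨Pi.single (a (h.map Prod.fst ++ [r])) 1, single_mem_stdSimplex ℝ _⟩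

theorem rCost_det (a : List X → Fin k) (L : List X) (h : List (X × Fin k)) (p : Fin k → X)
    (W : ℕ → Fin k → X)
    (hW : ∀ t (ht : t < L.length), W (t + 1) (a (h.map Prod.fst ++ L.take (t + 1))) = L[t]) :
    rCost (det a) h p L ≤ ∑ i, dist (p i) (W 0 i) +
      ∑ t ∈ range L.length, ∑ i, dist (W t i) (W (t + 1) i) := by
  induction L generalizing h p W with
  | nil => simpa [rCost] using sum_nonneg fun i _ => dist_nonneg
  | cons r L ih =>
    set i := a (h.map Prod.fst ++ [r]) with hi
    have h0 : W 1 i = r := hW 0 (Nat.succ_pos _)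
    have e : rCost (det a) h p (r :: L) =
        dist (p i) r + rCost (det a) (h ++ [(r, i)]) (Function.update p i r) L := by
      rw [rCost, sum_eq_single i]
      · simp [det, ← hi]
      · intro j _ hj
        simp [det, ← hi, hj]
      · simp
    have h1 := ih (h ++ [(r, i)]) (Function.update p i r) (fun t => W (t + 1)) (fun t ht => by
      have := hW (t + 1) (Nat.succ_lt_succ ht)
      simpa using this)
    have h2 : dist (p i) r + ∑ j, dist (Function.update p i r j) (W 1 j) =
        ∑ j, dist (p j) (W 1 j) := by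
      rw [← add_sum_erase _ _ (mem_univ i), ← add_sum_erase _ (fun j => dist (p j) (W 1 j))
        (mem_univ i), Function.update_self, h0, dist_self, zero_add]
      congr 1
      exact sum_congr rfl fun j hj => by rw [Function.update_of_ne (ne_of_mem_erase hj)]
    have h3 : ∑ j, dist (p j) (W 1 j) ≤ ∑ j, dist (p j) (W 0 j) + ∑ j, dist (W 0 j) (W 1 j) := by
      rw [← sum_add_distrib]
      exact sum_le_sum fun j _ => dist_triangle _ _ _
    rw [e, List.length_cons, sum_range_succ']
    simp only [zero_add] at h1 ⊢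
    linarith

/-- positions along an offline service -/
def traj {X : Type u} (s : Fin k → X) (R : ℕ → X) (M : ℕ → Fin k) : ℕ → Fin k → X
  | 0 => s
  | t + 1 => Function.update (traj s R M t) (M t) (R t)

theorem bayes_lazy (H : BayesStmt) : ∃ C : ℝ, 0 < C ∧ ∀ (k : ℕ), 2 ≤ k →
    ∀ (X : Type) [MetricSpace X] [Fintype X] (s : Fin k → X) (D : ℝ),
    (∀ l l', dist (s l) (s l') ≤ D) → ∀ (T : ℕ) (ι : Type) [Fintype ι] (σ : ι → List X),
    (∀ j, (σ j).length = T) → ∀ π : ι → ℝ, (∀ j, 0 ≤ π j) → ∑ j, π j = 1 →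
    ∃ A : RP X k, ∑ j, π j * rCost A [] s (σ j) ≤
      ∑ j, π j * (C * Lk k ^ 4 * OPT s (σ j) + C * k * Lk k ^ 2 * (D + 1)) := by
  classical
  obtain ⟨C, hC, H⟩ := H
  refine ⟨C, hC, fun k hk X _ _ s D hD T ι _ σ hσ π h0 h1 => ?_⟩
  have hk0 : 0 < k := by omega
  set i₀ : Fin k := ⟨0, hk0⟩
  choose l hl1 hl2 using fun j => OPT_exists hk0 s (σ j)
  have hsum : ∀ f : ι → ℝ, ∑ j, π j * f j = ∑ ω : {j // 0 < π j}, π ω.1 * f ω.1 := fun f => by
    rw [← sum_subtype (univ.filter fun j => 0 < π j) (by simp) fun j => π j * f j, sum_filter]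
    refine sum_congr rfl fun j _ => ?_
    split_ifs with h
    · rfl
    · rw [le_antisymm (not_lt.1 h) (h0 j), zero_mul]
  let F : FS {j // 0 < π j} :=
    { P := fun ω => π ω.1
      pos := fun ω => ω.2
      sum_one := by simpa [h1] using (hsum fun _ => 1).symm
      rel := fun t ω ω' => (σ ω.1).take t = (σ ω'.1).take t
      equiv := fun t => ⟨fun _ => rfl, Eq.symm, Eq.trans⟩
      anti := fun t ω ω' h => by
        have := congrArg (List.take t) h
        simpa [List.take_take] using this }
  let R : ι → ℕ → X := fun j t => (σ j).getD t (s i₀)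
  let M : ι → ℕ → Fin k := fun j t => ((l j).map Prod.snd).getD t i₀
  let S : Svc F X k :=
    { s := s
      r := fun t ω => Nat.casesOn t (s i₀) (R ω.1)
      r_ad := fun t ω ω' h => by
        cases t with
        | zero => rfl
        | succ t =>
          have h' : (σ ω.1).take (t + 1) = (σ ω'.1).take (t + 1) := h
          have := congrArg (fun L => L[t]?) h'
          simp only [List.getElem?_take_of_succ] at this
          simp only [R, List.getD_eq_getElem?_getD, this]
      mv := fun t ω => Nat.casesOn t i₀ (M ω.1)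
      x := fun t ω => traj s (R ω.1) (M ω.1) t
      x_zero := fun _ => rfl
      x_succ := fun _ _ => rfl }
  obtain ⟨V, hV1, hV2, hV3, hV4⟩ := H k hk _ F X S T D hD
  have key : ∀ L : List X, ∃ i : Fin k, ∀ (ω : {j // 0 < π j}) (t : ℕ), t < T →
      L = (σ ω.1).take (t + 1) → V (t + 1) ω i = R ω.1 t := by
    intro L
    by_cases hL : ∃ (ω : {j // 0 < π j}) (t : ℕ), t < T ∧ L = (σ ω.1).take (t + 1)
    · obtain ⟨ω, t, ht, hL⟩ := hL
      obtain ⟨i, hi⟩ := hV3 t ω
      refine ⟨i, fun ω' t' ht' hL' => ?_⟩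
      have e : t = t' := by
        have := congrArg List.length (hL.symm.trans hL')
        simp only [List.length_take, hσ] at this
        omega
      subst e
      have hr : F.rel (t + 1) ω ω' := hL.symm.trans hL'
      rw [← hV1 _ _ _ hr, hi]
      exact S.r_ad _ _ _ hr
    · exact ⟨i₀, fun ω t ht e => absurd ⟨ω, t, ht, e⟩ hL⟩
  choose a ha using key
  refine ⟨det a, ?_⟩
  have hopt : ∀ ω, ∑ t ∈ range T, S.step dist t ω = OPT s (σ ω.1) := fun ω => by
    have hlen : (l ω.1).length = T := by rw [← hσ ω.1, ← hl1, List.length_map]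
    rw [← hl2, ← hlen]
    refine svcCost_eq_sum (l ω.1) (traj s (R ω.1) (M ω.1)) (R ω.1) (M ω.1) (fun _ => rfl)
      fun t h => ?_
    simp only [R, M, ← hl1]
    rw [List.getD_eq_getElem _ _ (by simpa using h), List.getD_eq_getElem _ _ (by simpa using h)]
    simp
  have hlazy : ∀ ω : {j // 0 < π j}, rCost (det a) [] s (σ ω.1) ≤
      ∑ t ∈ range T, ∑ i, dist (V t ω i) (V (t + 1) ω i) := fun ω => by
    have := rCost_det a (σ ω.1) [] s (fun t => V t ω) fun t ht => by
      rw [List.map_nil, List.nil_append, ha _ ω t (hσ ω.1 ▸ ht) rfl]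
      exact List.getD_eq_getElem _ _ ht
    rw [hσ, hV2] at this
    simpa [S] using this
  rw [hsum, hsum]
  refine (F.E_mono hlazy).trans (hV4.trans (le_of_eq ?_))
  rw [funext hopt, ← F.E_mul, ← F.E_const (C * k * Lk k ^ 2 * (D + 1)), ← F.E_add]
  simp only [F.E_const]
  rfl

end Vale.Agent.P304.KS
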