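import Vale.Agent.P304.Defs

/-! P304: toolkit for finite filtered probability spaces. `F.ce t ω f` is the posterior mean of `f` at time `t`. -/

namespace Vale.Agent.P304

open Finset

variable {Ω : Type} [Fintype Ω]

namespace FS

variable (F : FS Ω)

theorem rel_refl (t : ℕ) (ω : Ω) : F.rel t ω ω := (F.equiv t).refl ω

theorem rel_symm {t : ℕ} {ω ω' : Ω} (h : F.rel t ω ω') : F.rel t ω' ω := (F.equiv t).symm h

theorem rel_trans {t : ℕ} {a b c : Ω} (h : F.rel t a b) (h' : F.rel t b c) : F.rel t a c :=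
  (F.equiv t).trans h h'

theorem rel_mono {t u : ℕ} (h : t ≤ u) {ω ω' : Ω} (hr : F.rel u ω ω') : F.rel t ω ω' := by
  induction u, h using Nat.le_induction with
  | base => exact hr
  | succ u _ ih => exact ih (F.anti u _ _ hr)

open Classical in
theorem den_pos (t : ℕ) (ω : Ω) : 0 < ∑ ω'', if F.rel t ω ω'' then F.P ω'' else 0 :=
  sum_pos' (fun a _ => by split_ifs; exacts [(F.pos a).le, le_rfl])
    ⟨ω, mem_univ _, by rw [if_pos (F.rel_refl t ω)]; exact F.pos ω⟩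

theorem cw_nonneg (t : ℕ) (ω ω' : Ω) : 0 ≤ F.cw t ω ω' := by
  unfold cw
  split_ifs
  · exact div_nonneg (F.pos _).le (F.den_pos t ω).le
  · exact le_rfl

theorem cw_pos_iff {t : ℕ} {ω ω' : Ω} : 0 < F.cw t ω ω' ↔ F.rel t ω ω' := by
  unfold cw
  split_ifs with h
  · exact iff_of_true (div_pos (F.pos _) (F.den_pos t ω)) h
  · exact iff_of_false (lt_irrefl _) h

theorem cw_eq_zero {t : ℕ} {ω ω' : Ω} (h : ¬F.rel t ω ω') : F.cw t ω ω' = 0 := if_neg h

theorem rel_of_cw_ne {t : ℕ} {ω ω' : Ω} (h : F.cw t ω ω' ≠ 0) : F.rel t ω ω' := by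
  by_contra k
  exact h (F.cw_eq_zero k)

theorem sum_cw (t : ℕ) (ω : Ω) : ∑ ω', F.cw t ω ω' = 1 := by
  classical
  have h := (F.den_pos t ω).ne'
  rw [← div_self h, sum_div]
  refine sum_congr rfl fun a _ => ?_
  unfold cw
  split_ifs <;> simp

theorem cw_congr {t : ℕ} {ω ω₂ : Ω} (h : F.rel t ω ω₂) : F.cw t ω = F.cw t ω₂ := by
  have e : F.rel t ω = F.rel t ω₂ := funext fun a => propext
    ⟨fun k => F.rel_trans (F.rel_symm h) k, fun k => F.rel_trans h k⟩
  funext a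
  unfold cw
  rw [e]

/-- a step that brings no information leaves the posterior unchanged -/
theorem cw_succ_eq {t : ℕ} (h : ∀ ω ω', F.rel t ω ω' → F.rel (t + 1) ω ω') (ω : Ω) :
    F.cw (t + 1) ω = F.cw t ω := by
  have e : F.rel (t + 1) ω = F.rel t ω := funext fun a => propext ⟨F.anti t ω a, h ω a⟩
  funext a
  unfold cw
  rw [e]

theorem cw_adapted : F.Adapted F.cw := fun _ _ _ h => F.cw_congr h

theorem P_mul_cw (t : ℕ) (ω ω' : Ω) : F.P ω * F.cw t ω ω' = F.P ω' * F.cw t ω' ω := by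
  by_cases h : F.rel t ω ω'
  · have e := F.cw_congr h
    have e1 : F.cw t ω' ω = F.cw t ω ω := by rw [e]
    rw [e1]
    unfold cw
    rw [if_pos h, if_pos (F.rel_refl t ω)]
    ring
  · rw [F.cw_eq_zero h, F.cw_eq_zero fun k => h (F.rel_symm k), mul_zero, mul_zero]

theorem tower (t : ℕ) (f : Ω → ℝ) : F.E (fun ω => ∑ ω', F.cw t ω ω' * f ω') = F.E f := by
  simp only [E, mul_sum, ← mul_assoc]
  rw [sum_comm]
  refine sum_congr rfl fun a _ => ?_
  rw [← sum_mul, sum_congr rfl fun b _ => F.P_mul_cw t b a, ← mul_sum, sum_cw, mul_one]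

theorem E_mono {f g : Ω → ℝ} (h : ∀ ω, f ω ≤ g ω) : F.E f ≤ F.E g :=
  sum_le_sum fun ω _ => mul_le_mul_of_nonneg_left (h ω) (F.pos ω).le

theorem E_const (c : ℝ) : F.E (fun _ => c) = c := by
  simp only [E, ← sum_mul, F.sum_one, one_mul]

theorem E_nonneg {f : Ω → ℝ} (h : ∀ ω, 0 ≤ f ω) : 0 ≤ F.E f :=
  sum_nonneg fun ω _ => mul_nonneg (F.pos ω).le (h ω)

theorem E_add (f g : Ω → ℝ) : F.E (fun ω => f ω + g ω) = F.E f + F.E g := by
  simp only [E, mul_add, sum_add_distrib]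

theorem E_sub (f g : Ω → ℝ) : F.E (fun ω => f ω - g ω) = F.E f - F.E g := by
  simp only [E, mul_sub, sum_sub_distrib]

theorem E_mul (c : ℝ) (f : Ω → ℝ) : F.E (fun ω => c * f ω) = c * F.E f := by
  simp only [E, mul_sum]
  exact sum_congr rfl fun _ _ => by ring

theorem E_sum {ι : Type*} (s : Finset ι) (f : ι → Ω → ℝ) :
    F.E (fun ω => ∑ i ∈ s, f i ω) = ∑ i ∈ s, F.E (f i) := by
  simp only [E, mul_sum]
  exact sum_comm

include F in
theorem nonempty : Nonempty Ω := by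
  by_contra h
  have := F.sum_one
  rw [not_nonempty_iff] at h
  simp at this

/-- the posterior mean only sees the values on the class -/
theorem ce_congr {t : ℕ} {ω : Ω} {f g : Ω → ℝ} (h : ∀ ω', F.rel t ω ω' → f ω' = g ω') :
    ∑ ω', F.cw t ω ω' * f ω' = ∑ ω', F.cw t ω ω' * g ω' :=
  sum_congr rfl fun a _ => by
    by_cases k : F.rel t ω a
    · rw [h a k]
    · rw [F.cw_eq_zero k, zero_mul, zero_mul]

theorem ce_mono {t : ℕ} {ω : Ω} {f g : Ω → ℝ} (h : ∀ ω', F.rel t ω ω' → f ω' ≤ g ω') :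
    ∑ ω', F.cw t ω ω' * f ω' ≤ ∑ ω', F.cw t ω ω' * g ω' :=
  sum_le_sum fun a _ => by
    by_cases k : F.rel t ω a
    · exact mul_le_mul_of_nonneg_left (h a k) (F.cw_nonneg _ _ _)
    · rw [F.cw_eq_zero k, zero_mul, zero_mul]

theorem ce_const (t : ℕ) (ω : Ω) (c : ℝ) : ∑ ω', F.cw t ω ω' * c = c := by
  rw [← sum_mul, sum_cw, one_mul]

/-- the posterior mean of a function that is constant on the class -/
theorem ce_of_const {t : ℕ} {ω : Ω} {f : Ω → ℝ} {c : ℝ} (h : ∀ ω', F.rel t ω ω' → f ω' = c) :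
    ∑ ω', F.cw t ω ω' * f ω' = c := by
  rw [F.ce_congr h, ce_const]

theorem E_nonpos_of_ce (t : ℕ) {f : Ω → ℝ} (h : ∀ ω, ∑ ω', F.cw t ω ω' * f ω' ≤ 0) : F.E f ≤ 0 := by
  rw [← F.tower t f, ← F.E_const 0]
  exact F.E_mono h

/-- telescoping with a potential -/
theorem telescope (T : ℕ) (c g φ : ℕ → Ω → ℝ)
    (h : ∀ t < T, ∀ ω, ∑ ω', F.cw (t + 1) ω ω' * (c t ω' + φ (t + 1) ω' - φ t ω' - g t ω') ≤ 0)
    (hT : ∀ ω, 0 ≤ ∑ ω', F.cw T ω ω' * φ T ω') :
    F.E (fun ω => ∑ t ∈ range T, c t ω) ≤ F.E (fun ω => ∑ t ∈ range T, g t ω) + F.E (φ 0) := by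
  have h1 : ∀ t ∈ range T, F.E (c t) ≤ F.E (g t) + (F.E (φ t) - F.E (φ (t + 1))) := fun t ht => by
    have := F.E_nonpos_of_ce (t + 1) (h t (mem_range.1 ht))
    rw [E_sub, E_sub, E_add] at this
    linarith
  have h2 : 0 ≤ F.E (φ T) := by
    rw [← F.tower T]
    exact F.E_nonneg hT
  have h3 := sum_le_sum h1
  rw [sum_add_distrib, sum_range_sub'] at h3
  rw [E_sum, E_sum]
  linarith

/-- an adapted recursion is adapted -/
theorem adapted_rec {α β : Type} (st : ℕ → Ω → α) (dat : ℕ → Ω → β) (U : ℕ → α → β → α)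
    (hd : F.Adapted dat) (h0 : ∀ ω ω', F.rel 0 ω ω' → st 0 ω = st 0 ω')
    (hs : ∀ t ω, st (t + 1) ω = U t (st t ω) (dat (t + 1) ω)) : F.Adapted st := by
  intro t
  induction t with
  | zero => exact h0
  | succ t ih =>
    intro ω ω' h
    rw [hs, hs, ih ω ω' (F.anti t _ _ h), hd _ _ _ h]

/-- existence of an adapted process from a one-step existence statement: `I t ω a` is the invariant, `R t ω a b` the
relation between consecutive states; both only depend on the class of `ω` -/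
theorem exists_adapted {α : Type} (a₀ : α) (I : ℕ → Ω → α → Prop) (R : ℕ → Ω → α → α → Prop)
    (hI : ∀ t ω ω' a, F.rel t ω ω' → I t ω a → I t ω' a)
    (hR : ∀ t ω ω' a b, F.rel (t + 1) ω ω' → R t ω a b → R t ω' a b)
    (h0 : ∀ ω, I 0 ω a₀) (hs : ∀ t ω a, I t ω a → ∃ b, I (t + 1) ω b ∧ R t ω a b) :
    ∃ st : ℕ → Ω → α, F.Adapted st ∧ (∀ ω, st 0 ω = a₀) ∧ (∀ t ω, I t ω (st t ω)) ∧
      ∀ t ω, R t ω (st t ω) (st (t + 1) ω) := by
  classical
  let U : ℕ → α → (Ω → Prop) → α := fun t a S =>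
    if h : ∃ b, ∀ ω, S ω → I (t + 1) ω b ∧ R t ω a b then h.choose else a
  let st : ℕ → Ω → α := fun t ω => Nat.rec a₀ (fun t a => U t a (F.rel (t + 1) ω)) t
  have key : ∀ t ω a, I t ω a → I (t + 1) ω (U t a (F.rel (t + 1) ω)) ∧ R t ω a (U t a (F.rel (t + 1) ω)) := by
    intro t ω a ha
    have h : ∃ b, ∀ ω', F.rel (t + 1) ω ω' → I (t + 1) ω' b ∧ R t ω' a b := by
      obtain ⟨b, h1, h2⟩ := hs t ω a ha
      exact ⟨b, fun ω' k => ⟨hI _ _ _ _ k h1, hR _ _ _ _ _ k h2⟩⟩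
    simp only [U, dif_pos h]
    exact h.choose_spec ω (F.rel_refl _ _)
  have inv : ∀ t ω, I t ω (st t ω) := fun t ω => by
    induction t with
    | zero => exact h0 ω
    | succ t ih => exact (key t ω _ ih).1
  refine ⟨st, F.adapted_rec st F.rel U (fun t ω ω' h => ?_) (fun _ _ _ => rfl) fun _ _ => rfl,
    fun _ => rfl, inv, fun t ω => (key t ω _ (inv t ω)).2⟩
  funext a
  exact propext ⟨fun k => F.rel_trans (F.rel_symm h) k, fun k => F.rel_trans h k⟩

end FS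

theorem two_le_Lk {k : ℕ} (hk : 1 ≤ k) : 2 ≤ Lk k := by
  have : 0 ≤ Real.log k := Real.log_nonneg (by exact_mod_cast hk)
  unfold Lk
  linarith

theorem wt_pos {W : ℝ} (h : 0 < W) (n : ℕ) : 0 < wt W n := by
  unfold wt
  positivity

theorem wt_succ (W : ℝ) (n : ℕ) : wt W n = 2 * wt W (n + 1) := by
  unfold wt
  rw [pow_succ]
  field_simp

theorem wt_anti {W : ℝ} (h : 0 < W) {m n : ℕ} (hmn : m ≤ n) : wt W n ≤ wt W m := by
  unfold wt
  gcongr
  norm_num

theorem mem_nodes {Lab : Type} [Fintype Lab] [DecidableEq Lab] {n : ℕ} {v : List Lab} :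
    v ∈ nodes Lab n ↔ v.length = n := by
  induction n generalizing v with
  | zero => simp [nodes]
  | succ n ih =>
    simp only [nodes, mem_biUnion, mem_image, mem_univ, true_and, ih]
    constructor
    · rintro ⟨w, hw, a, rfl⟩
      simp [hw]
    · intro h
      cases v with
      | nil => simp at h
      | cons a w => exact ⟨w, by simpa using h, a, rfl⟩

end Vale.Agent.P304
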