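import Vale.Agent.P304.FLazy

/-! P304 FINAL: minimax, reduction to finite spaces, compactness. -/

namespace Vale.Agent.P304.KS

open Finset

universe u

/-- a copy of `Fin n` without its standard instances -/
def Fn (n : ℕ) : Type := Fin n

theorem fin_case (H : BayesStmt) : ∃ C : ℝ, 0 < C ∧ ∀ (k : ℕ), 2 ≤ k →
    ∀ (X : Type) [MetricSpace X] [Fintype X] (s : Fin k → X) (D : ℝ),
    (∀ l l', dist (s l) (s l') ≤ D) → ∀ S : Finset (List X),
    ∃ A : RP X k, ∀ σ ∈ S, rCost A [] s σ ≤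
      C * Lk k ^ 4 * OPT s σ + C * k * Lk k ^ 2 * (D + 1) := by
  obtain ⟨C, hC, H⟩ := bayes_lazy H
  refine ⟨C, hC, fun k hk X _ _ s D hD S => ?_⟩
  have hk0 : 0 < k := by omega
  set T := S.sup List.length
  choose τ h1 h2 using fun σ : List X => OPT_pad hk0 s σ (T - σ.length)
  have hlen : ∀ j : S, (j.1 ++ τ j.1).length = T := fun j => by
    have : j.1.length ≤ T := le_sup (f := List.length) j.2
    rw [List.length_append, h1]
    omega
  obtain ⟨A, hA⟩ := minimax (K := RP X k) (ι := S) (fun A j => rCost A [] s (j.1 ++ τ j.1))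
    (continuous_pi fun j => continuous_rCost _ _ _)
    (fun j => C * Lk k ^ 4 * OPT s (j.1 ++ τ j.1) + C * k * Lk k ^ 2 * (D + 1))
    (det fun _ => ⟨0, hk0⟩)
    (fun A₁ A₂ a c ha hc hac => by
      obtain ⟨A, hA⟩ := exists_mix A₁ A₂ ha hc hac
      exact ⟨A, funext fun j => hA _ _⟩)
    (H k hk X s D hD T S (fun j => j.1 ++ τ j.1) hlen)
  refine ⟨A, fun σ hσ => (rCost_le_append A σ (τ σ) [] s).trans ((hA ⟨σ, hσ⟩).trans ?_)⟩
  have := h2 σ
  have : 0 ≤ C * Lk k ^ 4 := by positivity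
  gcongr

theorem gen_case (H : BayesStmt) : ∃ C : ℝ, 0 < C ∧ ∀ (k : ℕ), 2 ≤ k →
    ∀ (X : Type u) [MetricSpace X] (s : Fin k → X) (D : ℝ),
    (∀ l l', dist (s l) (s l') ≤ D) → ∀ S : Finset (List X),
    ∃ A : RP X k, ∀ σ ∈ S, rCost A [] s σ ≤
      C * Lk k ^ 4 * OPT s σ + C * k * Lk k ^ 2 * (D + 1) := by
  classical
  obtain ⟨C, hC, H⟩ := fin_case H
  refine ⟨C, hC, fun k hk X _ s D hD S => ?_⟩
  have hk0 : 0 < k := by omega
  set Z : Finset X := univ.image s ∪ S.biUnion List.toFinset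
  let ι : Fn Z.card → X := fun a => (Z.equivFin.symm a : Z)
  have hinj : Function.Injective ι := Subtype.val_injective.comp Z.equivFin.symm.injective
  have hsur : ∀ x ∈ Z, ∃ a, ι a = x := fun x hx => ⟨Z.equivFin ⟨x, hx⟩, by simp [ι]⟩
  let _ : Fintype (Fn Z.card) := inferInstanceAs (Fintype (Fin Z.card))
  let _ : MetricSpace (Fn Z.card) := MetricSpace.induced ι hinj inferInstance
  have hι : ∀ a b : Fn Z.card, dist (ι a) (ι b) = dist a b := fun _ _ => rfl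
  have hs : ∀ l, s l ∈ Z := fun l => mem_union_left _ (mem_image_of_mem _ (mem_univ _))
  have : Nonempty (Fn Z.card) := ⟨(hsur _ (hs ⟨0, hk0⟩)).choose⟩
  set ρ := Function.invFun ι
  have hρ : ∀ y, ρ (ι y) = y := Function.leftInverse_invFun hinj
  have hρ' : ∀ x ∈ Z, ι (ρ x) = x := fun x hx => Function.invFun_eq (hsur x hx)
  have hs' : ι ∘ (ρ ∘ s) = s := funext fun l => hρ' _ (hs l)
  obtain ⟨A, hA⟩ := H k hk (Fn Z.card) (ρ ∘ s) D
    (fun l l' => by rw [← hι, Function.comp_apply, Function.comp_apply, hρ' _ (hs l),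
      hρ' _ (hs l')]; exact hD l l') (S.image (List.map ρ))
  obtain ⟨A', hA'⟩ := exists_map ι hι ρ hρ A
  refine ⟨A', fun σ hσ => ?_⟩
  have e : (σ.map ρ).map ι = σ := by
    rw [List.map_map]
    conv_rhs => rw [← List.map_id σ]
    exact List.map_congr_left fun x hx => hρ' x
      (mem_union_right _ (mem_biUnion.2 ⟨σ, hσ, List.mem_toFinset.2 hx⟩))
  have h1 := hA' (ρ ∘ s) (σ.map ρ)
  have h2 := OPT_map hk0 ι hι (ρ ∘ s) (σ.map ρ)
  rw [hs', e] at h1 h2
  rw [h1]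
  refine (hA _ (mem_image_of_mem _ hσ)).trans ?_
  have : 0 ≤ C * Lk k ^ 4 := by positivity
  gcongr

theorem final (H : BayesStmt) : ∃ C : ℝ, ∀ k : ℕ, 2 ≤ k → ∀ (X : Type u) [MetricSpace X]
    (s : Fin k → X), ∃ (A : Policy X k) (B : ℝ), ∀ σ : List X,
      expCost A [] s σ ≤ C * Real.log k ^ 4 * OPT s σ + B := by
  obtain ⟨C, hC, H⟩ := gen_case.{u} H
  refine ⟨C * 4 ^ 4, fun k hk X _ s => ?_⟩
  obtain ⟨D, hD⟩ : ∃ D, ∀ l l', dist (s l) (s l') ≤ D := by
    obtain ⟨D, hD⟩ := Finite.bddAbove_range fun q : Fin k × Fin k => dist (s q.1) (s q.2)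
    exact ⟨D, fun l l' => hD ⟨(l, l'), rfl⟩⟩
  have key : ∃ A : RP X k, ∀ σ, rCost A [] s σ ≤
      C * Lk k ^ 4 * OPT s σ + C * k * Lk k ^ 2 * (D + 1) := by
    have := (isCompact_univ (X := RP X k)).inter_iInter_nonempty
      (fun σ : List X => {A : RP X k | rCost A [] s σ ≤
        C * Lk k ^ 4 * OPT s σ + C * k * Lk k ^ 2 * (D + 1)})
      (fun σ => isClosed_le (continuous_rCost _ _ _) continuous_const) fun S => by
        obtain ⟨A, hA⟩ := H k hk X s D hD S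
        exact ⟨A, Set.mem_univ _, Set.mem_iInter₂.2 hA⟩
    obtain ⟨A, -, hA⟩ := this
    exact ⟨A, Set.mem_iInter.1 hA⟩
  obtain ⟨A, hA⟩ := key
  obtain ⟨P, hP⟩ := exists_policy A
  refine ⟨P, C * k * Lk k ^ 2 * (D + 1), fun σ => ?_⟩
  rw [hP]
  refine (hA σ).trans ?_
  have h2 : Real.log 2 ≤ Real.log k := Real.log_le_log two_pos (by exact_mod_cast hk)
  have h3 := Real.log_two_gt_d9
  have h4 : Lk k ≤ 4 * Real.log k := by unfold Lk; linarith
  have h5 : 0 ≤ Lk k := by unfold Lk; linarith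
  have h6 := OPT_nonneg (by omega : 0 < k) s σ
  rw [mul_assoc C (4 ^ 4), ← mul_pow]
  gcongr

end Vale.Agent.P304.KS
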