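import Vale.Agent.P304.FSBasic

/-! P304 GLUE: sums over scales and tree distances of nested nodes. -/

namespace Vale.Agent.P304

open Finset

theorem glue_sq_step {a w : ℝ} (ha : 0 ≤ a) (hw : 0 < w) :
    2 * w * min (a / (2 * w)) 1 ^ 2 ≤ 6 * a * (2 * w / (a + 2 * w) - w / (a + w)) := by
  have h1 : 0 < a + 2 * w := by positivity
  have h2 : 0 < a + w := by positivity
  have e : 6 * a * (2 * w / (a + 2 * w) - w / (a + w)) =
      6 * a ^ 2 * w / ((a + 2 * w) * (a + w)) := by
    field_simp
    ring
  rw [e, le_div_iff₀ (by positivity)]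
  rcases le_total a (2 * w) with h | h
  · rw [min_eq_left ((div_le_one (by positivity)).2 h)]
    have e2 : 2 * w * (a / (2 * w)) ^ 2 * ((a + 2 * w) * (a + w)) =
        a ^ 2 * ((a + 2 * w) * (a + w)) / (2 * w) := by field_simp
    rw [e2, div_le_iff₀ (by positivity)]
    have : (a + 2 * w) * (a + w) ≤ 4 * w * (3 * w) := by gcongr <;> linarith
    nlinarith [sq_nonneg a]
  · rw [min_eq_right ((one_le_div (by positivity)).2 h)]
    have : (a + 2 * w) * (a + w) ≤ 2 * a * (3 / 2 * a) := by gcongr <;> linarith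
    nlinarith

theorem glue_sum_sq {a W : ℝ} (ha : 0 ≤ a) (hW : 0 < W) (N : ℕ) :
    ∑ n ∈ range N, wt W n * min (a / wt W n) 1 ^ 2 ≤ 6 * a := by
  have h : ∑ n ∈ range N, wt W n * min (a / wt W n) 1 ^ 2 ≤
      ∑ n ∈ range N, 6 * a * (wt W n / (a + wt W n) - wt W (n + 1) / (a + wt W (n + 1))) :=
    sum_le_sum fun n _ => by
      rw [wt_succ W n]
      exact glue_sq_step ha (wt_pos hW _)
  rw [← mul_sum, sum_range_sub' fun n => wt W n / (a + wt W n)] at h
  have h0 := wt_pos hW 0
  have hN := wt_pos hW N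
  have h1 : wt W 0 / (a + wt W 0) ≤ 1 := (div_le_one (by positivity)).2 (by linarith)
  have h2 : 0 ≤ wt W N / (a + wt W N) := by positivity
  nlinarith

theorem glue_sum_wt {W : ℝ} (hW : 0 < W) (N : ℕ) : ∑ n ∈ range N, wt W n ≤ 2 * W := by
  have h : ∑ n ∈ range N, wt W n = ∑ n ∈ range N, 2 * (wt W n - wt W (n + 1)) :=
    sum_congr rfl fun n _ => by rw [wt_succ W n]; ring
  rw [h, ← mul_sum, sum_range_sub']
  have := wt_pos hW N
  have e : wt W 0 = W := by simp [wt]
  linarith

theorem glue_sum_geo {s W : ℝ} (hs : 0 ≤ s) (hW : 0 < W) (N : ℕ) :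
    ∑ n ∈ range N, (if s / wt W n ≤ 11 then s / wt W n else 0) ≤ min (s / wt W N) 22 := by
  induction N with
  | zero => simpa using div_nonneg hs (wt_pos hW 0).le
  | succ N ih =>
    have e : s / wt W (N + 1) = 2 * (s / wt W N) := by
      rw [wt_succ W N]
      have := wt_pos hW (N + 1)
      field_simp
    have h0 : 0 ≤ s / wt W N := div_nonneg hs (wt_pos hW N).le
    have h1 := ih.trans (min_le_left _ _)
    have h2 := ih.trans (min_le_right _ _)
    rw [sum_range_succ, e, le_min_iff]
    split_ifs with h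
    · constructor <;> linarith
    · constructor <;> linarith

open Classical in
theorem glue_mass {ι : Type*} (I : Finset ι) (w s : ι → ℝ) (hw : ∀ i, 0 ≤ w i) :
    ∑ i ∈ I, w i * (4 / (2 * (∑ j ∈ I, if s j ≤ s i then w j else 0) + 1)) ≤
      2 * Real.log (2 * ∑ i ∈ I, w i + 1) := by
  induction I using Finset.induction_on_max_value s with
  | empty => simp
  | insert a I ha hmax ih =>
    have hm : 0 ≤ ∑ i ∈ I, w i := sum_nonneg fun i _ => hw i
    have hnn : ∀ (i) (J : Finset ι), 0 ≤ ∑ j ∈ J, if s j ≤ s i then w j else 0 := fun i J =>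
      sum_nonneg fun j _ => by split_ifs; exacts [hw j, le_rfl]
    rw [sum_insert ha, sum_insert ha (f := w)]
    have e1 : (∑ j ∈ insert a I, if s j ≤ s a then w j else 0) = w a + ∑ i ∈ I, w i := by
      rw [sum_insert ha, if_pos le_rfl]
      congr 1
      exact sum_congr rfl fun j hj => if_pos (hmax j hj)
    have h2 : ∑ i ∈ I, w i * (4 / (2 * (∑ j ∈ insert a I, if s j ≤ s i then w j else 0) + 1)) ≤
        ∑ i ∈ I, w i * (4 / (2 * (∑ j ∈ I, if s j ≤ s i then w j else 0) + 1)) :=
      sum_le_sum fun i _ => by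
        have := hnn i I
        have h3 : (∑ j ∈ I, if s j ≤ s i then w j else 0) ≤
            ∑ j ∈ insert a I, if s j ≤ s i then w j else 0 :=
          sum_le_sum_of_subset_of_nonneg (subset_insert _ _) fun j _ _ => by
            split_ifs; exacts [hw j, le_rfl]
        have := hw i
        gcongr
    rw [e1]
    set m := ∑ i ∈ I, w i
    have hwa := hw a
    have h4 := Real.one_sub_inv_le_log_of_pos
      (x := (2 * (w a + m) + 1) / (2 * m + 1)) (by positivity)
    rw [Real.log_div (by positivity) (by positivity)] at h4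
    have e2 : 1 - ((2 * (w a + m) + 1) / (2 * m + 1))⁻¹ = 2 * w a / (2 * (w a + m) + 1) := by
      field_simp
      ring
    have e3 : w a * (4 / (2 * (w a + m) + 1)) = 2 * (2 * w a / (2 * (w a + m) + 1)) := by ring
    rw [e2] at h4
    linarith

theorem glue_log {k : ℕ} (hk : 2 ≤ k) : Real.log (2 * k + 1) ≤ Lk k := by
  have hk' : (2 : ℝ) ≤ k := by exact_mod_cast hk
  have h1 : Real.log (2 * k + 1) ≤ Real.log (k * 3) := Real.log_le_log (by positivity) (by linarith)
  rw [Real.log_mul (by positivity) (by norm_num)] at h1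
  have h2 := Real.log_le_sub_one_of_pos (x := 3) (by norm_num)
  unfold Lk
  linarith

theorem glue_budget {Ω : Type} [Fintype Ω] {X : Type} [MetricSpace X] {k : ℕ} (hk : 2 ≤ k)
    {W : ℝ} (hW : 0 < W) (w : Ω → ℝ) (hw : ∀ ω, 0 ≤ w ω) (h1 : ∑ ω, w ω = 1)
    (x : Ω → Fin k → X) (r : X) (N : ℕ) :
    ∑ n ∈ range N, budget (fun a b => dist a b / wt W n) w x r ≤ 44 * Lk k := by
  classical
  set M : Ω × Fin k → ℝ := fun i =>
    ∑ j : Ω × Fin k, if dist (x j.1 j.2) r ≤ dist (x i.1 i.2) r then w j.1 else 0 with hM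
  have hb : ∀ n ω l, ballMass (fun a b => dist a b / wt W n) w x r (dist (x ω l) r / wt W n) =
      M (ω, l) := fun n ω l => by
    simp only [ballMass, hM, Fintype.sum_prod_type, mul_sum, div_le_div_iff_of_pos_right (wt_pos hW n)]
    refine sum_congr rfl fun a _ => sum_congr rfl fun b _ => ?_
    split_ifs <;> simp
  have hM0 : ∀ i, 0 ≤ M i := fun i => sum_nonneg fun j _ => by split_ifs; exacts [hw _, le_rfl]
  have h2 := glue_mass (univ : Finset (Ω × Fin k)) (fun j => w j.1) (fun j => dist (x j.1 j.2) r)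
    fun j => hw _
  have h3 : ∑ i : Ω × Fin k, w i.1 = k := by
    simp [Fintype.sum_prod_type, ← mul_sum, h1]
  rw [h3] at h2
  have h4 := glue_log hk
  calc _ ≤ ∑ n ∈ range N, ∑ i : Ω × Fin k, w i.1 * (4 / (2 * M i + 1)) *
        (if dist (x i.1 i.2) r / wt W n ≤ 11 then dist (x i.1 i.2) r / wt W n else 0) := by
        refine sum_le_sum fun n _ => ?_
        simp only [budget, hb, Fintype.sum_prod_type, mul_sum, mul_assoc]
        refine sum_le_sum fun ω _ => sum_le_sum fun l _ => mul_le_mul_of_nonneg_left ?_ (hw ω)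
        have := hM0 (ω, l)
        have hd : 0 ≤ dist (x ω l) r / wt W n := div_nonneg dist_nonneg (wt_pos hW n).le
        split_ifs with h h' h'
        · rw [div_eq_mul_inv _ (M _), mul_comm]
          refine mul_le_mul_of_nonneg_right ?_ hd
          rw [inv_eq_one_div, div_le_div_iff₀ (by linarith [h.2]) (by positivity)]
          linarith [h.2]
        · exact absurd h.1 h'
        · positivity
        · simp
    _ ≤ ∑ i : Ω × Fin k, w i.1 * (4 / (2 * M i + 1)) * 22 := by
        rw [sum_comm]
        refine sum_le_sum fun i _ => ?_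
        rw [← mul_sum]
        have := hM0 i
        have := hw i.1
        exact mul_le_mul_of_nonneg_left ((glue_sum_geo dist_nonneg hW N).trans (min_le_right _ _))
          (by positivity)
    _ ≤ _ := by
        rw [← sum_mul]
        have : ∑ i : Ω × Fin k, w i.1 * (4 / (2 * M i + 1)) ≤ 2 * Real.log (2 * k + 1) := by
          convert h2
        linarith

section
variable {Lab : Type} [Fintype Lab] [DecidableEq Lab]

theorem glue_td_symm (W : ℝ) (J : ℕ) (a b : List Lab) : td W J a b = td W J b a := by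
  unfold td
  simp only [abs_sub_comm]

theorem glue_td_self (W : ℝ) (J : ℕ) (a : List Lab) : td W J a a = 0 := by simp [td]

theorem glue_sum_tail {W : ℝ} (hW : 0 < W) (m N : ℕ) :
    ∑ n ∈ range N, (if m < n then wt W n else 0) ≤ wt W m := by
  have key : ∀ N, ∑ n ∈ range (N + 1), (if m < n then wt W n else 0) ≤ wt W m - wt W (max m N) := by
    intro N
    induction N with
    | zero => simp
    | succ N ih =>
      rw [sum_range_succ]
      split_ifs with h
      · rw [max_eq_right (by omega)] at ih ⊢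
        have := wt_succ W N
        linarith
      · rw [max_eq_left (by omega)] at ih ⊢
        linarith
  cases N with
  | zero => simpa using (wt_pos hW m).le
  | succ N => linarith [key N, wt_pos hW (max m N)]

theorem glue_td_suffix {W : ℝ} (hW : 0 < W) (J : ℕ) {a b : List Lab} (h : b <:+ a) :
    td W J a b ≤ wt W b.length := by
  refine le_trans (sum_le_sum fun n _ => ?_) (glue_sum_tail hW b.length (J + 1))
  split_ifs with hn
  · refine mul_le_of_le_one_right (wt_pos hW n).le ?_
    have e : ∀ v ∈ nodes Lab n, |(if v <:+ a then (1 : ℝ) else 0) - (if v <:+ b then 1 else 0)| ≤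
        if v = a.drop (a.length - n) then 1 else 0 := fun v hv => by
      have hv' := mem_nodes.1 hv
      rw [if_neg (c := v <:+ b) fun hb => by have := hb.length_le; omega, sub_zero]
      by_cases hva : v <:+ a
      · rw [if_pos hva, if_pos (by rw [← hv']; exact List.suffix_iff_eq_drop.1 hva), abs_one]
      · rw [if_neg hva, abs_zero]
        split_ifs <;> norm_num
    refine (sum_le_sum e).trans ?_
    rw [sum_ite_eq']
    split_ifs <;> norm_num
  · rw [sum_eq_zero, mul_zero]
    intro v hv
    have hv' := mem_nodes.1 hv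
    have : v <:+ a ↔ v <:+ b :=
      ⟨fun hva => List.suffix_of_suffix_length_le hva h (by omega), fun hvb => hvb.trans h⟩
    simp [this]

end

end Vale.Agent.P304
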