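import Vale.Agent.P304.GNum

/-! P304 GLUE: paths of labels and the tree game played on them. -/

namespace Vale.Agent.P304

open Finset

/-- the node of depth `n` with labels `L 1, …, L n` -/
def pth {Lab : Type} (L : ℕ → Lab) : ℕ → List Lab
  | 0 => []
  | n + 1 => L (n + 1) :: pth L n

section
variable {Lab : Type}

theorem pth_length (L : ℕ → Lab) (n : ℕ) : (pth L n).length = n := by
  induction n with
  | zero => rfl
  | succ n ih => rw [pth, List.length_cons, ih]

theorem pth_suffix (L : ℕ → Lab) {m n : ℕ} (h : m ≤ n) : pth L m <:+ pth L n := by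
  induction n, h using Nat.le_induction with
  | base => exact List.suffix_rfl
  | succ n _ ih => exact ih.trans (List.suffix_cons _ _)

theorem eq_pth_of_suffix {L : ℕ → Lab} {n : ℕ} {v : List Lab} (h : v <:+ pth L n) :
    v = pth L v.length := by
  have h1 : v.length ≤ n := by simpa [pth_length] using h.length_le
  exact (List.suffix_of_suffix_length_le h (pth_suffix L h1) (pth_length _ _).ge).eq_of_length
    (pth_length _ _).symm

theorem pth_congr {L L' : ℕ → Lab} {n : ℕ} (h : ∀ j ≤ n, L j = L' j) : pth L n = pth L' n := by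
  induction n with
  | zero => rfl
  | succ n ih => rw [pth, pth, h _ le_rfl, ih fun j hj => h j (by omega)]

variable [Fintype Lab] [DecidableEq Lab]

theorem glue_up {W δ : ℝ} (hW : 0 < W) (h0 : 0 ≤ δ) (hδ : δ ≤ W) (J : ℕ) (L L' : ℕ → Lab)
    (c : ℕ → ℝ) (hc : ∀ n, 0 ≤ c n) (hJ : L J ≠ L' J → wt W J ≤ δ)
    (hn : ∀ n < J, L n ≠ L' n → 1 ≤ c n) :
    ∃ m ≤ J, pth L m = pth L' m ∧ δ ≤ wt W m ∧
      td W J (pth L J) (pth L m) + td W J (pth L m) (pth L' J) ≤
        4 * δ + 4 * ∑ n ∈ range J, wt W n * c n := by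
  classical
  let P : ℕ → Prop := fun n => pth L n = pth L' n ∧ δ ≤ wt W n
  have hP : P (Nat.findGreatest P J) :=
    Nat.findGreatest_spec (Nat.zero_le J) ⟨rfl, by simpa [wt] using hδ⟩
  have hle : Nat.findGreatest P J ≤ J := Nat.findGreatest_le J
  have hmax : ∀ n, Nat.findGreatest P J < n → n ≤ J → ¬P n := fun n => Nat.findGreatest_is_greatest
  generalize Nat.findGreatest P J = m at hP hle hmax
  have hs : 0 ≤ ∑ n ∈ range J, wt W n * c n := sum_nonneg fun n _ => mul_nonneg (wt_pos hW n).le (hc n)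
  refine ⟨m, hle, hP.1, hP.2, ?_⟩
  rcases hle.eq_or_lt with rfl | hlt
  · rw [← hP.1, glue_td_self]
    linarith
  · have h1 := glue_td_suffix hW J (pth_suffix L hle)
    have h2 := glue_td_suffix hW J (pth_suffix L' hle)
    rw [pth_length] at h1 h2
    rw [glue_td_symm, ← hP.1] at h2
    have h3 := wt_succ W m
    by_cases h4 : δ ≤ wt W (m + 1)
    · have h5 : L (m + 1) ≠ L' (m + 1) := fun e =>
        hmax (m + 1) (Nat.lt_succ_self m) hlt ⟨by rw [pth, pth, e, hP.1], h4⟩
      rcases (Nat.succ_le_of_lt hlt).eq_or_lt with e | hlt'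
      · have e' : m + 1 = J := e
        rw [e'] at h5 h3
        linarith [hJ h5]
      · have h6 := single_le_sum (f := fun n => wt W n * c n)
          (fun n _ => mul_nonneg (wt_pos hW n).le (hc n)) (mem_range.2 hlt')
        have h7 := le_mul_of_one_le_right (wt_pos hW (m + 1)).le (hn _ hlt' h5)
        simp only [Nat.succ_eq_add_one] at h6
        linarith
    · linarith

end

theorem sum_range_two_mul (f : ℕ → ℝ) (T : ℕ) :
    ∑ u ∈ range (2 * T), f u = ∑ t ∈ range T, (f (2 * t) + f (2 * t + 1)) := by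
  induction T with
  | zero => rfl
  | succ T ih => rw [Nat.mul_succ, sum_range_succ, sum_range_succ, ih, sum_range_succ, add_assoc]

theorem Svc.sum_dist {Ω : Type} [Fintype Ω] {F : FS Ω} {X : Type} [MetricSpace X] {k : ℕ}
    (S : Svc F X k) (t : ℕ) (ω : Ω) :
    ∑ l, dist (S.x t ω l) (S.x (t + 1) ω l) = S.step dist t ω := by
  rw [S.x_succ, sum_eq_single (S.mv (t + 1) ω)]
  · rw [Function.update_self]
    rfl
  · intro j _ hj
    rw [Function.update_of_ne hj, dist_self]
  · simp

theorem glue_skip {X : Type} [MetricSpace X] {k : ℕ} (s : Fin k → X) (V : ℕ → Fin k → X) (T : ℕ) :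
    ∑ t ∈ range T, ∑ i, dist ((if t = 0 then s else V (2 * t)) i)
        ((if t + 1 = 0 then s else V (2 * (t + 1))) i) ≤
      ∑ i, dist (s i) (V 0 i) + ∑ u ∈ range (2 * T), ∑ i, dist (V u i) (V (u + 1) i) := by
  have key : ∑ t ∈ range T, ∑ i, dist ((if t = 0 then s else V (2 * t)) i)
        ((if t + 1 = 0 then s else V (2 * (t + 1))) i) +
        ∑ i, dist ((if T = 0 then s else V (2 * T)) i) (V (2 * T) i) ≤
      ∑ i, dist (s i) (V 0 i) + ∑ u ∈ range (2 * T), ∑ i, dist (V u i) (V (u + 1) i) := by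
    induction T with
    | zero => simp
    | succ T ih =>
      rw [sum_range_succ, Nat.mul_succ, sum_range_succ, sum_range_succ, if_neg T.succ_ne_zero]
      have : ∑ i, dist ((if T = 0 then s else V (2 * T)) i) (V (2 * T + 2) i) ≤
          ∑ i, dist ((if T = 0 then s else V (2 * T)) i) (V (2 * T) i) +
          ∑ i, dist (V (2 * T) i) (V (2 * T + 1) i) +
          ∑ i, dist (V (2 * T + 1) i) (V (2 * T + 1 + 1) i) := by
        rw [← sum_add_distrib, ← sum_add_distrib]
        exact sum_le_sum fun i _ => dist_triangle4 _ _ _ _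
      simp only [dist_self, sum_const_zero]
      linarith
  have : 0 ≤ ∑ i, dist ((if T = 0 then s else V (2 * T)) i) (V (2 * T) i) :=
    sum_nonneg fun _ _ => dist_nonneg
  linarith

open Classical in
theorem glue_tree (HT : TreeStmt) : ∃ C : ℝ, 0 < C ∧ ∀ (k : ℕ), 2 ≤ k →
    ∀ (Ω : Type) [Fintype Ω] (F : FS Ω) (X : Type) [MetricSpace X] (S : Svc F X k)
    (Lab : Type) [Fintype Lab] (W : ℝ) (J T n₀ : ℕ) (D : ℝ) (lab : ℕ → ℕ → Ω → X → Lab)
    (g : X → Lab), Function.Injective g → 0 < W → (∀ a b : X, dist a b ≤ W) →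
    (∀ a b : X, dist a b ≤ 24 * wt W J → a = b) → n₀ ≤ J →
    (∀ l l', dist (S.s l) (S.s l') ≤ D) → (∀ n, F.Adapted (lab n)) →
    (∀ n ω ω', lab n 0 ω = lab n 0 ω') →
    (∀ n t ω a b, lab n t ω a = lab n t ω b → dist a b ≤ 6 * wt W n) →
    (∀ n < n₀, ∀ ω l l', lab n 0 ω (S.s l) = lab n 0 ω (S.s l')) →
    ∃ V : ℕ → Ω → Fin k → X, F.Adapted V ∧ (∀ ω, V 0 ω = S.s) ∧
      (∀ t ω, ∃ i, V (t + 1) ω i = S.r (t + 1) ω) ∧
      F.E (fun ω => ∑ t ∈ range T, ∑ i, dist (V t ω i) (V (t + 1) ω i)) ≤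
        C * Lk k ^ 2 * (4 * F.E (fun ω => ∑ t ∈ range T, S.step dist t ω) +
          4 * ∑ n ∈ range J, wt W n * F.E (fun ω => ∑ t ∈ range T, ∑ l : Fin k,
            if lab n t ω (S.x t ω l) = lab n (t + 1) ω (S.x (t + 1) ω l) then (0 : ℝ) else 1)) +
        C * Lk k * F.E (fun ω => ∑ t ∈ range T, S.step dist t ω) +
        C * k * Lk k * (wt W n₀ + D) := by
  obtain ⟨C, hC, HT⟩ := HT
  refine ⟨C, hC, fun k hk Ω _ F X _ S Lab _ W J T n₀ D lab g hg hW hWd hJ hn₀ hD h1 h2 h3 h4 => ?_⟩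
  obtain ⟨ω₀⟩ := F.nonempty
  set L : ℕ → Ω → X → ℕ → Lab := fun t ω a n => if n = J then g a else lab n t ω a with hL
  have hLad : ∀ t ω ω', F.rel t ω ω' → L t ω = L t ω' := fun t ω ω' h => by
    funext a n
    simp only [hL, h1 n t ω ω' h]
  choose m hm1 hm2 hm3 hm4 using fun t ω l => glue_up hW dist_nonneg
    (hWd (S.x t ω l) (S.x (t + 1) ω l)) J (L t ω (S.x t ω l)) (L (t + 1) ω (S.x (t + 1) ω l))
    (fun n => if lab n t ω (S.x t ω l) = lab n (t + 1) ω (S.x (t + 1) ω l) then (0 : ℝ) else 1)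
    (fun n => by split_ifs <;> norm_num)
    (fun h => by
      by_contra hc
      have := wt_pos hW J
      exact h (by simp only [hL, if_true]; rw [hJ (S.x t ω l) (S.x (t + 1) ω l) (by linarith)]))
    (fun n hn h => by
      simp only [hL, if_neg hn.ne] at h
      rw [if_neg h])
  let F' : FS Ω :=
    { P := F.P, pos := F.pos, sum_one := F.sum_one
      rel := fun u => F.rel ((u + 1) / 2)
      equiv := fun u => F.equiv _
      anti := fun u ω ω' h => F.rel_mono (by omega) h }
  let p : ℕ → Ω → Fin k → List Lab := fun u ω l =>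
    pth (L (u / 2) ω (S.x (u / 2) ω l)) (if u % 2 = 0 then J else m (u / 2) ω l)
  have p0 : ∀ t ω l, p (2 * t) ω l = pth (L t ω (S.x t ω l)) J := fun t ω l => by
    simp only [p]
    rw [if_pos (by omega), show 2 * t / 2 = t by omega]
  have p1 : ∀ t ω l, p (2 * t + 1) ω l = pth (L t ω (S.x t ω l)) (m t ω l) := fun t ω l => by
    simp only [p]
    rw [if_neg (by omega), show (2 * t + 1) / 2 = t by omega]
  have p2 : ∀ t ω l, p (2 * t + 1 + 1) ω l = pth (L (t + 1) ω (S.x (t + 1) ω l)) J :=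
    fun t ω l => p0 (t + 1) ω l
  have d0 : ∀ t, (2 * t + 1) / 2 = t := fun t => by omega
  have d1 : ∀ t, (2 * t + 1 + 1) / 2 = t + 1 := fun t => by omega
  have d2 : ∀ t, (2 * t + 1 + 1 + 1) / 2 = t + 1 := fun t => by omega
  have ps : ∀ u ω l, p u ω l <:+ pth (L ((u + 1) / 2) ω (S.x ((u + 1) / 2) ω l)) J := by
    intro u ω l
    obtain ⟨t, rfl | rfl⟩ := Nat.even_or_odd' u
    · rw [p0, d0]
    · rw [p1, d1, hm2]
      exact pth_suffix _ (hm1 _ _ _)
  obtain ⟨V, hV1, hV2, hV3⟩ := HT k hk Ω F' X Lab W J (2 * T) n₀ D S.s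
    (fun l => pth (L 0 ω₀ (S.s l)) J) p (fun u => S.x ((u + 1) / 2)) hW hJ
    (fun u ω l => by simpa [pth_length] using (ps u ω l).length_le)
    (fun ω => funext fun l => by
      rw [show (0 : ℕ) = 2 * 0 from rfl, p0, S.x_zero]
      simp only [hL, h2 _ ω ω₀])
    (fun ω => by simpa using S.x_zero ω) hD
    (fun v hv l l' h => by
      rw [eq_pth_of_suffix h, pth_congr (L' := L 0 ω₀ (S.s l')) fun j hj => by
        simp only [hL, if_neg (show j ≠ J by omega)]
        exact h4 j (by omega) _ _ _]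
      exact pth_suffix _ (by omega))
    (fun u ω ω' l l' v hr hv hv' => by
      have e1 := eq_pth_of_suffix (hv.trans (ps u ω l))
      have e2 := eq_pth_of_suffix (hv'.trans (ps u ω' l'))
      rw [← hLad _ _ _ hr] at e2
      have e := e1.symm.trans e2
      generalize v.length = n at e
      cases n with
      | zero => exact (hWd _ _).trans (by simp only [wt]; linarith)
      | succ n =>
        have e' := (List.cons.inj e).1
        simp only [hL] at e'
        split_ifs at e' with hn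
        · rw [hg e', dist_self]
          exact mul_nonneg (by norm_num) (wt_pos hW _).le
        · exact h3 _ _ _ _ _ e')
    (fun u => by
      obtain ⟨t, rfl | rfl⟩ := Nat.even_or_odd' u
      · refine Or.inl fun ω l => ?_
        rw [p0, p1, d0, d1, pth_length]
        exact ⟨pth_suffix _ (hm1 _ _ _), hm3 _ _ _⟩
      · refine Or.inr ⟨fun ω ω' h => ?_, fun ω l => ?_⟩
        · change F.rel _ _ _ at h ⊢
          rw [d1] at h
          rwa [d2]
        · rw [p1, p2, d1, d2, hm2]
          exact ⟨pth_suffix _ (hm1 _ _ _), rfl⟩)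
  refine ⟨fun t ω => if t = 0 then S.s else V (2 * t) ω, fun t ω ω' h => ?_, fun _ => rfl,
    fun t ω => ?_, ?_⟩
  · have : F'.rel (2 * t) ω ω' := by
      change F.rel _ _ _
      rwa [d0]
    simp only [hV1 _ _ _ this]
  · simp only [if_neg t.succ_ne_zero]
    refine hV2 _ ω (pth (L (t + 1) ω (S.r (t + 1) ω)) J) _ (pth_length _ _) fun ω' h => ?_
    change F.rel _ _ _ at h
    rw [d0] at h
    have e : S.x (t + 1) ω' (S.mv (t + 1) ω') = S.r (t + 1) ω := by
      rw [S.x_succ, Function.update_self, S.r_ad _ _ _ h]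
    refine ⟨S.mv (t + 1) ω', ?_, ?_⟩
    · rw [p0, e, hLad _ _ _ h]
    · rw [d0, e]
  · refine (F.E_mono fun ω => glue_skip S.s (fun u => V u ω) T).trans (hV3.trans ?_)
    have hL0 := two_le_Lk (k := k) (by omega)
    have e1 : F'.E (fun ω => ∑ u ∈ range (2 * T), ∑ l,
        dist (S.x ((u + 1) / 2) ω l) (S.x ((u + 1 + 1) / 2) ω l)) =
        F.E (fun ω => ∑ t ∈ range T, S.step dist t ω) := by
      change F.E _ = _
      congr 1
      funext ω
      rw [sum_range_two_mul]
      refine sum_congr rfl fun t _ => ?_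
      rw [d0, d1, d2, S.sum_dist]
      simp
    have e2 : F'.E (fun ω => ∑ u ∈ range (2 * T), ∑ l, td W J (p u ω l) (p (u + 1) ω l)) ≤
        4 * F.E (fun ω => ∑ t ∈ range T, S.step dist t ω) +
          4 * ∑ n ∈ range J, wt W n * F.E (fun ω => ∑ t ∈ range T, ∑ l : Fin k,
            if lab n t ω (S.x t ω l) = lab n (t + 1) ω (S.x (t + 1) ω l) then (0 : ℝ) else 1) := by
      simp only [← F.E_mul]
      rw [← F.E_sum, ← F.E_mul, ← F.E_add]
      refine F.E_mono fun ω => ?_
      rw [sum_range_two_mul]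
      simp only [mul_sum]
      rw [sum_comm (s := range J), ← sum_add_distrib]
      refine sum_le_sum fun t _ => ?_
      rw [sum_comm (s := range J), ← S.sum_dist, mul_sum, ← sum_add_distrib, ← sum_add_distrib]
      refine sum_le_sum fun l _ => ?_
      rw [p0, p1, p2, ← mul_sum]
      exact hm4 t ω l
    rw [e1]
    gcongr

end Vale.Agent.P304
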