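import Vale.Agent.P304.GPath

/-! P304 GLUE: the Bayesian theorem from the level and tree statements. -/

namespace Vale.Agent.P304

open Finset

theorem glue_gain {Ω : Type} [Fintype Ω] {F : FS Ω} {X : Type} [MetricSpace X] {k : ℕ}
    (hk : 2 ≤ k) (S : Svc F X k) {W : ℝ} (hW : 0 < W) (N t : ℕ) (ω : Ω) :
    ∑ n ∈ range N, wt W n * S.gain (fun a b => dist a b / wt W n) t ω ≤
      6 * S.step dist t ω + (6 + 44 * Lk k ^ 2) * ∑ ω', F.cw (t + 1) ω ω' * S.step dist t ω' := by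
  set b := ∑ ω', F.cw (t + 1) ω ω' * S.step dist t ω' with hb
  have hb0 : 0 ≤ b := sum_nonneg fun _ _ => mul_nonneg (F.cw_nonneg _ _ _) dist_nonneg
  have hL := two_le_Lk (k := k) (by omega)
  have e : ∀ n, wt W n * S.gain (fun a b => dist a b / wt W n) t ω =
      wt W n * min (S.step dist t ω / wt W n) 1 ^ 2 + wt W n * min (b / wt W n) 1 ^ 2 +
      Lk k * b * budget (fun a b => dist a b / wt W n) (F.cw (t + 1) ω) (S.x t) (S.r (t + 1) ω) := by
    intro n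
    have e1 : ∑ ω', F.cw (t + 1) ω ω' * S.step (fun a b => dist a b / wt W n) t ω' = b / wt W n := by
      rw [hb, sum_div]
      exact sum_congr rfl fun _ _ => (mul_div_assoc _ _ _).symm
    have := (wt_pos hW n).ne'
    rw [Svc.gain, e1]
    change wt W n * (min (S.step dist t ω / wt W n) 1 ^ 2 + _ + _) = _
    field_simp
  simp only [e, sum_add_distrib, ← mul_sum]
  have h1 := glue_sum_sq (a := S.step dist t ω) dist_nonneg hW N
  have h2 := glue_sum_sq hb0 hW N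
  have h3 := mul_le_mul_of_nonneg_left (glue_budget hk hW (F.cw (t + 1) ω) (F.cw_nonneg _ _)
    (F.sum_cw _ _) (S.x t) (S.r (t + 1) ω) N) (show 0 ≤ Lk k * b by positivity)
  nlinarith

theorem glue_params (X : Type) [MetricSpace X] [Fintype X] {D : ℝ} (hD : 0 ≤ D) :
    ∃ (W : ℝ) (J n₀ : ℕ), 0 < W ∧ (∀ a b : X, dist a b ≤ W) ∧
      (∀ a b : X, dist a b ≤ 24 * wt W J → a = b) ∧ n₀ ≤ J ∧ wt W n₀ ≤ D + 1 ∧
      ∀ n < n₀, D ≤ 2 * wt W n := by
  classical
  obtain ⟨W₀, hW₀⟩ := Finite.bddAbove_range fun q : X × X => dist q.1 q.2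
  set W := max W₀ 1
  have hW : 0 < W := lt_max_of_lt_right one_pos
  have ht : Filter.Tendsto (wt W) Filter.atTop (nhds 0) :=
    Filter.Tendsto.div_atTop tendsto_const_nhds (tendsto_pow_atTop_atTop_of_one_lt one_lt_two)
  have h1 : ∀ᶠ J in Filter.atTop, ∀ q : X × X, dist q.1 q.2 ≤ 24 * wt W J → q.1 = q.2 := by
    refine Filter.eventually_all.2 fun q => ?_
    by_cases h : q.1 = q.2
    · exact Filter.Eventually.of_forall fun _ _ => h
    · have hp : 0 < dist q.1 q.2 / 24 := div_pos (dist_pos.2 h) (by norm_num)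
      filter_upwards [ht.eventually (gt_mem_nhds hp)] with J hJ hle
      linarith
  obtain ⟨J, hJ1, hJ2⟩ := (h1.and (ht.eventually (gt_mem_nhds one_pos))).exists
  have hex : ∃ n, n = J ∨ 2 * wt W n < D := ⟨J, Or.inl rfl⟩
  refine ⟨W, J, Nat.find hex, hW, fun a b => le_max_of_le_left (hW₀ ⟨(a, b), rfl⟩),
    fun a b => hJ1 (a, b), Nat.find_min' hex (Or.inl rfl), ?_, fun n hn => ?_⟩
  · rcases Nat.find_spec hex with h | h
    · rw [h]
      linarith
    · linarith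
  · exact not_lt.1 fun h => Nat.find_min hex hn (Or.inr h)

theorem bayes (HL : LevelStmt) (HT : TreeStmt) : BayesStmt := by
  classical
  obtain ⟨C₁, hC₁, HL⟩ := HL
  obtain ⟨C₂, hC₂, HT⟩ := glue_tree HT
  refine ⟨C₂ * (200 * C₁ + 10), by positivity, fun k hk Ω _ F X _ _ S T D hD => ?_⟩
  set l₀ : Fin k := ⟨0, by omega⟩
  have hD0 : 0 ≤ D := dist_nonneg.trans (hD l₀ l₀)
  obtain ⟨W, J, n₀, hW, hWd, hJ, hn₀, hn₁, hn₂⟩ := glue_params X hD0
  choose lab h1 h2 h3 h4 h5 using fun n => HL k hk Ω F X (fun a b => dist a b / wt W n)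
    ⟨fun a => by simp, fun a b => by rw [dist_comm], fun a b c => by
      rw [← add_div]
      exact div_le_div_of_nonneg_right (dist_triangle _ _ _) (wt_pos hW n).le⟩
    S T l₀ (1 / W) (by positivity)
  obtain ⟨V, hV1, hV2, hV3, hV4⟩ := HT k hk Ω F X S _ W J T n₀ D lab (fun a => Sum.inr (Sum.inr a))
    (Sum.inr_injective.comp Sum.inr_injective) hW hWd hJ hn₀ hD h1 h2
    (fun n t ω a b h => (div_le_iff₀ (wt_pos hW n)).1 (h3 n t ω a b h))
    (fun n hn ω l l' => by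
      have key : ∀ l, lab n 0 ω (S.s l) = lab n 0 ω (S.s l₀) := fun l =>
        h4 n ω l ((div_le_iff₀ (wt_pos hW n)).2 ((hD _ _).trans (hn₂ n hn)))
      exact (key l).trans (key l').symm)
  refine ⟨V, hV1, hV2, hV3, ?_⟩
  set A := F.E (fun ω => ∑ t ∈ range T, S.step dist t ω) with hA
  have hA0 : 0 ≤ A := F.E_nonneg fun ω => sum_nonneg fun _ _ => dist_nonneg
  have hL := two_le_Lk (k := k) (by omega)
  have hk' : (2 : ℝ) ≤ k := by exact_mod_cast hk
  have g1 : ∑ n ∈ range J, wt W n * F.E (fun ω => ∑ t ∈ range T,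
      S.gain (fun a b => dist a b / wt W n) t ω) ≤ (12 + 44 * Lk k ^ 2) * A := by
    have e : F.E (fun ω => ∑ t ∈ range T, ∑ ω', F.cw (t + 1) ω ω' * S.step dist t ω') = A := by
      rw [hA, F.E_sum, F.E_sum]
      exact sum_congr rfl fun t _ => F.tower _ _
    have : (12 + 44 * Lk k ^ 2) * A = 6 * A + (6 + 44 * Lk k ^ 2) * A := by ring
    rw [this]
    nth_rewrite 2 [← e]
    simp only [hA, ← F.E_mul]
    rw [← F.E_sum, ← F.E_add]
    refine F.E_mono fun ω => ?_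
    simp only [mul_sum (range T)]
    rw [sum_comm, ← sum_add_distrib]
    exact sum_le_sum fun t _ => glue_gain hk S hW J t ω
  have g2 : ∑ n ∈ range J, wt W n * ∑ l : Fin k, min (dist (S.s l) (S.s l₀) / wt W n) 1 ^ 2 ≤
      6 * (k * D) := by
    simp only [mul_sum]
    rw [sum_comm]
    refine (sum_le_sum fun l _ => (glue_sum_sq dist_nonneg hW J).trans
      (mul_le_mul_of_nonneg_left (hD l l₀) (by norm_num))).trans (le_of_eq ?_)
    simp
    ring
  have g3 : ∑ n ∈ range J, wt W n * (1 / W) ≤ 2 := by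
    rw [← sum_mul, mul_one_div, div_le_iff₀ hW]
    exact glue_sum_wt hW J
  have g4 := sum_le_sum (s := range J) fun n _ => mul_le_mul_of_nonneg_left (h5 n) (wt_pos hW n).le
  simp only [mul_add, sum_add_distrib, mul_left_comm _ C₁, ← mul_sum] at g4
  have g5 := g4.trans (add_le_add (add_le_add (mul_le_mul_of_nonneg_left g1 hC₁.le)
    (mul_le_mul_of_nonneg_left g2 hC₁.le)) g3)
  obtain ⟨Z, g5, hV5⟩ : ∃ Z, Z ≤ C₁ * ((12 + 44 * Lk k ^ 2) * A) + C₁ * (6 * (k * D)) + 2 ∧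
      F.E (fun ω => ∑ t ∈ range T, ∑ i, dist (V t ω i) (V (t + 1) ω i)) ≤
      C₂ * Lk k ^ 2 * (4 * A + 4 * Z) + C₂ * Lk k * A + C₂ * k * Lk k * (wt W n₀ + D) :=
    ⟨_, by refine le_trans (le_of_eq ?_) g5; congr!, hV4⟩
  refine hV5.trans ?_
  set L := Lk k
  have q1 : 4 ≤ L ^ 2 := by nlinarith
  have q2 : L ≤ L ^ 2 := by nlinarith
  have q3 : L ^ 2 ≤ L ^ 4 := by nlinarith
  have a1 : L ^ 2 * (4 * A + 4 * (C₁ * ((12 + 44 * L ^ 2) * A))) + L * A ≤
      (200 * C₁ + 10) * L ^ 4 * A := by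
    have b1 : L ^ 2 * A ≤ L ^ 4 * A := by gcongr
    have b2 : L * A ≤ L ^ 4 * A := by gcongr; linarith
    have b3 : 4 * L ^ 2 * (C₁ * A) ≤ L ^ 2 * L ^ 2 * (C₁ * A) := by gcongr
    have b4 : 0 ≤ L ^ 4 * A := by positivity
    have b5 : 0 ≤ L ^ 4 * (C₁ * A) := by positivity
    nlinarith
  have a2 : L ^ 2 * (4 * (C₁ * (6 * (k * D)) + 2)) + k * L * (wt W n₀ + D) ≤
      (200 * C₁ + 10) * k * L ^ 2 * (D + 1) := by
    have b1 : k * L * (wt W n₀ + D) ≤ k * L ^ 2 * (2 * (D + 1)) := by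
      have := wt_pos hW n₀
      gcongr
      linarith
    have b2 : L ^ 2 * 2 ≤ L ^ 2 * k := by gcongr
    have b3 : 0 ≤ k * L ^ 2 * D := by positivity
    have b4 : 0 ≤ C₁ * (k * L ^ 2 * D) := by positivity
    have b5 : 0 ≤ C₁ * (k * L ^ 2) := by positivity
    nlinarith
  have a3 : L ^ 2 * (4 * A + 4 * Z) ≤
      L ^ 2 * (4 * A + 4 * (C₁ * ((12 + 44 * L ^ 2) * A) + C₁ * (6 * (k * D)) + 2)) := by gcongr
  have a4 := mul_le_mul_of_nonneg_left (add_le_add a1 a2) hC₂.le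
  have a5 := mul_le_mul_of_nonneg_left a3 hC₂.le
  linarith

end Vale.Agent.P304
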