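import Vale.Agent.P304.LDefs

/-!
P304, part LEVEL: averaging lemmas for `ballMass`, `shellI`, `budget` (all termwise estimates).
-/

set_option linter.unusedSectionVars false

namespace Vale.Agent.P304.Lv

open Finset

variable {X Ω : Type} [Fintype Ω] {k : ℕ} {d : X → X → ℝ} {w : Ω → ℝ} {x : Ω → Fin k → X} {r : X}

theorem ballMass_nonneg (hw : ∀ ω, 0 ≤ w ω) (u : ℝ) : 0 ≤ ballMass d w x r u := by
  unfold ballMass
  refine sum_nonneg fun ω _ => mul_nonneg (hw ω) (sum_nonneg fun l _ => ?_)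
  split_ifs <;> norm_num

theorem ballMass_mono (hw : ∀ ω, 0 ≤ w ω) {u u' : ℝ} (h : u ≤ u') :
    ballMass d w x r u ≤ ballMass d w x r u' := by
  unfold ballMass
  refine sum_le_sum fun ω _ => mul_le_mul_of_nonneg_left (sum_le_sum fun l _ => ?_) (hw ω)
  by_cases h1 : d (x ω l) r ≤ u
  · rw [if_pos h1, if_pos (h1.trans h)]
  · rw [if_neg h1]; split_ifs <;> norm_num

theorem ballMass_le (hw : ∀ ω, 0 ≤ w ω) (hw1 : ∑ ω, w ω = 1) (u : ℝ) :
    ballMass d w x r u ≤ k := by
  unfold ballMass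
  calc _ ≤ ∑ ω, w ω * (k : ℝ) := by
        refine sum_le_sum fun ω _ => mul_le_mul_of_nonneg_left ?_ (hw ω)
        calc _ ≤ ∑ _l : Fin k, (1 : ℝ) := sum_le_sum fun l _ => by split_ifs <;> norm_num
          _ = k := by simp
    _ = k := by rw [← sum_mul, hw1, one_mul]

theorem budget_nonneg (hd : IsD d) (hw : ∀ ω, 0 ≤ w ω) : 0 ≤ budget d w x r := by
  unfold budget
  refine sum_nonneg fun ω _ => mul_nonneg (hw ω) (sum_nonneg fun l _ => ?_)
  split_ifs
  · exact div_nonneg (isD_nonneg hd _ _) (ballMass_nonneg hw _)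
  · exact le_rfl

/-- If little mass is near `r`, the moving server is typically far. -/
theorem half_le_of_ballMass_lt (hd : IsD d) (hw : ∀ ω, 0 ≤ w ω) (hw1 : ∑ ω, w ω = 1)
    (mv : Ω → Fin k) {u : ℝ} (hu : 0 ≤ u) (h : ballMass d w x r u < 1 / 2) :
    u / 2 ≤ ∑ ω, w ω * d (x ω (mv ω)) r := by
  have key : u * (1 - ballMass d w x r u) ≤ ∑ ω, w ω * d (x ω (mv ω)) r := by
    have e1 : u * (1 - ballMass d w x r u) =
        ∑ ω, w ω * (u * (1 - ∑ l : Fin k, if d (x ω l) r ≤ u then (1 : ℝ) else 0)) := by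
      have e2 : 1 - ballMass d w x r u = ∑ ω, w ω - ballMass d w x r u := by rw [hw1]
      rw [e2]
      unfold ballMass
      rw [← sum_sub_distrib, mul_sum]
      exact sum_congr rfl fun ω _ => by ring
    rw [e1]
    refine sum_le_sum fun ω _ => mul_le_mul_of_nonneg_left ?_ (hw ω)
    have hS0 : (0 : ℝ) ≤ ∑ l : Fin k, if d (x ω l) r ≤ u then (1 : ℝ) else 0 :=
      sum_nonneg fun l _ => by split_ifs <;> norm_num
    by_cases h1 : d (x ω (mv ω)) r ≤ u
    · have hS : (1 : ℝ) ≤ ∑ l : Fin k, if d (x ω l) r ≤ u then (1 : ℝ) else 0 := by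
        have := single_le_sum (f := fun l : Fin k => if d (x ω l) r ≤ u then (1 : ℝ) else 0)
          (s := univ) (fun l _ => by split_ifs <;> norm_num) (mem_univ (mv ω))
        simpa only [if_pos h1] using this
      have := isD_nonneg hd (x ω (mv ω)) r
      nlinarith
    · push Not at h1
      nlinarith
  nlinarith

theorem shellI_ge (hw : ∀ ω, 0 ≤ w ω) {a : ℝ} (ha : a ≤ 11) :
    a * (ballMass d w x r 11 - ballMass d w x r a) ≤ shellI d w x r a := by
  unfold ballMass shellI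
  rw [← sum_sub_distrib, mul_sum]
  refine sum_le_sum fun ω _ => ?_
  rw [← mul_sub, mul_left_comm, ← sum_sub_distrib, mul_sum]
  refine mul_le_mul_of_nonneg_left (sum_le_sum fun l _ => ?_) (hw ω)
  by_cases h1 : d (x ω l) r ≤ a
  · rw [if_pos h1, if_pos (h1.trans ha), if_neg (fun h => absurd h.1 (not_lt.2 h1))]
    simp
  · by_cases h2 : d (x ω l) r ≤ 11
    · rw [if_neg h1, if_pos h2, if_pos ⟨not_le.1 h1, h2⟩]
      linarith [not_le.1 h1]
    · rw [if_neg h1, if_neg h2, if_neg (fun h => h2 h.2)]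
      simp

theorem shellI_le_budget (hd : IsD d) (hw : ∀ ω, 0 ≤ w ω) {a : ℝ}
    (h : 1 / 2 ≤ ballMass d w x r a) :
    shellI d w x r a ≤ budget d w x r * ballMass d w x r 11 := by
  have hM : 0 ≤ ballMass d w x r 11 := ballMass_nonneg hw _
  unfold shellI budget
  rw [sum_mul]
  refine sum_le_sum fun ω _ => ?_
  rw [mul_assoc, sum_mul]
  refine mul_le_mul_of_nonneg_left (sum_le_sum fun l _ => ?_) (hw ω)
  by_cases h1 : a < d (x ω l) r ∧ d (x ω l) r ≤ 11
  · have h2 : ballMass d w x r a ≤ ballMass d w x r (d (x ω l) r) := ballMass_mono hw h1.1.le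
    have h3 : ballMass d w x r (d (x ω l) r) ≤ ballMass d w x r 11 := ballMass_mono hw h1.2
    rw [if_pos h1, if_pos ⟨h1.2, h.trans h2⟩]
    have h4 : 0 < ballMass d w x r (d (x ω l) r) := by linarith
    have h5 := isD_nonneg hd (x ω l) r
    rw [div_mul_eq_mul_div, le_div_iff₀ h4]
    exact mul_le_mul_of_nonneg_left h3 h5
  · rw [if_neg h1]
    refine mul_nonneg ?_ hM
    split_ifs
    · exact div_nonneg (isD_nonneg hd _ _) (ballMass_nonneg hw _)
    · exact le_rfl

/-- Averaging a bound that depends on the distance to `r`. -/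
theorem avg_split (hw : ∀ ω, 0 ≤ w ω) {a α β γ : ℝ} (ha : a ≤ 11) (f : X → ℝ)
    (h1 : ∀ y, d y r ≤ a → f y ≤ -α) (h2 : ∀ y, a < d y r → d y r ≤ 11 → f y ≤ β * d y r + γ)
    (h3 : ∀ y, 11 < d y r → f y ≤ 0) :
    ∑ ω, w ω * ∑ l, f (x ω l) ≤ -α * ballMass d w x r a + β * shellI d w x r a +
      γ * (ballMass d w x r 11 - ballMass d w x r a) := by
  unfold ballMass shellI
  rw [← sum_sub_distrib, mul_sum, mul_sum, mul_sum, ← sum_add_distrib, ← sum_add_distrib]
  refine sum_le_sum fun ω _ => ?_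
  rw [← mul_sub, mul_left_comm (-α), mul_left_comm β, mul_left_comm γ, ← mul_add, ← mul_add,
    ← sum_sub_distrib]
  refine mul_le_mul_of_nonneg_left ?_ (hw ω)
  rw [mul_sum, mul_sum, mul_sum, ← sum_add_distrib, ← sum_add_distrib]
  refine sum_le_sum fun l _ => ?_
  by_cases c1 : d (x ω l) r ≤ a
  · rw [if_pos c1, if_pos (c1.trans ha), if_neg (fun h => absurd h.1 (not_lt.2 c1))]
    linarith [h1 _ c1]
  · by_cases c2 : d (x ω l) r ≤ 11
    · rw [if_neg c1, if_pos c2, if_pos ⟨not_le.1 c1, c2⟩]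
      linarith [h2 _ (not_le.1 c1) c2]
    · rw [if_neg c1, if_neg c2, if_neg (fun h => c2 h.2)]
      linarith [h3 _ (not_le.1 c2)]

end Vale.Agent.P304.Lv
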