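import Vale.Agent.P304.Defs

/-!
P304, part LEVEL: definitions and basic facts (everything in this file is proved).

State `σ`: tier 1 centres `c u` with heights `h u`, base centres `bc b`, `b ∈ base`.
`z y u = d y (c u) + h u`, `m y = min_u z y u`.  Random radii `R : RS ι G`: one shared uniform
radius `R.1` for tier 1 and independent truncated geometric radii `R.2 b` for the base centres.
-/

set_option linter.unusedSectionVars false

namespace Vale.Agent.P304.Lv

open Finset

theorem isD_nonneg {X : Type} {d : X → X → ℝ} (hd : IsD d) (a b : X) : 0 ≤ d a b := by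
  have h1 := hd.tri a b a
  have h2 := hd.refl a
  have h3 := hd.symm a b
  linarith

/-! ### radii -/

/-- The grid of radii in `[2,3)`. -/
noncomputable def rad (G : ℕ) (i : Fin G) : ℝ := 2 + (i : ℝ) / G

/-- Truncated geometric weights. -/
noncomputable def geo (G : ℕ) (lam : ℝ) (i : Fin G) : ℝ :=
  Real.exp (-(lam * i / G)) / ∑ j : Fin G, Real.exp (-(lam * j / G))

/-- The space of radii. -/
abbrev RS (ι : Type) (G : ℕ) : Type := Fin G × (ι → Fin G)

/-- Indicator of a proposition. -/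
noncomputable def ind (p : Prop) : ℝ := by classical exact if p then 1 else 0

theorem ind_pos {p : Prop} (h : p) : ind p = 1 := by unfold ind; simp [h]
theorem ind_neg {p : Prop} (h : ¬ p) : ind p = 0 := by unfold ind; simp [h]
theorem ind_nonneg (p : Prop) : 0 ≤ ind p := by
  by_cases h : p
  · rw [ind_pos h]; norm_num
  · rw [ind_neg h]
theorem ind_le_one (p : Prop) : ind p ≤ 1 := by
  by_cases h : p
  · rw [ind_pos h]
  · rw [ind_neg h]; norm_num
theorem ind_mono {p q : Prop} (h : p → q) : ind p ≤ ind q := by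
  by_cases hp : p
  · rw [ind_pos hp, ind_pos (h hp)]
  · rw [ind_neg hp]; exact ind_nonneg q
theorem ind_le_add {p q r : Prop} (h : p → q ∨ r) : ind p ≤ ind q + ind r := by
  by_cases hp : p
  · rcases h hp with h1 | h1
    · rw [ind_pos hp, ind_pos h1]; linarith [ind_nonneg r]
    · rw [ind_pos hp, ind_pos h1]; linarith [ind_nonneg q]
  · rw [ind_neg hp]; linarith [ind_nonneg q, ind_nonneg r]

theorem two_le_rad {G : ℕ} (i : Fin G) : 2 ≤ rad G i := by
  unfold rad
  have : (0 : ℝ) ≤ (i : ℝ) / G := by positivity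
  linarith

theorem rad_lt_three {G : ℕ} (i : Fin G) : rad G i < 3 := by
  unfold rad
  have h1 : ((i : ℕ) : ℝ) < G := by exact_mod_cast i.2
  have h2 : (0 : ℝ) < G := lt_of_le_of_lt (Nat.cast_nonneg _) h1
  have : ((i : ℕ) : ℝ) / G < 1 := (div_lt_one h2).2 h1
  linarith

theorem geo_nonneg (G : ℕ) (lam : ℝ) (i : Fin G) : 0 ≤ geo G lam i := by
  unfold geo
  exact div_nonneg (Real.exp_pos _).le (sum_nonneg fun _ _ => (Real.exp_pos _).le)

theorem geo_sum {G : ℕ} (hG : 0 < G) (lam : ℝ) : ∑ i, geo G lam i = 1 := by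
  unfold geo
  have : Nonempty (Fin G) := ⟨⟨0, hG⟩⟩
  rw [← sum_div]
  exact div_self (ne_of_gt (sum_pos (fun _ _ => Real.exp_pos _) univ_nonempty))

section PR

variable {ι : Type} [Fintype ι] [DecidableEq ι]

/-- Weight of a choice of radii. -/
noncomputable def wR (G : ℕ) (lam : ℝ) (R : RS ι G) : ℝ := (1 / G) * ∏ b, geo G lam (R.2 b)

/-- Expectation over the radii. -/
noncomputable def PR (G : ℕ) (lam : ℝ) (f : RS ι G → ℝ) : ℝ := ∑ R : RS ι G, wR G lam R * f R

theorem wR_nonneg (G : ℕ) (lam : ℝ) (R : RS ι G) : 0 ≤ wR G lam R :=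
  mul_nonneg (by positivity) (prod_nonneg fun _ _ => geo_nonneg _ _ _)

theorem wR_sum {G : ℕ} (hG : 0 < G) (lam : ℝ) : ∑ R : RS ι G, wR G lam R = 1 := by
  unfold wR
  rw [Fintype.sum_prod_type]
  have h1 : ∑ R : ι → Fin G, ∏ b, geo G lam (R b) = 1 := by
    rw [← Fintype.piFinset_univ, ← Finset.prod_univ_sum]
    simp [geo_sum hG]
  simp only [← mul_sum, h1]
  have : (G : ℝ) ≠ 0 := by positivity
  simp [this]

theorem PR_mono {G : ℕ} {lam : ℝ} {f g : RS ι G → ℝ} (h : ∀ R, f R ≤ g R) :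
    PR G lam f ≤ PR G lam g :=
  sum_le_sum fun R _ => mul_le_mul_of_nonneg_left (h R) (wR_nonneg _ _ _)

theorem PR_const {G : ℕ} (hG : 0 < G) (lam c : ℝ) : PR G lam (fun _ : RS ι G => c) = c := by
  unfold PR; rw [← sum_mul, wR_sum hG, one_mul]

theorem PR_zero (G : ℕ) (lam : ℝ) : PR G lam (fun _ : RS ι G => 0) = 0 := by
  unfold PR; simp

theorem PR_add {G : ℕ} {lam : ℝ} (f g : RS ι G → ℝ) :
    PR G lam (fun R => f R + g R) = PR G lam f + PR G lam g := by
  unfold PR; rw [← sum_add_distrib]; exact sum_congr rfl fun _ _ => by ring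

theorem PR_nonneg {G : ℕ} {lam : ℝ} {f : RS ι G → ℝ} (h : ∀ R, 0 ≤ f R) : 0 ≤ PR G lam f :=
  sum_nonneg fun R _ => mul_nonneg (wR_nonneg _ _ _) (h R)

theorem PR_le_const {G : ℕ} (hG : 0 < G) {lam c : ℝ} {f : RS ι G → ℝ} (h : ∀ R, f R ≤ c) :
    PR G lam f ≤ c := by
  have := PR_mono (lam := lam) (g := fun _ => c) h
  rwa [PR_const hG] at this

theorem PR_ind_nonneg {G : ℕ} {lam : ℝ} (p : RS ι G → Prop) : 0 ≤ PR G lam (fun R => ind (p R)) :=
  PR_nonneg fun _ => ind_nonneg _

theorem PR_ind_le_one {G : ℕ} (hG : 0 < G) {lam : ℝ} (p : RS ι G → Prop) :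
    PR G lam (fun R => ind (p R)) ≤ 1 :=
  PR_le_const hG fun _ => ind_le_one _

theorem PR_ind_zero {G : ℕ} {lam : ℝ} {p : RS ι G → Prop} (h : ∀ R, ¬ p R) :
    PR G lam (fun R => ind (p R)) = 0 := by
  have : (fun R => ind (p R)) = fun _ => 0 := funext fun R => ind_neg (h R)
  rw [this, PR_zero]

theorem exists_le_PR {G : ℕ} (hG : 0 < G) (lam : ℝ) (f : RS ι G → ℝ) :
    ∃ R, f R ≤ PR G lam f := by
  have : Nonempty (Fin G) := ⟨⟨0, hG⟩⟩
  obtain ⟨R, -, hR⟩ := exists_min_image (univ : Finset (RS ι G)) f univ_nonempty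
  refine ⟨R, ?_⟩
  have := PR_mono (lam := lam) (f := fun _ => f R) (g := f) fun R' => hR R' (mem_univ _)
  rwa [PR_const hG] at this

end PR

/-! ### states -/

/-- State of one level. -/
structure St (ι X : Type) where
  c : ι → X
  h : ι → ℝ
  base : Finset ι
  bc : ι → X

variable {ι X : Type} [Fintype ι] [LinearOrder ι] [Nonempty ι]

/-- Height-corrected distance to a tier 1 centre. -/
def St.z (d : X → X → ℝ) (σ : St ι X) (y : X) (u : ι) : ℝ := d y (σ.c u) + σ.h u

/-- Minimum of the height-corrected distances. -/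
noncomputable def St.m (d : X → X → ℝ) (σ : St ι X) (y : X) : ℝ :=
  univ.inf' univ_nonempty (σ.z d y)

/-- An index attaining the minimum. -/
noncomputable def St.arg (d : X → X → ℝ) (σ : St ι X) (y : X) : ι :=
  (exists_mem_eq_inf' univ_nonempty (σ.z d y)).choose

/-- Minimum of `m y` and the distances to the base centres. -/
noncomputable def St.bm (d : X → X → ℝ) (σ : St ι X) (y : X) : ℝ :=
  σ.base.fold min (σ.m d y) fun b => d y (σ.bc b)

/-- Nonnegative heights and separation. -/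
structure St.Inv (d : X → X → ℝ) (σ : St ι X) : Prop where
  h_nonneg : ∀ u, 0 ≤ σ.h u
  sep : ∀ u v, u ≠ v → 8 ≤ d (σ.c u) (σ.c v) + σ.h u + σ.h v

open Classical in
/-- Base centres whose ball covers `y`. -/
noncomputable def St.cov (d : X → X → ℝ) (G : ℕ) (σ : St ι X) (R : RS ι G) (y : X) : Finset ι :=
  σ.base.filter fun b => d y (σ.bc b) ≤ rad G (R.2 b)

open Classical in
/-- The label of a point. -/
noncomputable def St.lab (d : X → X → ℝ) (G : ℕ) (σ : St ι X) (R : RS ι G) (y : X) : ι ⊕ ι ⊕ X :=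
  if h : ∃ u, σ.z d y u ≤ rad G R.1 then Sum.inl h.choose
  else if h2 : (σ.cov d G R y).Nonempty then Sum.inr (Sum.inl ((σ.cov d G R y).min' h2))
  else Sum.inr (Sum.inr y)

/-- Move the tier 1 centre `v` to `r` with height `0` and raise the other heights. -/
noncomputable def St.claim (d : X → X → ℝ) (σ : St ι X) (v : ι) (r : X) : St ι X where
  c := Function.update σ.c v r
  h := fun u => if u = v then 0 else max (σ.h u) (8 - d (σ.c u) r)
  base := σ.base
  bc := σ.bc

/-- Add the base centre `r` with index `v`. -/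
def St.addB (σ : St ι X) (v : ι) (r : X) : St ι X where
  c := σ.c
  h := σ.h
  base := insert v σ.base
  bc := Function.update σ.bc v r

/-- Forget the base centres. -/
def St.reset (σ : St ι X) : St ι X where
  c := σ.c
  h := σ.h
  base := ∅
  bc := σ.bc

/-- Initial state. -/
noncomputable def St.init (i₀ : ι) (a : X) : St ι X where
  c := fun _ => a
  h := fun u => if u = i₀ then 0 else 8
  base := ∅
  bc := fun _ => a

/-- Potential for the base centres. -/
noncomputable def St.wf (d : X → X → ℝ) (σ : St ι X) (y : X) : ℝ :=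
  max (min (σ.bm d y) 1) (1 / 2) - 1 / 2

/-- Probability that `y` is garbage. -/
noncomputable def St.garb (d : X → X → ℝ) (G : ℕ) (lam : ℝ) (σ : St ι X) (y : X) : ℝ :=
  PR G lam fun R : RS ι G => ind (σ.lab d G R y = Sum.inr (Sum.inr y))

/-- Potential of one server. -/
noncomputable def St.psi (d : X → X → ℝ) (G : ℕ) (lam : ℝ) (σ : St ι X) (y : X) : ℝ :=
  20 * (min (σ.m d y) 1) ^ 2 + σ.wf d y + σ.garb d G lam y

/-- Probability that the label of `y` in `σ` differs from the label of `y'` in `σ'`. -/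
noncomputable def chg (d : X → X → ℝ) (G : ℕ) (lam : ℝ) (σ σ' : St ι X) (y y' : X) : ℝ :=
  PR G lam fun R : RS ι G => ind (σ.lab d G R y ≠ σ'.lab d G R y')

/-- Amortized cost of a change of state for a server at `y`. -/
noncomputable def Ec (d : X → X → ℝ) (G : ℕ) (lam : ℝ) (σ σ' : St ι X) (y : X) : ℝ :=
  chg d G lam σ σ' y y + σ'.psi d G lam y - σ.psi d G lam y

/-- Amortized cost of moving a server from `y` to `r` in a fixed state. -/
noncomputable def Mc (d : X → X → ℝ) (G : ℕ) (lam : ℝ) (σ : St ι X) (y r : X) : ℝ :=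
  chg d G lam σ σ y r + σ.psi d G lam r - σ.psi d G lam y

open Classical in
/-- First moment of the distance over a shell `(a, 11]`. -/
noncomputable def shellI {Ω : Type} [Fintype Ω] {k : ℕ} (d : X → X → ℝ) (w : Ω → ℝ)
    (x : Ω → Fin k → X) (r : X) (a : ℝ) : ℝ :=
  ∑ ω, w ω * ∑ l : Fin k, if a < d (x ω l) r ∧ d (x ω l) r ≤ 11 then d (x ω l) r else 0

open Classical in
/-- The update of the state; `v` is the fresh index. -/
noncomputable def St.upd {Ω : Type} [Fintype Ω] {k : ℕ} (d : X → X → ℝ) (σ : St ι X)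
    (w : Ω → ℝ) (x : Ω → Fin k → X) (r : X) (v : ι) : St ι X :=
  if σ.m d r ≤ 1 / 2 then
    (if 12 * shellI d w x r (σ.m d r / 3) ≤ σ.m d r / 3 * ballMass d w x r (σ.m d r / 3) then
      σ.claim d (σ.arg d r) r else σ)
  else if 23 * (ballMass d w x r 11 - ballMass d w x r (1 / 10)) ≤ 2 * ballMass d w x r (1 / 10) then
    σ.claim d v r
  else if 1 < σ.m d r ∧ ∀ b ∈ σ.base, 1 < d r (σ.bc b) then
    (if 13 * k ≤ σ.base.card then σ.reset.addB v r else σ.addB v r)
  else σ

/-! ### basic facts -/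

section Basic

variable {d : X → X → ℝ} {G : ℕ} {lam : ℝ} {σ : St ι X}

theorem m_le (σ : St ι X) (y : X) (u : ι) : σ.m d y ≤ σ.z d y u := inf'_le _ (mem_univ u)

theorem le_m {y : X} {a : ℝ} (h : ∀ u, a ≤ σ.z d y u) : a ≤ σ.m d y :=
  le_inf' _ _ fun u _ => h u

theorem z_arg (σ : St ι X) (y : X) : σ.z d y (σ.arg d y) = σ.m d y :=
  ((exists_mem_eq_inf' univ_nonempty (σ.z d y)).choose_spec.2).symm

theorem z_nonneg (hd : IsD d) (hI : σ.Inv d) (y : X) (u : ι) : 0 ≤ σ.z d y u :=
  add_nonneg (isD_nonneg hd _ _) (hI.h_nonneg u)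

theorem m_nonneg (hd : IsD d) (hI : σ.Inv d) (y : X) : 0 ≤ σ.m d y :=
  le_m fun u => z_nonneg hd hI y u

theorem z_sep (hd : IsD d) (hI : σ.Inv d) (y : X) {u v : ι} (h : u ≠ v) :
    8 ≤ σ.z d y u + σ.z d y v := by
  have h1 := hI.sep u v h
  have h2 := hd.tri (σ.c u) y (σ.c v)
  have h3 := hd.symm (σ.c u) y
  unfold St.z; linarith

theorem z_lip (hd : IsD d) (σ : St ι X) (y y' : X) (u : ι) : σ.z d y u ≤ σ.z d y' u + d y y' := by
  have := hd.tri y y' (σ.c u)
  unfold St.z; linarith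

theorem m_lip (hd : IsD d) (σ : St ι X) (y y' : X) : σ.m d y ≤ σ.m d y' + d y y' := by
  have h1 := m_le (d := d) σ y (σ.arg d y')
  have h2 := z_lip hd σ y y' (σ.arg d y')
  rw [z_arg] at h2
  linarith

theorem le_bm {y : X} {a : ℝ} : a ≤ σ.bm d y ↔ a ≤ σ.m d y ∧ ∀ b ∈ σ.base, a ≤ d y (σ.bc b) :=
  le_fold_min _

theorem bm_le_m (σ : St ι X) (y : X) : σ.bm d y ≤ σ.m d y := (le_bm.1 le_rfl).1

theorem bm_le_base {y : X} {b : ι} (hb : b ∈ σ.base) : σ.bm d y ≤ d y (σ.bc b) :=
  (le_bm.1 le_rfl).2 b hb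

theorem wf_nonneg (σ : St ι X) (y : X) : 0 ≤ σ.wf d y := by
  unfold St.wf; linarith [le_max_right (min (σ.bm d y) 1) (1 / 2)]

theorem wf_le_half (σ : St ι X) (y : X) : σ.wf d y ≤ 1 / 2 := by
  unfold St.wf
  have : max (min (σ.bm d y) 1) (1 / 2) ≤ 1 := max_le (min_le_right _ _) (by norm_num)
  linarith

theorem wf_eq_zero {y : X} (h : σ.bm d y ≤ 1 / 2) : σ.wf d y = 0 := by
  unfold St.wf
  rw [max_eq_right ((min_le_left _ _).trans h)]; ring

/-- `wf` is a monotone 1-Lipschitz function of `bm`. -/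
theorem wf_le_of_bm {σ' : St ι X} {y y' : X} {e : ℝ} (he : 0 ≤ e)
    (h : min (σ'.bm d y') 1 ≤ min (σ.bm d y) 1 + e) : σ'.wf d y' ≤ σ.wf d y + e := by
  unfold St.wf
  have : max (min (σ'.bm d y') 1) (1 / 2) ≤ max (min (σ.bm d y) 1) (1 / 2) + e :=
    max_le (by linarith [le_max_left (min (σ.bm d y) 1) (1 / 2)])
      (by linarith [le_max_right (min (σ.bm d y) 1) (1 / 2)])
  linarith

theorem garb_nonneg (σ : St ι X) (y : X) : 0 ≤ σ.garb d G lam y := PR_ind_nonneg _

theorem garb_le_one (hG : 0 < G) (σ : St ι X) (y : X) : σ.garb d G lam y ≤ 1 := PR_ind_le_one hG _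

theorem chg_nonneg (σ σ' : St ι X) (y y' : X) : 0 ≤ chg d G lam σ σ' y y' := PR_ind_nonneg _

theorem chg_le_one (hG : 0 < G) (σ σ' : St ι X) (y y' : X) : chg d G lam σ σ' y y' ≤ 1 :=
  PR_ind_le_one hG _

theorem psi_nonneg (σ : St ι X) (y : X) : 0 ≤ σ.psi d G lam y := by
  unfold St.psi
  have := wf_nonneg (d := d) σ y
  have := garb_nonneg (d := d) (G := G) (lam := lam) σ y
  positivity

/-- The garbage probability rises at most by the probability of a label change. -/
theorem garb_le_chg (σ σ' : St ι X) (y : X) :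
    σ'.garb d G lam y ≤ σ.garb d G lam y + chg d G lam σ σ' y y := by
  unfold St.garb chg
  rw [← PR_add]
  refine PR_mono fun R => ind_le_add fun h => ?_
  by_cases h2 : σ.lab d G R y = σ'.lab d G R y
  · exact Or.inl (h2.trans h)
  · exact Or.inr h2

theorem lab_tier (hd : IsD d) (hI : σ.Inv d) {R : RS ι G} {y : X} {u : ι}
    (h : σ.z d y u ≤ rad G R.1) : σ.lab d G R y = Sum.inl u := by
  have hex : ∃ u, σ.z d y u ≤ rad G R.1 := ⟨u, h⟩
  unfold St.lab
  rw [dif_pos hex]
  congr 1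
  by_contra hne
  have h1 := z_sep hd hI y hne
  have h2 := hex.choose_spec
  have h3 := rad_lt_three R.1
  linarith

theorem lab_tier_two (hd : IsD d) (hI : σ.Inv d) (R : RS ι G) {y : X} {u : ι}
    (h : σ.z d y u ≤ 2) : σ.lab d G R y = Sum.inl u :=
  lab_tier hd hI (h.trans (two_le_rad _))

theorem mem_cov {R : RS ι G} {y : X} {b : ι} :
    b ∈ σ.cov d G R y ↔ b ∈ σ.base ∧ d y (σ.bc b) ≤ rad G (R.2 b) := by
  unfold St.cov; rw [mem_filter]

theorem lab_base {R : RS ι G} {y : X} (h : ∀ u, rad G R.1 < σ.z d y u)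
    (h2 : (σ.cov d G R y).Nonempty) :
    σ.lab d G R y = Sum.inr (Sum.inl ((σ.cov d G R y).min' h2)) := by
  unfold St.lab
  rw [dif_neg (by push Not; exact h), dif_pos h2]

theorem lab_garb {R : RS ι G} {y : X} (h : ∀ u, rad G R.1 < σ.z d y u)
    (h2 : ¬ (σ.cov d G R y).Nonempty) : σ.lab d G R y = Sum.inr (Sum.inr y) := by
  unfold St.lab
  rw [dif_neg (by push Not; exact h), dif_neg h2]

/-- A point within `2` of a tier 1 centre or of a base centre is never garbage. -/
theorem garb_eq_zero (hd : IsD d) (hI : σ.Inv d) {y : X}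
    (h : σ.m d y ≤ 2 ∨ ∃ b ∈ σ.base, d y (σ.bc b) ≤ 2) : σ.garb d G lam y = 0 := by
  refine PR_ind_zero fun R hR => ?_
  by_cases h1 : ∃ u, σ.z d y u ≤ rad G R.1
  · obtain ⟨u, hu⟩ := h1
    rw [lab_tier hd hI hu] at hR
    cases hR
  · push Not at h1
    rcases h with h | ⟨b, hb, hb2⟩
    · have := h1 (σ.arg d y)
      rw [z_arg] at this
      linarith [two_le_rad R.1]
    · rw [lab_base h1 ⟨b, mem_cov.2 ⟨hb, hb2.trans (two_le_rad _)⟩⟩] at hR
      cases hR

/-- Classes have diameter at most `6`. -/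
theorem lab_diam (hd : IsD d) (hI : σ.Inv d) {R : RS ι G} {a b : X}
    (h : σ.lab d G R a = σ.lab d G R b) : d a b ≤ 6 := by
  have key : ∀ y, (∃ u, σ.lab d G R y = Sum.inl u ∧ d y (σ.c u) ≤ 3) ∨
      (∃ u, σ.lab d G R y = Sum.inr (Sum.inl u) ∧ d y (σ.bc u) ≤ 3) ∨
      σ.lab d G R y = Sum.inr (Sum.inr y) := by
    intro y
    by_cases h1 : ∃ u, σ.z d y u ≤ rad G R.1
    · obtain ⟨u, hu⟩ := h1
      refine Or.inl ⟨u, lab_tier hd hI hu, ?_⟩
      have := hI.h_nonneg u
      have := rad_lt_three R.1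
      unfold St.z at hu
      linarith
    · push Not at h1
      by_cases h2 : (σ.cov d G R y).Nonempty
      · refine Or.inr (Or.inl ⟨_, lab_base h1 h2, ?_⟩)
        have := (mem_cov.1 (min'_mem _ h2)).2
        linarith [rad_lt_three (R.2 ((σ.cov d G R y).min' h2))]
      · exact Or.inr (Or.inr (lab_garb h1 h2))
  rcases key a with ⟨u, hu, hu2⟩ | ⟨u, hu, hu2⟩ | hu <;>
    rcases key b with ⟨v, hv, hv2⟩ | ⟨v, hv, hv2⟩ | hv <;>
    rw [hu, hv] at h <;> cases h
  · linarith [hd.tri a (σ.c u) b, hd.symm (σ.c u) b]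
  · linarith [hd.tri a (σ.bc u) b, hd.symm (σ.bc u) b]
  · rw [hd.refl]; norm_num

/-- If the two minima are on the same side of the tier 1 radius, the tier 1 labels agree. -/
theorem tier_cases (hd : IsD d) {σ' : St ι X} (hI : σ.Inv d) (hI' : σ'.Inv d) {y y' : X}
    (h1 : ∀ u, σ'.z d y' u ≤ σ.z d y u + 1) (R : RS ι G)
    (h : σ.m d y ≤ rad G R.1 ↔ σ'.m d y' ≤ rad G R.1) :
    (∃ u, σ.lab d G R y = Sum.inl u ∧ σ'.lab d G R y' = Sum.inl u) ∨
      ((∀ u, rad G R.1 < σ.z d y u) ∧ ∀ u, rad G R.1 < σ'.z d y' u) := by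
  by_cases hm : σ.m d y ≤ rad G R.1
  · left
    have hm' := h.1 hm
    have e1 := z_arg (d := d) σ y
    have e2 := z_arg (d := d) σ' y'
    have h3 := rad_lt_three R.1
    have : σ.arg d y = σ'.arg d y' := by
      by_contra hne
      have := z_sep hd hI' y' hne
      have := h1 (σ.arg d y)
      linarith
    refine ⟨σ.arg d y, lab_tier hd hI (by linarith), lab_tier hd hI' (by rw [this]; linarith)⟩
  · right
    have hm' : ¬ σ'.m d y' ≤ rad G R.1 := fun h' => hm (h.2 h')
    push Not at hm hm'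
    exact ⟨fun u => hm.trans_le (m_le σ y u), fun u => hm'.trans_le (m_le σ' y' u)⟩

theorem claim_inv (hd : IsD d) (hI : σ.Inv d) (v : ι) (r : X) : (σ.claim d v r).Inv d := by
  constructor
  · intro u
    simp only [St.claim]
    split_ifs
    · exact le_rfl
    · exact (hI.h_nonneg u).trans (le_max_left _ _)
  · intro u u' huu
    simp only [St.claim]
    by_cases h1 : u = v
    · subst h1
      have h2 : u' ≠ u := fun h => huu h.symm
      rw [Function.update_self, Function.update_of_ne h2, if_pos rfl, if_neg h2]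
      linarith [le_max_right (σ.h u') (8 - d (σ.c u') r), hd.symm r (σ.c u')]
    · by_cases h2 : u' = v
      · subst h2
        rw [Function.update_self, Function.update_of_ne h1, if_pos rfl, if_neg h1]
        linarith [le_max_right (σ.h u) (8 - d (σ.c u) r)]
      · rw [Function.update_of_ne h1, Function.update_of_ne h2, if_neg h1, if_neg h2]
        linarith [le_max_left (σ.h u) (8 - d (σ.c u) r), le_max_left (σ.h u') (8 - d (σ.c u') r),
          hI.sep u u' huu]

theorem claim_z_self (σ : St ι X) (v : ι) (r y : X) : (σ.claim d v r).z d y v = d y r := by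
  simp [St.z, St.claim]

theorem claim_z_ne (hd : IsD d) (σ : St ι X) {u v : ι} (h : u ≠ v) (r y : X) :
    (σ.claim d v r).z d y u = σ.z d y u + max 0 (8 - σ.z d r u) := by
  simp only [St.z, St.claim]
  rw [Function.update_of_ne h, if_neg h, hd.symm r (σ.c u)]
  rcases le_total (σ.h u) (8 - d (σ.c u) r) with h1 | h1
  · rw [max_eq_right h1, max_eq_right (by linarith)]; ring
  · rw [max_eq_left h1, max_eq_left (by linarith)]; ring

theorem addB_inv (hI : σ.Inv d) (v : ι) (r : X) : (σ.addB v r).Inv d := ⟨hI.h_nonneg, hI.sep⟩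

theorem reset_inv (hI : σ.Inv d) : σ.reset.Inv d := ⟨hI.h_nonneg, hI.sep⟩

theorem init_inv (hd : IsD d) (i₀ : ι) (a : X) : (St.init i₀ a).Inv d := by
  constructor
  · intro u; simp only [St.init]; split_ifs <;> norm_num
  · intro u v huv
    simp only [St.init, hd.refl]
    split_ifs with h1 h2
    · exact absurd (h1.trans h2.symm) huv
    all_goals norm_num

end Basic

end Vale.Agent.P304.Lv
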