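import Vale.Agent.P304.LProb

/-!
P304, part LEVEL: amortized cost of the move of the serving server in the new state.
-/

set_option linter.unusedSectionVars false

namespace Vale.Agent.P304.Lv

open Finset

variable {ι X : Type} [Fintype ι] [LinearOrder ι] [Nonempty ι]
variable {d : X → X → ℝ} {G : ℕ} {lam : ℝ} {σ : St ι X}

theorem chg_le_of_small (hG : 0 < G) (hd : IsD d) (hI : σ.Inv d) {r : X} (hD : σ.m d r ≤ 1)
    (y : X) : chg d G lam σ σ y r ≤ (min (d y r) 1) ^ 2 := by
  rcases le_total (d y r) 1 with h | h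
  · have e1 := z_arg (d := d) σ r
    have e3 := z_lip hd σ y r (σ.arg d r)
    have : chg d G lam σ σ y r = 0 := by
      refine PR_ind_zero fun R hR => hR ?_
      rw [lab_tier_two hd hI R (u := σ.arg d r) (by linarith),
        lab_tier_two hd hI R (u := σ.arg d r) (by linarith)]
    rw [this]; positivity
  · rw [min_eq_right h]; simpa using chg_le_one (d := d) (lam := lam) hG σ σ y r

theorem Mc_small (hG : 0 < G) (hd : IsD d) (hI : σ.Inv d) {r : X} (hD : σ.m d r ≤ 1 / 2) (y : X) :
    Mc d G lam σ y r ≤ (min (d y r) 1) ^ 2 + 40 * σ.m d r * d y r ∧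
    Mc d G lam σ y r ≤ (min (d y r) 1) ^ 2 + 20 * σ.m d r ^ 2 := by
  have h1 := chg_le_of_small (lam := lam) hG hd hI (r := r) (by linarith) y
  have hg : σ.garb d G lam r = 0 := garb_eq_zero hd hI (Or.inl (by linarith))
  have hwf : σ.wf d r = 0 := wf_eq_zero (by linarith [bm_le_m (d := d) σ r])
  have h5 := wf_nonneg (d := d) σ y
  have h6 := garb_nonneg (d := d) (G := G) (lam := lam) σ y
  have e5 := m_lip hd σ r y
  have e6 := hd.symm r y
  have e7 := m_nonneg hd hI r
  have e8 := isD_nonneg hd y r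
  have h0 : 0 ≤ min (σ.m d y) 1 := le_min (m_nonneg hd hI y) zero_le_one
  have h2 : σ.m d r - d y r ≤ min (σ.m d y) 1 := le_min (by linarith) (by linarith)
  have h3 : min (σ.m d r) 1 = σ.m d r := min_eq_left (by linarith)
  have h4 : σ.m d r ^ 2 ≤ (min (σ.m d y) 1) ^ 2 + 2 * σ.m d r * d y r := by
    generalize min (σ.m d y) 1 = a at *
    rcases le_total (σ.m d r) a with h | h
    · nlinarith
    · nlinarith
  unfold Mc St.psi
  rw [h3]
  constructor
  · linarith
  · nlinarith

theorem Mc_claim (hG : 0 < G) (hd : IsD d) (hI : σ.Inv d) (v : ι) (r y : X) :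
    Mc d G lam (σ.claim d v r) y r ≤ (min (d y r) 1) ^ 2 := by
  have hI' := claim_inv hd hI v r
  have e2 : (σ.claim d v r).z d r v = d r r := claim_z_self _ _ _ _
  have e3 := m_le (d := d) (σ.claim d v r) r v
  have e4 := m_nonneg hd hI' r
  have e5 : (σ.claim d v r).m d r = 0 := by rw [hd.refl] at e2; linarith
  have := (Mc_small (lam := lam) hG hd hI' (r := r) (by rw [e5]; norm_num) y).2
  rw [e5] at this
  linarith

theorem Mc_le (hG : 0 < G) (hd : IsD d) (hI : σ.Inv d) {r : X}
    (h : σ.m d r ≤ 1 ∨ ∃ b ∈ σ.base, d r (σ.bc b) ≤ 1) (y : X) : Mc d G lam σ y r ≤ 22 := by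
  have hg : σ.garb d G lam r = 0 := by
    refine garb_eq_zero hd hI ?_
    rcases h with h | ⟨b, hb, h⟩
    · exact Or.inl (by linarith)
    · exact Or.inr ⟨b, hb, by linarith⟩
  have h1 := chg_le_one (d := d) (lam := lam) hG σ σ y r
  have h2 := psi_nonneg (d := d) (G := G) (lam := lam) σ y
  have h0 : 0 ≤ min (σ.m d r) 1 := le_min (m_nonneg hd hI r) zero_le_one
  have h3 : (min (σ.m d r) 1) ^ 2 ≤ 1 := by nlinarith [min_le_right (σ.m d r) 1]
  have h4 := wf_le_half (d := d) σ r
  unfold Mc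
  have : σ.psi d G lam r = 20 * (min (σ.m d r) 1) ^ 2 + σ.wf d r + σ.garb d G lam r := rfl
  linarith

theorem Mc_cut {N : ℕ} (hG : 0 < G) (hN : 1 ≤ N) (hd : IsD d) (hI : σ.Inv d)
    (hc : σ.base.card ≤ N) {r : X} (h : σ.m d r ≤ 1 ∨ ∃ b ∈ σ.base, d r (σ.bc b) ≤ 1) (y : X) :
    Mc d G (Real.log (2 * N)) σ y r ≤ (42 + 2 * Real.log (2 * N)) * d y r +
      22 * (min (d y r) 1) ^ 2 + (1 + 2 * Real.log (2 * N)) / G := by
  have hN' : (1 : ℝ) ≤ N := by exact_mod_cast hN
  have hlam : 0 ≤ Real.log (2 * N) := Real.log_nonneg (by linarith)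
  set lam := Real.log (2 * N) with hlamdef
  have e8 := isD_nonneg hd y r
  have e6 := hd.symm r y
  rcases le_total (d y r) 1 with hs | hs
  swap
  · have h1 := Mc_le (G := G) (lam := lam) hG hd hI h y
    rw [min_eq_right hs]
    have : 0 ≤ (42 + 2 * lam) * d y r := by positivity
    have : 0 ≤ (1 + 2 * lam) / G := by positivity
    linarith
  have hg : σ.garb d G lam r = 0 := by
    refine garb_eq_zero hd hI ?_
    rcases h with h | ⟨b, hb, h⟩
    · exact Or.inl (by linarith)
    · exact Or.inr ⟨b, hb, by linarith⟩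
  have h6 := garb_nonneg (d := d) (G := G) (lam := lam) σ y
  have e5 := m_lip hd σ r y
  have e5' := m_lip hd σ y r
  have hU := unif_cut (ι := ι) hG lam e8 e5' (a := σ.m d y) (b := σ.m d r) (by linarith)
  have hC := carve_cut hG hN σ.base hc (fun b => d y (σ.bc b)) (fun b => d r (σ.bc b)) e8
    (fun b => by linarith [hd.tri y r (σ.bc b)]) (fun b => by linarith [hd.tri r y (σ.bc b)])
  have hchg : chg d G lam σ σ y r ≤ (d y r + 1 / G) + 2 * lam * (d y r + 1 / G) := by
    refine le_trans ?_ (add_le_add hU hC)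
    unfold chg
    rw [← PR_add]
    refine PR_mono fun R => ind_le_add fun hne => ?_
    by_contra hcon
    push Not at hcon
    obtain ⟨hiff, hmin⟩ := hcon
    apply hne
    rcases tier_cases hd hI hI (y := y) (y' := r)
      (fun u => by linarith [z_lip hd σ r y u]) R hiff with ⟨u, h3, h4⟩ | ⟨h3, h4⟩
    · rw [h3, h4]
    · have h2 := two_le_rad R.1
      rcases h with h | ⟨b, hb, h⟩
      · have := h4 (σ.arg d r)
        rw [z_arg] at this
        linarith
      · have hb2 := two_le_rad (R.2 b)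
        have n1 : (σ.cov d G R y).Nonempty :=
          ⟨b, mem_cov.2 ⟨hb, by linarith [hd.tri y r (σ.bc b)]⟩⟩
        have n2 : (σ.cov d G R r).Nonempty := ⟨b, mem_cov.2 ⟨hb, by linarith⟩⟩
        rw [lab_base h3 n1, lab_base h4 n2]
        have : (σ.cov d G R y).min = (σ.cov d G R r).min := by
          unfold St.cov
          convert hmin
        rw [← coe_min' n1, ← coe_min' n2] at this
        rw [WithTop.coe_injective this]
  have hmin : min (σ.m d r) 1 ≤ min (σ.m d y) 1 + d y r := by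
    rcases le_total (σ.m d y) 1 with h | h
    · rw [min_eq_left h]; linarith [min_le_left (σ.m d r) 1]
    · rw [min_eq_right h]; linarith [min_le_right (σ.m d r) 1]
  have h0 : 0 ≤ min (σ.m d r) 1 := le_min (m_nonneg hd hI r) zero_le_one
  have h0' : 0 ≤ min (σ.m d y) 1 := le_min (m_nonneg hd hI y) zero_le_one
  have h1 := min_le_right (σ.m d r) 1
  have hl : (min (σ.m d r) 1) ^ 2 ≤ (min (σ.m d y) 1) ^ 2 + 2 * d y r := by
    generalize min (σ.m d r) 1 = a at *
    generalize min (σ.m d y) 1 = b at *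
    rcases le_total a b with h | h
    · nlinarith
    · nlinarith
  have hbm : σ.bm d r - d y r ≤ σ.bm d y := by
    refine le_bm.2 ⟨by linarith [bm_le_m (d := d) σ r], fun b hb => ?_⟩
    linarith [bm_le_base (d := d) (y := r) hb, hd.tri r y (σ.bc b)]
  have hwf : σ.wf d r ≤ σ.wf d y + d y r := by
    refine wf_le_of_bm e8 ?_
    rcases le_total (σ.bm d y) 1 with h | h
    · rw [min_eq_left h]; linarith [min_le_left (σ.bm d r) 1]
    · rw [min_eq_right h]; linarith [min_le_right (σ.bm d r) 1]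
  have h7 : 0 ≤ (min (d y r) 1) ^ 2 := by positivity
  have h8 : (1 + 2 * lam) / G = 1 / G + 2 * lam * (1 / G) := by ring
  unfold Mc St.psi
  rw [h8]
  nlinarith

end Vale.Agent.P304.Lv
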