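import Vale.Agent.P304.LProb

/-!
P304, part LEVEL: amortized cost of the changes of state for one server.
-/

set_option linter.unusedSectionVars false

namespace Vale.Agent.P304.Lv

open Finset

variable {ι X : Type} [Fintype ι] [LinearOrder ι] [Nonempty ι]
variable {d : X → X → ℝ} {G : ℕ} {lam : ℝ} {σ : St ι X}

theorem lab_eq_of_none {σ' : St ι X} {R : RS ι G} {y : X} (h : ∀ u, rad G R.1 < σ.z d y u)
    (h' : ∀ u, rad G R.1 < σ'.z d y u) (hc : σ.cov d G R y = σ'.cov d G R y) :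
    σ.lab d G R y = σ'.lab d G R y := by
  by_cases h2 : (σ.cov d G R y).Nonempty
  · rw [lab_base h h2, lab_base h' (hc ▸ h2)]
    simp only [hc]
  · rw [lab_garb h h2, lab_garb h' (hc ▸ h2)]

theorem min_bm_le {σ' : St ι X} {y : X} {e : ℝ} (he : 0 ≤ e)
    (hb : ∀ b ∈ σ.base, b ∈ σ'.base ∧ σ'.bc b = σ.bc b)
    (h : min (σ'.m d y) 1 ≤ min (σ.m d y) 1 + e) : min (σ'.bm d y) 1 ≤ min (σ.bm d y) 1 + e := by
  have h0 : min (σ'.bm d y) 1 ≤ min (σ'.m d y) 1 := min_le_min_right _ (bm_le_m _ _)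
  have h1 : min (σ'.bm d y) 1 - e ≤ σ.bm d y := by
    refine le_bm.2 ⟨by linarith [min_le_left (σ.m d y) 1], fun b hb' => ?_⟩
    have := bm_le_base (d := d) (y := y) (hb b hb').1
    rw [(hb b hb').2] at this
    linarith [min_le_left (σ'.bm d y) 1]
  have h2 : min (σ'.bm d y) 1 - e ≤ 1 := by linarith [min_le_right (σ'.bm d y) 1]
  linarith [le_min h1 h2]

theorem Ec_self (σ : St ι X) (y : X) : Ec d G lam σ σ y = 0 := by
  unfold Ec chg
  rw [PR_ind_zero fun R h => h rfl]; ring

theorem loss_le_one (hd : IsD d) (hI : σ.Inv d) (y : X) : (min (σ.m d y) 1) ^ 2 ≤ 1 := by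
  have h0 : 0 ≤ min (σ.m d y) 1 := le_min (m_nonneg hd hI y) zero_le_one
  have h1 := min_le_right (σ.m d y) 1
  nlinarith

theorem Ec_le (hG : 0 < G) (hd : IsD d) {σ' : St ι X} (hI' : σ'.Inv d) (y : X) :
    Ec d G lam σ σ' y ≤ 23 := by
  have h1 := chg_le_one (d := d) (lam := lam) hG σ σ' y y
  have h2 := psi_nonneg (d := d) (G := G) (lam := lam) σ y
  have h3 := loss_le_one hd hI' y
  have h4 := wf_le_half (d := d) σ' y
  have h5 := garb_le_one (d := d) (lam := lam) hG σ' y
  unfold Ec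
  unfold St.psi at *
  linarith

theorem Ec_far (hd : IsD d) (hI : σ.Inv d) {σ' : St ι X} (hI' : σ'.Inv d) {y : X}
    (hb : σ'.base = σ.base) (hbc : σ'.bc = σ.bc)
    (h : ∀ u, σ'.z d y u = σ.z d y u ∨ (3 ≤ σ.z d y u ∧ 3 ≤ σ'.z d y u)) :
    Ec d G lam σ σ' y ≤ 0 := by
  have hchg : chg d G lam σ σ' y y = 0 := by
    refine PR_ind_zero fun R hR => hR ?_
    have h3 := rad_lt_three R.1
    by_cases h1 : ∃ u, σ.z d y u ≤ rad G R.1
    · obtain ⟨u, hu⟩ := h1
      rcases h u with h2 | h2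
      · rw [lab_tier hd hI hu, lab_tier hd hI' (h2 ▸ hu)]
      · linarith [h2.1]
    · push Not at h1
      refine lab_eq_of_none h1 (fun u => ?_) (by unfold St.cov; rw [hb, hbc])
      rcases h u with h2 | h2
      · rw [h2]; exact h1 u
      · linarith [h2.2]
  have hm : min (σ'.m d y) 1 ≤ min (σ.m d y) 1 := by
    refine le_min ?_ (min_le_right _ _)
    have e1 := z_arg (d := d) σ y
    have e2 := m_le (d := d) σ' y (σ.arg d y)
    rcases h (σ.arg d y) with h2 | h2
    · linarith [min_le_left (σ'.m d y) 1]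
    · linarith [min_le_right (σ'.m d y) 1, h2.1]
  have h0 : 0 ≤ min (σ'.m d y) 1 := le_min (m_nonneg hd hI' y) zero_le_one
  have hwf : σ'.wf d y ≤ σ.wf d y + 0 :=
    wf_le_of_bm le_rfl (min_bm_le le_rfl (fun b hb' => ⟨hb ▸ hb', by rw [hbc]⟩) (by linarith))
  have hg := garb_le_chg (d := d) (G := G) (lam := lam) σ σ' y
  have hl : (min (σ'.m d y) 1) ^ 2 ≤ (min (σ.m d y) 1) ^ 2 := pow_le_pow_left₀ h0 hm 2
  unfold Ec St.psi
  linarith

theorem Ec_claim_far (hd : IsD d) (hI : σ.Inv d) {v : ι} {r y : X}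
    (hv : σ.z d r v ≤ 1 / 2 ∨ 8 ≤ σ.h v) (hy : 11 < d y r) :
    Ec d G lam σ (σ.claim d v r) y ≤ 0 := by
  refine Ec_far hd hI (claim_inv hd hI v r) rfl rfl fun u => ?_
  have t1 := hd.tri y (σ.c u) r
  have t2 := hd.symm (σ.c u) r
  have t3 := hI.h_nonneg u
  by_cases huv : u = v
  · subst huv
    right
    rw [claim_z_self]
    refine ⟨?_, by linarith⟩
    have := isD_nonneg hd y (σ.c u)
    unfold St.z at *
    rcases hv with hv | hv <;> linarith
  · rw [claim_z_ne hd σ huv]
    rcases le_total 8 (σ.z d r u) with h1 | h1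
    · left; rw [max_eq_left (by linarith)]; ring
    · right
      have := le_max_left 0 (8 - σ.z d r u)
      unfold St.z at *
      constructor <;> linarith

theorem Ec_claimA_near (hd : IsD d) (hI : σ.Inv d) {r y : X} (hD : σ.m d r ≤ 1 / 2)
    (hy : d y r ≤ σ.m d r / 3) :
    Ec d G lam σ (σ.claim d (σ.arg d r) r) y ≤ -(20 * σ.m d r ^ 2 / 3) := by
  have hI' := claim_inv hd hI (σ.arg d r) r
  set σ' := σ.claim d (σ.arg d r) r with hσ'
  have e1 := z_arg (d := d) σ r
  have e2 : σ'.z d y (σ.arg d r) = d y r := claim_z_self _ _ _ _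
  have e3 := z_lip hd σ y r (σ.arg d r)
  have e4 := m_le (d := d) σ' y (σ.arg d r)
  have e5 := m_lip hd σ r y
  have e6 := hd.symm r y
  have e7 := m_nonneg hd hI r
  have hchg : chg d G lam σ σ' y y = 0 := by
    refine PR_ind_zero fun R hR => hR ?_
    rw [lab_tier_two hd hI R (u := σ.arg d r) (by linarith),
      lab_tier_two hd hI' R (u := σ.arg d r) (by linarith)]
  have hg : σ'.garb d G lam y = 0 := garb_eq_zero hd hI' (Or.inl (by linarith))
  have hwf : σ'.wf d y = 0 := wf_eq_zero (by linarith [bm_le_m (d := d) σ' y])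
  have h0 : 0 ≤ min (σ'.m d y) 1 := le_min (m_nonneg hd hI' y) zero_le_one
  have h1 : min (σ'.m d y) 1 ≤ σ.m d r / 3 := by linarith [min_le_left (σ'.m d y) 1]
  have h2 : 2 * σ.m d r / 3 ≤ min (σ.m d y) 1 := le_min (by linarith) (by linarith)
  have h3 := pow_le_pow_left₀ h0 h1 2
  have h4 := pow_le_pow_left₀ (by positivity) h2 2
  have h5 := wf_nonneg (d := d) σ y
  have h6 := garb_nonneg (d := d) (G := G) (lam := lam) σ y
  unfold Ec St.psi
  nlinarith

theorem Ec_claimA_mid (hG : 0 < G) (hd : IsD d) (hI : σ.Inv d) {r y : X} (hD : σ.m d r ≤ 1 / 2)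
    (hy : σ.m d r / 3 < d y r) :
    Ec d G lam σ (σ.claim d (σ.arg d r) r) y ≤ 104 * σ.m d r * d y r + 2 / G := by
  have hI' := claim_inv hd hI (σ.arg d r) r
  set σ' := σ.claim d (σ.arg d r) r with hσ'
  have e1 := z_arg (d := d) σ r
  have e2 : σ'.z d y (σ.arg d r) = d y r := claim_z_self _ _ _ _
  have e3 := z_lip hd σ y r (σ.arg d r)
  have e4 := m_le (d := d) σ' y (σ.arg d r)
  have e6 := hd.symm r y
  have e7 := m_nonneg hd hI r
  have e8 := isD_nonneg hd y r
  have hz : ∀ u, σ'.z d y u ≤ σ.z d y u + σ.m d r ∧ σ.z d y u ≤ σ'.z d y u + σ.m d r := by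
    intro u
    by_cases hu : u = σ.arg d r
    · subst hu
      refine ⟨?_, by linarith⟩
      have t1 := hd.tri y (σ.c (σ.arg d r)) r
      have t2 := hd.symm (σ.c (σ.arg d r)) r
      have t3 := hI.h_nonneg (σ.arg d r)
      rw [e2]
      unfold St.z at e1 ⊢
      linarith
    · rw [hσ', claim_z_ne hd σ hu]
      have t1 := z_sep hd hI r hu
      have t2 : max 0 (8 - σ.z d r u) ≤ σ.m d r := max_le e7 (by linarith)
      have t3 := le_max_left 0 (8 - σ.z d r u)
      constructor <;> linarith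
  have hm1 : σ'.m d y ≤ σ.m d y + σ.m d r := by
    have := (hz (σ.arg d y)).1
    rw [z_arg] at this
    linarith [m_le (d := d) σ' y (σ.arg d y)]
  have hm2 : σ.m d y ≤ σ'.m d y + σ.m d r := by
    have := (hz (σ'.arg d y)).2
    rw [z_arg] at this
    linarith [m_le (d := d) σ y (σ'.arg d y)]
  have hG' : (0 : ℝ) ≤ 1 / G := by positivity
  have hchg : chg d G lam σ σ' y y ≤ σ.m d r * d y r + 1 / G := by
    rcases le_total (d y r) 1 with hs | hs
    · have : chg d G lam σ σ' y y = 0 := by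
        refine PR_ind_zero fun R hR => hR ?_
        rw [lab_tier_two hd hI R (u := σ.arg d r) (by linarith),
          lab_tier_two hd hI' R (u := σ.arg d r) (by linarith)]
      rw [this]; positivity
    · have h1 := unif_cut (ι := ι) hG lam e7 hm2 hm1
      have h2 : chg d G lam σ σ' y y ≤ PR G lam (fun R : RS ι G =>
          ind (¬ (σ.m d y ≤ rad G R.1 ↔ σ'.m d y ≤ rad G R.1))) := by
        refine PR_mono fun R => ind_mono fun hne hiff => hne ?_
        rcases tier_cases hd hI hI' (fun u => by linarith [(hz u).1]) R hiff with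
          ⟨u, h3, h4⟩ | ⟨h3, h4⟩
        · rw [h3, h4]
        · exact lab_eq_of_none h3 h4 rfl
      nlinarith
  have hg := garb_le_chg (d := d) (G := G) (lam := lam) σ σ' y
  have hmin : min (σ'.m d y) 1 ≤ min (σ.m d y) 1 + σ.m d r := by
    rcases le_total (σ.m d y) 1 with h | h
    · rw [min_eq_left h]; linarith [min_le_left (σ'.m d y) 1]
    · rw [min_eq_right h]; linarith [min_le_right (σ'.m d y) 1]
  have hwf : σ'.wf d y ≤ σ.wf d y + 2 * σ.m d r * d y r := by
    rcases le_total (d y r) (1 / 2) with hs | hs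
    · rw [wf_eq_zero (by linarith [bm_le_m (d := d) σ' y])]
      have := wf_nonneg (d := d) σ y
      positivity
    · have := wf_le_of_bm e7 (min_bm_le (σ := σ) (σ' := σ') (y := y) e7
        (fun b hb => ⟨hb, rfl⟩) hmin)
      nlinarith
  have h0 : 0 ≤ min (σ'.m d y) 1 := le_min (m_nonneg hd hI' y) zero_le_one
  have h0' : 0 ≤ min (σ.m d y) 1 := le_min (m_nonneg hd hI y) zero_le_one
  have h1 : min (σ'.m d y) 1 ≤ d y r := by linarith [min_le_left (σ'.m d y) 1]
  have hl : (min (σ'.m d y) 1) ^ 2 ≤ (min (σ.m d y) 1) ^ 2 + 2 * σ.m d r * d y r := by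
    generalize min (σ'.m d y) 1 = a at *
    generalize min (σ.m d y) 1 = b at *
    rcases le_total a b with h | h
    · nlinarith
    · nlinarith
  have hds : 0 ≤ σ.m d r * d y r := by positivity
  unfold Ec St.psi
  have : (2 : ℝ) / G = 2 * (1 / G) := by ring
  rw [this]
  nlinarith

theorem Ec_claimB_near (hG : 0 < G) (hd : IsD d) (hI : σ.Inv d) (v : ι) {r y : X}
    (hD : 1 / 2 < σ.m d r) (hy : d y r ≤ 1 / 10) :
    Ec d G lam σ (σ.claim d v r) y ≤ -2 := by
  have hI' := claim_inv hd hI v r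
  set σ' := σ.claim d v r with hσ'
  have e2 : σ'.z d y v = d y r := claim_z_self _ _ _ _
  have e4 := m_le (d := d) σ' y v
  have e5 := m_lip hd σ r y
  have e6 := hd.symm r y
  have hchg := chg_le_one (d := d) (lam := lam) hG σ σ' y y
  have hg : σ'.garb d G lam y = 0 := garb_eq_zero hd hI' (Or.inl (by linarith))
  have hwf : σ'.wf d y = 0 := wf_eq_zero (by linarith [bm_le_m (d := d) σ' y])
  have h0 : 0 ≤ min (σ'.m d y) 1 := le_min (m_nonneg hd hI' y) zero_le_one
  have h1 : min (σ'.m d y) 1 ≤ 1 / 10 := by linarith [min_le_left (σ'.m d y) 1]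
  have h2 : 2 / 5 ≤ min (σ.m d y) 1 := le_min (by linarith) (by norm_num)
  have h3 := pow_le_pow_left₀ h0 h1 2
  have h4 := pow_le_pow_left₀ (by norm_num) h2 2
  have h5 := wf_nonneg (d := d) σ y
  have h6 := garb_nonneg (d := d) (G := G) (lam := lam) σ y
  unfold Ec St.psi
  nlinarith

theorem chg_garb_addB (hd : IsD d) (hI : σ.Inv d) {v : ι} (hv : ∀ b ∈ σ.base, b < v) (r y : X) :
    chg d G lam σ (σ.addB v r) y y + (σ.addB v r).garb d G lam y ≤ σ.garb d G lam y := by
  have hI' := addB_inv hI v r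
  unfold chg St.garb
  rw [← PR_add]
  refine PR_mono fun R => ?_
  by_cases h1 : ∃ u, σ.z d y u ≤ rad G R.1
  · obtain ⟨u, hu⟩ := h1
    rw [lab_tier hd hI hu, lab_tier hd hI' (σ := σ.addB v r) hu, ind_neg (fun h => h rfl),
      ind_neg (fun h => by cases h)]
    norm_num
  · push Not at h1
    by_cases h2 : (σ.cov d G R y).Nonempty
    · have hsub : ∀ b ∈ σ.cov d G R y, b ∈ (σ.addB v r).cov d G R y := by
        intro b hb
        rw [mem_cov] at hb ⊢
        refine ⟨mem_insert_of_mem hb.1, ?_⟩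
        simp only [St.addB]
        rw [Function.update_of_ne (hv b hb.1).ne]
        exact hb.2
      have h3 : ((σ.addB v r).cov d G R y).Nonempty := ⟨_, hsub _ (min'_mem _ h2)⟩
      have h4 : ((σ.addB v r).cov d G R y).min' h3 = (σ.cov d G R y).min' h2 := by
        refine le_antisymm (min'_le _ _ (hsub _ (min'_mem _ h2))) (le_min' _ _ _ fun b hb => ?_)
        rw [mem_cov] at hb
        rcases mem_insert.1 hb.1 with h5 | h5
        · rw [h5]; exact (hv _ (mem_cov.1 (min'_mem _ h2)).1).le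
        · refine min'_le _ _ (mem_cov.2 ⟨h5, ?_⟩)
          have := hb.2
          simp only [St.addB] at this
          rwa [Function.update_of_ne (hv b h5).ne] at this
      rw [lab_base h1 h2, lab_base (σ := σ.addB v r) h1 h3, h4, ind_neg (fun h => h rfl),
        ind_neg (fun h => by cases h)]
      norm_num
    · rw [lab_garb h1 h2, ind_pos rfl]
      by_cases h3 : (σ.addB v r).lab d G R y = Sum.inr (Sum.inr y)
      · rw [h3, ind_neg (fun h => h rfl), ind_pos rfl]; norm_num
      · rw [ind_neg h3]; linarith [ind_le_one (Sum.inr (Sum.inr y) ≠ (σ.addB v r).lab d G R y)]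

theorem Ec_addB (hd : IsD d) (hI : σ.Inv d) {v : ι} (hv : ∀ b ∈ σ.base, b < v) (r y : X) :
    Ec d G lam σ (σ.addB v r) y ≤ 0 := by
  have h1 := chg_garb_addB (G := G) (lam := lam) hd hI hv r y
  have hm : (σ.addB v r).m d y = σ.m d y := rfl
  have hwf : (σ.addB v r).wf d y ≤ σ.wf d y + 0 := by
    refine wf_le_of_bm le_rfl (min_bm_le le_rfl (fun b hb => ⟨mem_insert_of_mem hb, ?_⟩)
      (by rw [hm]; linarith))
    simp only [St.addB]
    rw [Function.update_of_ne (hv b hb).ne]
  unfold Ec St.psi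
  rw [hm]
  linarith

theorem Ec_addB_near (hd : IsD d) (hI : σ.Inv d) {v : ι} (hv : ∀ b ∈ σ.base, b < v) {r y : X}
    (hD : 1 < σ.m d r) (hb : ∀ b ∈ σ.base, 1 < d r (σ.bc b)) (hy : d y r ≤ 1 / 10) :
    Ec d G lam σ (σ.addB v r) y ≤ -(2 / 5) := by
  have h1 := chg_garb_addB (G := G) (lam := lam) hd hI hv r y
  have hm : (σ.addB v r).m d y = σ.m d y := rfl
  have hwf : (σ.addB v r).wf d y = 0 := by
    refine wf_eq_zero ?_
    have := bm_le_base (d := d) (σ := σ.addB v r) (y := y) (mem_insert_self v σ.base)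
    simp only [St.addB, Function.update_self] at this ⊢
    linarith
  have e5 := m_lip hd σ r y
  have e6 := hd.symm r y
  have h2 : 9 / 10 ≤ σ.bm d y := by
    refine le_bm.2 ⟨by linarith, fun b hb' => ?_⟩
    linarith [hb b hb', hd.tri r y (σ.bc b)]
  have h3 : 2 / 5 ≤ σ.wf d y := by
    unfold St.wf
    have : 9 / 10 ≤ min (σ.bm d y) 1 := le_min h2 (by norm_num)
    linarith [le_max_left (min (σ.bm d y) 1) (1 / 2)]
  unfold Ec St.psi
  rw [hm]
  linarith

theorem Ec_reset (hG : 0 < G) (v : ι) (r y : X) :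
    Ec d G lam σ (σ.reset.addB v r) y ≤ 5 / 2 := by
  have hm : (σ.reset.addB v r).m d y = σ.m d y := rfl
  have h1 := chg_le_one (d := d) (lam := lam) hG σ (σ.reset.addB v r) y y
  have h4 := wf_le_half (d := d) (σ.reset.addB v r) y
  have h5 := garb_le_one (d := d) (lam := lam) hG (σ.reset.addB v r) y
  have h6 := wf_nonneg (d := d) σ y
  have h7 := garb_nonneg (d := d) (G := G) (lam := lam) σ y
  unfold Ec St.psi
  rw [hm]
  linarith

theorem psi_init (hG : 0 < G) (hd : IsD d) (i₀ : ι) (a y : X) :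
    (St.init i₀ a).psi d G lam y ≤ 23 * (min (d y a) 1) ^ 2 := by
  have hI := init_inv hd i₀ a
  set σ : St ι X := St.init i₀ a with hσ
  have e1 : σ.z d y i₀ = d y a := by simp [hσ, St.z, St.init]
  have e2 := m_le (d := d) σ y i₀
  have h0 : 0 ≤ min (σ.m d y) 1 := le_min (m_nonneg hd hI y) zero_le_one
  have h1 : min (σ.m d y) 1 ≤ min (d y a) 1 := min_le_min_right _ (by linarith)
  have h3 := pow_le_pow_left₀ h0 h1 2
  have h4 : σ.wf d y ≤ 2 * (min (d y a) 1) ^ 2 := by
    rcases le_total (d y a) (1 / 2) with h | h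
    · rw [wf_eq_zero (by linarith [bm_le_m (d := d) σ y])]; positivity
    · have : 1 / 2 ≤ min (d y a) 1 := le_min h (by norm_num)
      nlinarith [wf_le_half (d := d) σ y]
  have h5 : σ.garb d G lam y ≤ (min (d y a) 1) ^ 2 := by
    rcases le_total (d y a) 1 with h | h
    · rw [garb_eq_zero hd hI (Or.inl (by linarith))]; positivity
    · rw [min_eq_right h]; simpa using garb_le_one (d := d) (lam := lam) hG σ y
  unfold St.psi
  linarith

end Vale.Agent.P304.Lv
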