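import Vale.Agent.P304.LDefs

/-!
P304, part LEVEL: the two probabilistic cutting estimates.

`unif_cut`: `R.1` is uniform on `Fin G` (sum over `R.2` gives total weight 1, see the proof of
`wR_sum`), and at most `e * G + 1` grid points `rad G i = 2 + i / G` lie in `[min a b, max a b)`.

`carve_cut`: with `p = exp (-lam / G)`, `p ^ G = 1 / (2 N)`, `geo i = p ^ i (1 - p) / (1 - p ^ G)`,
`P(i ≥ j) = (p ^ j - p ^ G) / (1 - p ^ G)`, `1 - p ≤ lam / G`, so
`P(rad ∈ [a, a + e)) ≤ (e G + 1) geo j ≤ lam (e + 1/G) (P(rad ≥ a) + 1/N)` (`j` the first grid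
point `≥ a`; `p ^ G / (1 - p ^ G) = 1/(2N-1) ≤ 1/N`).
Resampling: `PR f = PR (fun R => ∑ i, geo i * f (R.1, update R.2 b i))` (involution
`(R, i) ↦ ((R.1, update R.2 b i), R.2 b)`), hence `PR (f (R.2 b) * g R) = (∑ geo i * f i) * PR g`
when `g` does not depend on the coordinate `b`.
Induction on `B` removing the least element `b` (`Finset.induction_on_min`):
`cut B ≤ lam (e + 1/G) (touch B + card B / N)`, `touch B = P(some ball of B contains one of the
two points)`; `cut (insert b B) ≤ P(rad ∈ [min, max)) + P(rad < min) cut B`,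
`touch (insert b B) = P(min ≤ rad) + P(rad < min) touch B`.
-/

set_option linter.unusedSectionVars false

namespace Vale.Agent.P304.Lv

open Finset

variable {ι : Type} [Fintype ι] [LinearOrder ι]

theorem lp_rad_mono {G : ℕ} {i j : Fin G} (h : i ≤ j) : rad G i ≤ rad G j := by
  unfold rad
  have h1 : ((i : ℕ) : ℝ) ≤ (j : ℕ) := by exact_mod_cast h
  have : ((i : ℕ) : ℝ) / G ≤ (j : ℕ) / G := div_le_div_of_nonneg_right h1 (Nat.cast_nonneg _)
  linarith

theorem lp_card {G : ℕ} (hG : 0 < G) (m : ℝ) {e : ℝ} (he : 0 ≤ e) (S : Finset (Fin G))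
    (hS : ∀ i ∈ S, m ≤ rad G i ∧ rad G i < m + e) : (S.card : ℝ) ≤ e * G + 1 := by
  have hG' : (0 : ℝ) < G := by exact_mod_cast hG
  rcases S.eq_empty_or_nonempty with h | h
  · subst h
    simp only [card_empty, Nat.cast_zero]
    positivity
  · set j := S.min' h with hj
    have hjS : j ∈ S := min'_mem _ _
    have hsub : S.map Fin.valEmbedding ⊆ Icc (j : ℕ) (j + ⌊e * G⌋₊) := by
      intro n hn
      obtain ⟨i, hi, rfl⟩ := mem_map.1 hn
      have h1 : j ≤ i := min'_le _ _ hi
      have h1' : (j : ℕ) ≤ (i : ℕ) := h1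
      refine mem_Icc.2 ⟨h1', ?_⟩
      have h2 := (hS i hi).2
      have h3 := (hS j hjS).1
      unfold rad at h2 h3
      have h4 : (((i : ℕ) : ℝ) - (j : ℕ)) / G ≤ e := by
        rw [sub_div]; linarith
      rw [div_le_iff₀ hG'] at h4
      have h5 : (i : ℕ) - (j : ℕ) ≤ ⌊e * G⌋₊ := by
        apply Nat.le_floor
        rw [Nat.cast_sub h1']; exact h4
      show (i : ℕ) ≤ j + ⌊e * G⌋₊
      omega
    have h6 := card_le_card hsub
    rw [card_map, Nat.card_Icc] at h6
    have h7 : S.card ≤ ⌊e * G⌋₊ + 1 := by omega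
    have h8 : (⌊e * G⌋₊ : ℝ) ≤ e * G := Nat.floor_le (by positivity)
    have h9 : (S.card : ℝ) ≤ (⌊e * G⌋₊ : ℝ) + 1 := by exact_mod_cast h7
    linarith

theorem lp_sum_ind {α : Type} [Fintype α] (p : α → Prop) [DecidablePred p] (g : α → ℝ) :
    ∑ i, g i * ind (p i) = ∑ i ∈ univ.filter p, g i := by
  rw [sum_filter]
  refine sum_congr rfl fun i _ => ?_
  by_cases h : p i
  · rw [ind_pos h, if_pos h, mul_one]
  · rw [ind_neg h, if_neg h, mul_zero]

theorem lp_PR_fst {G : ℕ} (hG : 0 < G) (lam : ℝ) (f : Fin G → ℝ) :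
    PR G lam (fun R : RS ι G => f R.1) = ∑ i, (1 / G : ℝ) * f i := by
  unfold PR wR
  rw [Fintype.sum_prod_type]
  have h1 : ∑ R : ι → Fin G, ∏ b, geo G lam (R b) = 1 := by
    rw [← Fintype.piFinset_univ, ← Finset.prod_univ_sum]
    simp [geo_sum hG]
  refine sum_congr rfl fun i _ => ?_
  simp only
  rw [← sum_mul, ← mul_sum, h1, mul_one]

theorem lp_wR_update {G : ℕ} (lam : ℝ) (b : ι) (R : RS ι G) (i : Fin G) :
    wR G lam ((R.1, Function.update R.2 b i) : RS ι G) * geo G lam (R.2 b) =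
      wR G lam R * geo G lam i := by
  unfold wR
  simp only
  rw [← mul_prod_erase univ _ (mem_univ b), ← mul_prod_erase univ (fun c => geo G lam (R.2 c))
    (mem_univ b), Function.update_self]
  have : ∏ c ∈ univ.erase b, geo G lam (Function.update R.2 b i c) =
      ∏ c ∈ univ.erase b, geo G lam (R.2 c) :=
    prod_congr rfl fun c hc => by rw [Function.update_of_ne (ne_of_mem_erase hc)]
  rw [this]; ring

theorem lp_indep {G : ℕ} (hG : 0 < G) (lam : ℝ) (b : ι) (f : Fin G → ℝ) (g : RS ι G → ℝ)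
    (hg : ∀ (R : RS ι G) (i : Fin G), g (R.1, Function.update R.2 b i) = g R) :
    PR G lam (fun R => f (R.2 b) * g R) = (∑ i, geo G lam i * f i) * PR G lam g := by
  let φ : RS ι G × Fin G → RS ι G × Fin G := fun z =>
    ((z.1.1, Function.update z.1.2 b z.2), z.1.2 b)
  have hφ : Function.Involutive φ := by
    rintro ⟨⟨r1, r2⟩, i⟩
    simp [φ]
  let H : RS ι G × Fin G → ℝ := fun z => wR G lam z.1 * geo G lam z.2 * (f (z.1.2 b) * g z.1)
  have h1 : ∑ z, H (φ z) = ∑ z, H z := Equiv.sum_comp hφ.toPerm H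
  have h2 : ∑ z, H z = PR G lam (fun R => f (R.2 b) * g R) := by
    rw [Fintype.sum_prod_type]
    unfold PR
    refine sum_congr rfl fun R _ => ?_
    simp only [H]
    rw [← sum_mul, ← mul_sum, geo_sum hG, mul_one]
  have h3 : ∑ z, H (φ z) = (∑ i, geo G lam i * f i) * PR G lam g := by
    rw [Fintype.sum_prod_type]
    unfold PR
    rw [mul_sum]
    refine sum_congr rfl fun R _ => ?_
    rw [sum_mul]
    refine sum_congr rfl fun i _ => ?_
    simp only [H, φ]
    rw [lp_wR_update, hg, Function.update_self]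
    ring
  rw [← h2, ← h1, h3]

theorem lp_geo_eq {G : ℕ} (lam : ℝ) (i : Fin G) :
    geo G lam i = Real.exp (-(lam / G)) ^ (i : ℕ) /
      ∑ j ∈ range G, Real.exp (-(lam / G)) ^ j := by
  unfold geo
  have h : ∀ n : ℕ, Real.exp (-(lam * n / G)) = Real.exp (-(lam / G)) ^ n := by
    intro n
    rw [← Real.exp_nat_mul]
    congr 1; ring
  simp only [h]
  rw [Fin.sum_univ_eq_sum_range (fun n => Real.exp (-(lam / G)) ^ n) G]

theorem lp_geo_anti {G : ℕ} {lam : ℝ} (hl : 0 ≤ lam) {i j : Fin G} (h : i ≤ j) :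
    geo G lam j ≤ geo G lam i := by
  rw [lp_geo_eq, lp_geo_eq]
  refine div_le_div_of_nonneg_right ?_ (sum_nonneg fun _ _ => by positivity)
  refine pow_le_pow_of_le_one (Real.exp_pos _).le ?_ h
  rw [Real.exp_le_one_iff]
  have : 0 ≤ lam / G := by positivity
  linarith

theorem lp_geo_le {G N : ℕ} (hG : 0 < G) (hN : 1 ≤ N) (j : Fin G) :
    geo G (Real.log (2 * N)) j ≤ Real.log (2 * N) / G *
      (∑ i ∈ univ.filter (fun i => j ≤ i), geo G (Real.log (2 * N)) i + 1 / N) := by
  have hG' : (0 : ℝ) < G := by exact_mod_cast hG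
  have hN' : (1 : ℝ) ≤ N := by exact_mod_cast hN
  set lam := Real.log (2 * N) with hlam
  have hl : 0 ≤ lam := Real.log_nonneg (by linarith)
  set q := Real.exp (-(lam / G)) with hq
  have hq0 : 0 < q := Real.exp_pos _
  have hqG : q ^ G = 1 / (2 * N) := by
    rw [hq, ← Real.exp_nat_mul]
    have : (G : ℝ) * -(lam / G) = -lam := by field_simp
    rw [this, Real.exp_neg, hlam, Real.exp_log (by linarith), one_div]
  have hq1 : 1 - q ≤ lam / G := by
    have := Real.add_one_le_exp (-(lam / G))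
    linarith
  set Z := ∑ j ∈ range G, q ^ j with hZ
  have hZ0 : 0 < Z := sum_pos (fun _ _ => pow_pos hq0 _) ⟨0, mem_range.2 hG⟩
  have hZ1 : Z * (1 - q) = 1 - q ^ G := by
    have := geom_sum_mul_neg q G
    rw [hZ]; exact this
  set T := ∑ n ∈ Ico (j : ℕ) G, q ^ n with hT
  have hT0 : 0 ≤ T := sum_nonneg fun _ _ => (pow_pos hq0 _).le
  have hT1 : T * (1 - q) = q ^ (j : ℕ) - q ^ G := by
    have h1 := geom_sum_mul_neg q (j : ℕ)
    have h2 : T = Z - ∑ n ∈ range (j : ℕ), q ^ n := by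
      rw [hT, hZ, sum_Ico_eq_sub _ j.2.le]
    rw [h2, sub_mul, hZ1, h1]; ring
  have hS : ∑ i ∈ univ.filter (fun i => j ≤ i), geo G lam i = T / Z := by
    simp only [lp_geo_eq]
    rw [← sum_div, ← hq, ← hZ]
    congr 1
    rw [sum_filter, hT]
    have h1 : ∀ i : Fin G, (if j ≤ i then q ^ (i : ℕ) else 0) =
        (fun n : ℕ => if (j : ℕ) ≤ n then q ^ n else 0) i := fun i => by
      simp only [Fin.le_def]
    simp only [h1]
    rw [Fin.sum_univ_eq_sum_range (fun n : ℕ => if (j : ℕ) ≤ n then q ^ n else 0) G, ← sum_filter]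
    refine sum_congr ?_ fun _ _ => rfl
    ext n
    simp only [mem_filter, mem_range, mem_Ico]
    tauto
  rw [hS, lp_geo_eq, ← hq, ← hZ, div_le_iff₀ hZ0]
  have e1 : lam / G * (T / Z + 1 / N) * Z = lam / G * T + lam / G * Z / N := by
    field_simp
  rw [e1]
  have h3 : T * (1 - q) ≤ lam / G * T := by nlinarith
  have h4 : Z * (1 - q) ≤ lam / G * Z := by nlinarith
  have h5 : q ^ G ≤ lam / G * Z / N := by
    rw [le_div_iff₀ (by linarith)]
    have h6 : q ^ G * N = 1 / 2 := by rw [hqG]; field_simp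
    have h7 : q ^ G ≤ 1 / 2 := by
      have := pow_pos hq0 G
      nlinarith
    linarith
  linarith

theorem lp_window {G N : ℕ} (hG : 0 < G) (hN : 1 ≤ N) (m : ℝ) {e : ℝ} (he : 0 ≤ e) :
    ∑ i, geo G (Real.log (2 * N)) i * ind (m ≤ rad G i ∧ rad G i < m + e) ≤
      Real.log (2 * N) * (e + 1 / G) *
        (∑ i, geo G (Real.log (2 * N)) i * ind (m ≤ rad G i) + 1 / N) := by
  classical
  have hG' : (0 : ℝ) < G := by exact_mod_cast hG
  have hN' : (1 : ℝ) ≤ N := by exact_mod_cast hN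
  have hl : 0 ≤ Real.log (2 * N) := Real.log_nonneg (by linarith)
  rw [lp_sum_ind, lp_sum_ind]
  set S := univ.filter (fun i : Fin G => m ≤ rad G i ∧ rad G i < m + e) with hS
  have hP0 : 0 ≤ ∑ i ∈ univ.filter (fun i : Fin G => m ≤ rad G i), geo G (Real.log (2 * N)) i :=
    sum_nonneg fun _ _ => geo_nonneg _ _ _
  rcases S.eq_empty_or_nonempty with h | h
  · rw [h, sum_empty]; positivity
  · set j := S.min' h with hj
    have hjS : j ∈ S := min'_mem _ _
    have h1 : ∑ i ∈ S, geo G (Real.log (2 * N)) i ≤ S.card * geo G (Real.log (2 * N)) j := by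
      have := sum_le_card_nsmul S (fun i => geo G (Real.log (2 * N)) i)
        (geo G (Real.log (2 * N)) j) fun i hi => lp_geo_anti hl (min'_le _ _ hi)
      rwa [nsmul_eq_mul] at this
    have h2 := lp_card hG m he S fun i hi => (mem_filter.1 hi).2
    have h3 := lp_geo_le hG hN j
    have h4 : ∑ i ∈ univ.filter (fun i => j ≤ i), geo G (Real.log (2 * N)) i ≤
        ∑ i ∈ univ.filter (fun i : Fin G => m ≤ rad G i), geo G (Real.log (2 * N)) i := by
      refine sum_le_sum_of_subset_of_nonneg (fun i hi => ?_) fun _ _ _ => geo_nonneg _ _ _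
      exact mem_filter.2 ⟨mem_univ _,
        (mem_filter.1 hjS).2.1.trans (lp_rad_mono (mem_filter.1 hi).2)⟩
    have h5 := geo_nonneg G (Real.log (2 * N)) j
    have h6 : geo G (Real.log (2 * N)) j ≤ Real.log (2 * N) / G *
        (∑ i ∈ univ.filter (fun i : Fin G => m ≤ rad G i), geo G (Real.log (2 * N)) i + 1 / N) :=
      h3.trans (mul_le_mul_of_nonneg_left (by linarith) (by positivity))
    calc _ ≤ S.card * geo G (Real.log (2 * N)) j := h1
      _ ≤ (e * G + 1) * geo G (Real.log (2 * N)) j := mul_le_mul_of_nonneg_right h2 h5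
      _ ≤ (e * G + 1) * (Real.log (2 * N) / G *
        (∑ i ∈ univ.filter (fun i : Fin G => m ≤ rad G i), geo G (Real.log (2 * N)) i + 1 / N)) :=
          mul_le_mul_of_nonneg_left h6 (by positivity)
      _ = _ := by field_simp

/-- The cut event of a set of base centres. -/
def lpCut {G : ℕ} (a a' : ι → ℝ) (B : Finset ι) (R : RS ι G) : Prop :=
  (B.filter fun b => a b ≤ rad G (R.2 b)).min ≠ (B.filter fun b => a' b ≤ rad G (R.2 b)).min

/-- Some ball contains one of the two points. -/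
def lpTouch {G : ℕ} (a a' : ι → ℝ) (B : Finset ι) (R : RS ι G) : Prop :=
  ∃ b ∈ B, min (a b) (a' b) ≤ rad G (R.2 b)

theorem lp_cut_update {G : ℕ} (a a' : ι → ℝ) {B : Finset ι} {b : ι} (hb : b ∉ B) (R : RS ι G)
    (i : Fin G) : ind (lpCut a a' B ((R.1, Function.update R.2 b i) : RS ι G)) =
      ind (lpCut a a' B R) := by
  have h : ∀ u : ι → ℝ, (B.filter fun c => u c ≤ rad G (Function.update R.2 b i c)) =
      B.filter fun c => u c ≤ rad G (R.2 c) := fun u =>
    filter_congr fun c hc => by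
      rw [Function.update_of_ne (fun h : c = b => hb (h ▸ hc))]
  unfold lpCut
  simp only [h]

theorem lp_touch_update {G : ℕ} (a a' : ι → ℝ) {B : Finset ι} {b : ι} (hb : b ∉ B) (R : RS ι G)
    (i : Fin G) : ind (lpTouch a a' B ((R.1, Function.update R.2 b i) : RS ι G)) =
      ind (lpTouch a a' B R) := by
  congr 1
  unfold lpTouch
  refine propext (exists_congr fun c => and_congr_right fun hc => ?_)
  simp only
  rw [Function.update_of_ne (fun h : c = b => hb (h ▸ hc))]

theorem lp_min_insert {b : ι} {B : Finset ι} (hb : ∀ c ∈ B, b < c) (p : ι → Prop)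
    [DecidablePred p] (h : p b) : ((insert b B).filter p).min = (b : WithTop ι) := by
  refine le_antisymm (min_le (mem_filter.2 ⟨mem_insert_self _ _, h⟩)) ?_
  refine Finset.le_min fun c hc => ?_
  rcases mem_insert.1 (mem_filter.1 hc).1 with h1 | h1
  · rw [h1]
  · exact WithTop.coe_le_coe.2 (hb c h1).le

theorem lp_cut_step {G : ℕ} (a a' : ι → ℝ) {e : ℝ} (he : 0 ≤ e) (h1 : ∀ b, a b ≤ a' b + e)
    (h2 : ∀ b, a' b ≤ a b + e) {b : ι} {B : Finset ι} (hb : ∀ c ∈ B, b < c) (R : RS ι G) :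
    ind (lpCut a a' (insert b B) R) ≤
      ind (min (a b) (a' b) ≤ rad G (R.2 b) ∧ rad G (R.2 b) < min (a b) (a' b) + e) * 1 +
        ind (¬ min (a b) (a' b) ≤ rad G (R.2 b)) * ind (lpCut a a' B R) := by
  by_cases c1 : min (a b) (a' b) ≤ rad G (R.2 b)
  · rw [ind_neg (not_not.2 c1), zero_mul, add_zero, mul_one]
    refine ind_mono fun h => ⟨c1, ?_⟩
    by_contra c2
    have c3 := not_lt.1 c2
    have c4 : a b ≤ min (a b) (a' b) + e := by
      rcases min_choice (a b) (a' b) with h3 | h3 <;> rw [h3] <;> linarith [h1 b]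
    have c5 : a' b ≤ min (a b) (a' b) + e := by
      rcases min_choice (a b) (a' b) with h3 | h3 <;> rw [h3] <;> linarith [h2 b]
    apply h
    rw [lp_min_insert hb (fun b => a b ≤ rad G (R.2 b)) (c4.trans c3),
      lp_min_insert hb (fun b => a' b ≤ rad G (R.2 b)) (c5.trans c3)]
  · have c0 : ¬ (min (a b) (a' b) ≤ rad G (R.2 b) ∧ rad G (R.2 b) < min (a b) (a' b) + e) :=
      fun h => c1 h.1
    rw [ind_pos c1, ind_neg c0, zero_mul, zero_add, one_mul]
    have c2 : ¬ a b ≤ rad G (R.2 b) := fun h => c1 ((min_le_left _ _).trans h)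
    have c3 : ¬ a' b ≤ rad G (R.2 b) := fun h => c1 ((min_le_right _ _).trans h)
    refine ind_mono fun h => ?_
    unfold lpCut at h ⊢
    rwa [filter_insert, filter_insert, if_neg c2, if_neg c3] at h

theorem lp_touch_step {G : ℕ} (a a' : ι → ℝ) (b : ι) (B : Finset ι) (R : RS ι G) :
    ind (min (a b) (a' b) ≤ rad G (R.2 b)) * 1 +
        ind (¬ min (a b) (a' b) ≤ rad G (R.2 b)) * ind (lpTouch a a' B R) ≤
      ind (lpTouch a a' (insert b B) R) := by
  by_cases c1 : min (a b) (a' b) ≤ rad G (R.2 b)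
  · rw [ind_neg (not_not.2 c1), zero_mul, add_zero, mul_one]
    exact ind_mono fun h => ⟨b, mem_insert_self _ _, h⟩
  · rw [ind_pos c1, ind_neg c1, zero_mul, zero_add, one_mul]
    exact ind_mono fun ⟨c, hc, h⟩ => ⟨c, mem_insert_of_mem hc, h⟩

theorem lp_main {G N : ℕ} (hG : 0 < G) (hN : 1 ≤ N) (a a' : ι → ℝ) {e : ℝ} (he : 0 ≤ e)
    (h1 : ∀ b, a b ≤ a' b + e) (h2 : ∀ b, a' b ≤ a b + e) (B : Finset ι) :
    PR G (Real.log (2 * N)) (fun R : RS ι G => ind (lpCut a a' B R)) ≤
      Real.log (2 * N) * (e + 1 / G) *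
        (PR G (Real.log (2 * N)) (fun R : RS ι G => ind (lpTouch a a' B R)) + B.card / N) := by
  have hG' : (0 : ℝ) < G := by exact_mod_cast hG
  have hN' : (1 : ℝ) ≤ N := by exact_mod_cast hN
  have hl : 0 ≤ Real.log (2 * N) := Real.log_nonneg (by linarith)
  have hc : 0 ≤ Real.log (2 * N) * (e + 1 / G) := by positivity
  induction B using Finset.induction_on_min with
  | empty =>
    rw [PR_ind_zero (fun R h => h (by simp))]
    have := PR_ind_nonneg (G := G) (lam := Real.log (2 * N))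
      (fun R : RS ι G => lpTouch a a' ∅ R)
    positivity
  | insert b B hb ih =>
    have hbB : b ∉ B := fun h => lt_irrefl _ (hb b h)
    have e1 := PR_mono (lam := Real.log (2 * N)) (lp_cut_step (G := G) a a' he h1 h2 hb)
    have e2 := PR_mono (lam := Real.log (2 * N)) (lp_touch_step (G := G) a a' b B)
    rw [PR_add,
      lp_indep hG _ b (fun i => ind (min (a b) (a' b) ≤ rad G i ∧ rad G i < min (a b) (a' b) + e))
        (fun _ => 1) (fun _ _ => rfl),
      lp_indep hG _ b (fun i => ind (¬ min (a b) (a' b) ≤ rad G i)) _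
        (lp_cut_update a a' hbB), PR_const hG, mul_one] at e1
    rw [PR_add,
      lp_indep hG _ b (fun i => ind (min (a b) (a' b) ≤ rad G i)) (fun _ => 1) (fun _ _ => rfl),
      lp_indep hG _ b (fun i => ind (¬ min (a b) (a' b) ≤ rad G i)) _
        (lp_touch_update a a' hbB), PR_const hG, mul_one] at e2
    have e3 := lp_window hG hN (min (a b) (a' b)) he
    have e4 : 0 ≤ ∑ i, geo G (Real.log (2 * N)) i * ind (¬ min (a b) (a' b) ≤ rad G i) :=
      sum_nonneg fun i _ => mul_nonneg (geo_nonneg _ _ _) (ind_nonneg _)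
    have e5 : ∑ i, geo G (Real.log (2 * N)) i * ind (¬ min (a b) (a' b) ≤ rad G i) ≤ 1 := by
      rw [← geo_sum hG (Real.log (2 * N))]
      exact sum_le_sum fun i _ => mul_le_of_le_one_right (geo_nonneg _ _ _) (ind_le_one _)
    rw [card_insert_of_notMem hbB, Nat.cast_add, Nat.cast_one, add_div]
    have e6 : (0 : ℝ) ≤ (B.card : ℝ) / N := by positivity
    generalize (B.card : ℝ) / N = β at *
    generalize (1 : ℝ) / N = ν at *
    generalize ∑ i, geo G (Real.log (2 * N)) i * ind (¬ min (a b) (a' b) ≤ rad G i) = L at *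
    generalize ∑ i, geo G (Real.log (2 * N)) i * ind (min (a b) (a' b) ≤ rad G i) = U at *
    generalize Real.log (2 * N) * (e + 1 / G) = c at *
    have e7 := mul_le_mul_of_nonneg_left ih e4
    have e8 := mul_le_mul_of_nonneg_left e2 hc
    have e9 : L * (c * β) ≤ c * β := mul_le_of_le_one_left (mul_nonneg hc e6) e5
    nlinarith

theorem unif_cut {G : ℕ} (hG : 0 < G) (lam : ℝ) {a b e : ℝ} (he : 0 ≤ e) (h1 : a ≤ b + e)
    (h2 : b ≤ a + e) :
    PR G lam (fun R : RS ι G => ind (¬ (a ≤ rad G R.1 ↔ b ≤ rad G R.1))) ≤ e + 1 / G := by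
  classical
  have hG' : (0 : ℝ) < G := by exact_mod_cast hG
  rw [lp_PR_fst hG lam (fun i => ind (¬ (a ≤ rad G i ↔ b ≤ rad G i))), lp_sum_ind, sum_const,
    nsmul_eq_mul]
  have h := lp_card hG (min a b) he (univ.filter fun i => ¬ (a ≤ rad G i ↔ b ≤ rad G i)) (by
    intro i hi
    have hi' := (mem_filter.1 hi).2
    by_cases c1 : a ≤ rad G i
    · have c2 : ¬ b ≤ rad G i := fun h => hi' ⟨fun _ => h, fun _ => c1⟩
      have c3 := not_le.1 c2
      rw [min_eq_left (by linarith)]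
      exact ⟨c1, by linarith⟩
    · have c2 : b ≤ rad G i := by
        by_contra h
        exact hi' ⟨fun h' => absurd h' c1, fun h' => absurd h' h⟩
      have c3 := not_le.1 c1
      rw [min_eq_right (by linarith)]
      exact ⟨c2, by linarith⟩)
  calc _ ≤ (e * G + 1) * (1 / G : ℝ) := mul_le_mul_of_nonneg_right h (by positivity)
    _ = _ := by field_simp

open Classical in
theorem carve_cut {G N : ℕ} (hG : 0 < G) (hN : 1 ≤ N) (B : Finset ι) (hB : B.card ≤ N)
    (a a' : ι → ℝ) {e : ℝ} (he : 0 ≤ e) (h1 : ∀ b, a b ≤ a' b + e) (h2 : ∀ b, a' b ≤ a b + e) :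
    PR G (Real.log (2 * N)) (fun R : RS ι G =>
        ind ((B.filter fun b => a b ≤ rad G (R.2 b)).min ≠
          (B.filter fun b => a' b ≤ rad G (R.2 b)).min)) ≤
      2 * Real.log (2 * N) * (e + 1 / G) := by
  have hG' : (0 : ℝ) < G := by exact_mod_cast hG
  have hN' : (1 : ℝ) ≤ N := by exact_mod_cast hN
  have hl : 0 ≤ Real.log (2 * N) := Real.log_nonneg (by linarith)
  have hc : 0 ≤ Real.log (2 * N) * (e + 1 / G) := by positivity
  have h3 := lp_main hG hN a a' he h1 h2 B
  have h4 := PR_ind_le_one hG (lam := Real.log (2 * N)) (fun R : RS ι G => lpTouch a a' B R)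
  have h5 : (B.card : ℝ) / N ≤ 1 := by
    rw [div_le_one (by linarith)]; exact_mod_cast hB
  have h6 := mul_le_mul_of_nonneg_left (add_le_add h4 h5) hc
  refine le_trans (le_of_eq rfl) (h3.trans (h6.trans (le_of_eq ?_)))
  ring

end Vale.Agent.P304.Lv
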