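import Vale.Agent.P304.LAvg
import Vale.Agent.P304.LPoint
import Vale.Agent.P304.LMove

/-!
P304, part LEVEL: invariants of the update and the one step inequality.
-/

set_option linter.unusedSectionVars false

namespace Vale.Agent.P304.Lv

open Finset

variable {ι X Ω : Type} [Fintype ι] [LinearOrder ι] [Nonempty ι] [Fintype Ω] {k : ℕ}
variable {d : X → X → ℝ} {G : ℕ} {σ : St ι X} {w : Ω → ℝ} {x : Ω → Fin k → X} {r : X} {v : ι}

theorem upd_inv (hd : IsD d) (hI : σ.Inv d) : (σ.upd d w x r v).Inv d := by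
  unfold St.upd
  split_ifs
  · exact claim_inv hd hI _ _
  · exact hI
  · exact claim_inv hd hI _ _
  · exact addB_inv (reset_inv hI) _ _
  · exact addB_inv hI _ _
  · exact hI

theorem upd_card (hk : 2 ≤ k) (hc : σ.base.card ≤ 13 * k) :
    (σ.upd d w x r v).base.card ≤ 13 * k := by
  unfold St.upd
  split_ifs with h1 h2 h3 h4 h5
  · exact hc
  · exact hc
  · exact hc
  · simp only [St.addB, St.reset, insert_empty_eq, card_singleton]; omega
  · have := card_insert_le v σ.base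
    simp only [St.addB]; omega
  · exact hc

theorem upd_fresh (hd : IsD d) {u : ι} (huv : u ≠ v) (h1 : 8 ≤ σ.h u) (h2 : u ∉ σ.base) :
    8 ≤ (σ.upd d w x r v).h u ∧ u ∉ (σ.upd d w x r v).base := by
  unfold St.upd
  split_ifs with g1 g2 g3 g4 g5
  · have e1 := z_arg (d := d) σ r
    have : u ≠ σ.arg d r := by
      intro h
      have := isD_nonneg hd r (σ.c (σ.arg d r))
      unfold St.z at e1
      rw [← h] at e1 this
      linarith
    refine ⟨?_, h2⟩
    simp only [St.claim, if_neg this]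
    exact h1.trans (le_max_left _ _)
  · exact ⟨h1, h2⟩
  · refine ⟨?_, h2⟩
    simp only [St.claim, if_neg huv]
    exact h1.trans (le_max_left _ _)
  · exact ⟨h1, by simp [St.addB, St.reset, huv]⟩
  · exact ⟨h1, by simp [St.addB, huv, h2]⟩
  · exact ⟨h1, h2⟩

theorem avg_le (hw : ∀ ω, 0 ≤ w ω) (hw1 : ∑ ω, w ω = 1) {f g₁ g₂ : Ω → ℝ} {a b c : ℝ}
    (h : ∀ ω, f ω ≤ a * g₁ ω + b * g₂ ω + c) :
    ∑ ω, w ω * f ω ≤ a * ∑ ω, w ω * g₁ ω + b * ∑ ω, w ω * g₂ ω + c := by
  calc ∑ ω, w ω * f ω ≤ ∑ ω, w ω * (a * g₁ ω + b * g₂ ω + c) :=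
        sum_le_sum fun ω _ => mul_le_mul_of_nonneg_left (h ω) (hw ω)
    _ = a * ∑ ω, w ω * g₁ ω + b * ∑ ω, w ω * g₂ ω + c * ∑ ω, w ω := by
        rw [mul_sum, mul_sum, mul_sum, ← sum_add_distrib, ← sum_add_distrib]
        exact sum_congr rfl fun _ _ => by ring
    _ = _ := by rw [hw1, mul_one]

theorem lam_le (hk : 2 ≤ k) : Real.log (2 * (13 * k : ℕ)) ≤ 2 * Lk k := by
  have hk' : (2 : ℝ) ≤ k := by exact_mod_cast hk
  have h1 : Real.log (2 * (13 * k : ℕ)) = Real.log 26 + Real.log k := by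
    rw [← Real.log_mul (by norm_num) (by linarith)]
    push_cast; ring_nf
  have h2 : Real.log 26 ≤ 4 := by
    rw [Real.log_le_iff_le_exp (by norm_num)]
    have h3 := Real.exp_one_gt_d9
    have h4 : Real.exp 4 = Real.exp 1 ^ 4 := by rw [← Real.exp_nat_mul]; norm_num
    rw [h4]
    have : (2.7 : ℝ) ^ 4 ≤ Real.exp 1 ^ 4 := pow_le_pow_left₀ (by norm_num) (by linarith) 4
    norm_num at this ⊢
    linarith
  have h3 : 0 ≤ Real.log k := Real.log_nonneg (by linarith)
  unfold Lk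
  linarith

theorem two_le_Lk (hk : 2 ≤ k) : 2 ≤ Lk k := by
  have hk' : (2 : ℝ) ≤ k := by exact_mod_cast hk
  have h3 : 0 ≤ Real.log k := Real.log_nonneg (by linarith)
  unfold Lk
  linarith

/-- The mover when nothing was claimed in case B. -/
theorem move_B (hk : 2 ≤ k) (hG : 0 < G) (hd : IsD d) (hI : σ.Inv d)
    (hc : σ.base.card ≤ 13 * k) (h : σ.m d r ≤ 1 ∨ ∃ b ∈ σ.base, d r (σ.bc b) ≤ 1)
    (hw : ∀ ω, 0 ≤ w ω) (hw1 : ∑ ω, w ω = 1) (mv : Ω → Fin k)
    (hB : ¬ 23 * (ballMass d w x r 11 - ballMass d w x r (1 / 10)) ≤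
      2 * ballMass d w x r (1 / 10)) :
    ∑ ω, w ω * Mc d G (Real.log (2 * (13 * k : ℕ))) σ (x ω (mv ω)) r ≤
      22 * ∑ ω, w ω * (min (d (x ω (mv ω)) r) 1) ^ 2 +
        8800 * (min (∑ ω, w ω * d (x ω (mv ω)) r) 1) ^ 2 +
        3125 * (Lk k * budget d w x r * ∑ ω, w ω * d (x ω (mv ω)) r) +
        (1 + 2 * Real.log (2 * (13 * k : ℕ))) / G := by
  have hN : 1 ≤ 13 * k := by omega
  have hN' : (1 : ℝ) ≤ (13 * k : ℕ) := by exact_mod_cast hN
  have hlam : 0 ≤ Real.log (2 * (13 * k : ℕ)) := Real.log_nonneg (by linarith)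
  have hlam2 := lam_le hk
  have hL := two_le_Lk hk
  have hA : 0 ≤ ∑ ω, w ω * (min (d (x ω (mv ω)) r) 1) ^ 2 :=
    sum_nonneg fun ω _ => mul_nonneg (hw ω) (by positivity)
  have hdb : 0 ≤ ∑ ω, w ω * d (x ω (mv ω)) r :=
    sum_nonneg fun ω _ => mul_nonneg (hw ω) (isD_nonneg hd _ _)
  have hT := budget_nonneg (x := x) (r := r) hd hw
  have hE : 0 ≤ (1 + 2 * Real.log (2 * (13 * k : ℕ))) / G := by positivity
  rcases le_or_gt (1 / 2) (ballMass d w x r (1 / 10)) with hM | hM
  · have h1 := avg_le hw hw1 fun ω => Mc_cut (G := G) hG hN hd hI hc h (x ω (mv ω))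
    have h2 := shellI_ge (d := d) (x := x) (r := r) hw (a := 1 / 10) (by norm_num)
    have h3 := shellI_le_budget hd hw hM
    have h4 := ballMass_mono (d := d) (x := x) (r := r) hw (u := 1 / 10) (u' := 11) (by norm_num)
    have h5 : 1 ≤ 125 * budget d w x r := by
      by_contra h6
      push Not at h6 hB
      nlinarith
    have h6 : 0 ≤ (min (∑ ω, w ω * d (x ω (mv ω)) r) 1) ^ 2 := by positivity
    set db := ∑ ω, w ω * d (x ω (mv ω)) r
    have h7 : (42 + 2 * Real.log (2 * (13 * k : ℕ))) * db ≤ 25 * Lk k * db :=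
      mul_le_mul_of_nonneg_right (by linarith) hdb
    have h8 : 25 * Lk k * db * 1 ≤ 25 * Lk k * db * (125 * budget d w x r) :=
      mul_le_mul_of_nonneg_left h5 (by positivity)
    nlinarith
  · have h1 := half_le_of_ballMass_lt hd hw hw1 mv (by norm_num) hM
    have h2 : 1 / 20 ≤ min (∑ ω, w ω * d (x ω (mv ω)) r) 1 := le_min (by linarith) (by norm_num)
    have h3 := pow_le_pow_left₀ (by norm_num) h2 2
    have h4 := avg_le hw hw1 (f := fun ω => Mc d G (Real.log (2 * (13 * k : ℕ))) σ (x ω (mv ω)) r)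
      (g₁ := fun _ => 0) (g₂ := fun _ => 0) (a := 0) (b := 0) (c := 22)
      fun ω => by simpa using Mc_le hG hd hI h (x ω (mv ω))
    have h5 : 0 ≤ Lk k * budget d w x r * ∑ ω, w ω * d (x ω (mv ω)) r := by positivity
    simp only [zero_mul, zero_add] at h4
    nlinarith

theorem step_ineq (hk : 2 ≤ k) (hG : 0 < G) (hd : IsD d) (hI : σ.Inv d)
    (hc : σ.base.card ≤ 13 * k) (hv : 8 ≤ σ.h v) (hv2 : ∀ b ∈ σ.base, b < v)
    (hw : ∀ ω, 0 ≤ w ω) (hw1 : ∑ ω, w ω = 1) (mv : Ω → Fin k) :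
    ∑ ω, w ω * (∑ l, Ec d G (Real.log (2 * (13 * k : ℕ))) σ (σ.upd d w x r v) (x ω l) +
        Mc d G (Real.log (2 * (13 * k : ℕ))) (σ.upd d w x r v) (x ω (mv ω)) r) +
      (((σ.upd d w x r v).base.card : ℝ) - σ.base.card) / 5 ≤
    9000 * (∑ ω, w ω * (min (d (x ω (mv ω)) r) 1) ^ 2 +
        (min (∑ ω, w ω * d (x ω (mv ω)) r) 1) ^ 2 +
        Lk k * budget d w x r * ∑ ω, w ω * d (x ω (mv ω)) r) +
      (2 * k + 1 + 2 * Real.log (2 * (13 * k : ℕ))) / G := by
  have hN : 1 ≤ 13 * k := by omega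
  have hN' : (1 : ℝ) ≤ (13 * k : ℕ) := by exact_mod_cast hN
  have hk' : (2 : ℝ) ≤ k := by exact_mod_cast hk
  have hlam : 0 ≤ Real.log (2 * (13 * k : ℕ)) := Real.log_nonneg (by linarith)
  have hL := two_le_Lk hk
  have hA : 0 ≤ ∑ ω, w ω * (min (d (x ω (mv ω)) r) 1) ^ 2 :=
    sum_nonneg fun ω _ => mul_nonneg (hw ω) (by positivity)
  have hdb : 0 ≤ ∑ ω, w ω * d (x ω (mv ω)) r :=
    sum_nonneg fun ω _ => mul_nonneg (hw ω) (isD_nonneg hd _ _)
  have hT := budget_nonneg (x := x) (r := r) hd hw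
  have hB0 : 0 ≤ (min (∑ ω, w ω * d (x ω (mv ω)) r) 1) ^ 2 := by positivity
  have hT0 : 0 ≤ Lk k * budget d w x r * ∑ ω, w ω * d (x ω (mv ω)) r := by positivity
  have hE1 : 0 ≤ (1 + 2 * Real.log (2 * (13 * k : ℕ))) / G := by positivity
  have hE2 : (0 : ℝ) ≤ 2 / G * k := by positivity
  have hE : (2 * k + 1 + 2 * Real.log (2 * (13 * k : ℕ))) / G =
      2 / G * k + (1 + 2 * Real.log (2 * (13 * k : ℕ))) / G := by ring
  rw [hE]
  simp only [mul_add (w _), sum_add_distrib]
  have hD0 := m_nonneg hd hI r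
  have hclaim : ∀ u, ∑ ω, w ω * Mc d G (Real.log (2 * (13 * k : ℕ))) (σ.claim d u r) (x ω (mv ω)) r ≤
      ∑ ω, w ω * (min (d (x ω (mv ω)) r) 1) ^ 2 := fun u =>
    sum_le_sum fun ω _ => mul_le_mul_of_nonneg_left (Mc_claim hG hd hI u r _) (hw ω)
  have hself : ∑ ω, w ω * ∑ l, Ec d G (Real.log (2 * (13 * k : ℕ))) σ σ (x ω l) = 0 := by
    simp [Ec_self]
  unfold St.upd
  split_ifs with g1 g2 g3 g4 g5
  · -- case A, claimed
    have h1 := avg_split (d := d) (x := x) (r := r) hw (a := σ.m d r / 3)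
      (α := 20 * σ.m d r ^ 2 / 3) (β := 104 * σ.m d r) (γ := 2 / G) (by linarith)
      (fun y => Ec d G (Real.log (2 * (13 * k : ℕ))) σ (σ.claim d (σ.arg d r) r) y)
      (fun y hy => Ec_claimA_near hd hI g1 hy) (fun y hy _ => Ec_claimA_mid hG hd hI g1 hy)
      (fun y hy => Ec_claim_far hd hI (Or.inl (by rw [z_arg]; exact g1)) hy)
    have h2 := hclaim (σ.arg d r)
    have h3 := ballMass_nonneg (d := d) (x := x) (r := r) hw (σ.m d r / 3)
    have h4 := ballMass_le (d := d) (x := x) (r := r) hw hw1 11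
    have h5 : (2 : ℝ) / G * (ballMass d w x r 11 - ballMass d w x r (σ.m d r / 3)) ≤ 2 / G * k :=
      mul_le_mul_of_nonneg_left (by linarith) (by positivity)
    have h6 : σ.m d r * (12 * shellI d w x r (σ.m d r / 3)) ≤
        σ.m d r * (σ.m d r / 3 * ballMass d w x r (σ.m d r / 3)) :=
      mul_le_mul_of_nonneg_left g2 hD0
    have h7 : 0 ≤ σ.m d r ^ 2 * ballMass d w x r (σ.m d r / 3) := by positivity
    have h8 : (σ.claim d (σ.arg d r) r).base = σ.base := rfl
    rw [h8]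
    nlinarith
  · -- case A, not claimed
    rw [hself]
    push Not at g2
    rcases le_or_gt (1 / 2) (ballMass d w x r (σ.m d r / 3)) with hM | hM
    · have h1 := avg_le hw hw1
        (f := fun ω => Mc d G (Real.log (2 * (13 * k : ℕ))) σ (x ω (mv ω)) r)
        (g₁ := fun ω => (min (d (x ω (mv ω)) r) 1) ^ 2) (g₂ := fun ω => d (x ω (mv ω)) r)
        (a := 1) (b := 40 * σ.m d r) (c := 0)
        fun ω => by linarith [(Mc_small (lam := Real.log (2 * (13 * k : ℕ))) hG hd hI g1 (x ω (mv ω))).1]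
      have h2 := shellI_ge (d := d) (x := x) (r := r) hw (a := σ.m d r / 3) (by linarith)
      have h3 := shellI_le_budget hd hw hM
      have h4 := ballMass_mono (d := d) (x := x) (r := r) hw (u := σ.m d r / 3) (u' := 11)
        (by linarith)
      have h5 : σ.m d r ≤ 39 * budget d w x r := by
        by_contra h6
        push Not at h6
        nlinarith
      set db := ∑ ω, w ω * d (x ω (mv ω)) r
      have h7 : σ.m d r * db ≤ 39 * budget d w x r * db := mul_le_mul_of_nonneg_right h5 hdb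
      have h8 : 2 * (budget d w x r * db) ≤ Lk k * (budget d w x r * db) :=
        mul_le_mul_of_nonneg_right hL (by positivity)
      nlinarith
    · have h1 := avg_le hw hw1
        (f := fun ω => Mc d G (Real.log (2 * (13 * k : ℕ))) σ (x ω (mv ω)) r)
        (g₁ := fun ω => (min (d (x ω (mv ω)) r) 1) ^ 2) (g₂ := fun ω => 0)
        (a := 1) (b := 0) (c := 20 * σ.m d r ^ 2)
        fun ω => by linarith [(Mc_small (lam := Real.log (2 * (13 * k : ℕ))) hG hd hI g1 (x ω (mv ω))).2]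
      have h2 := half_le_of_ballMass_lt hd hw hw1 mv (by linarith) hM
      have h3 : σ.m d r / 6 ≤ min (∑ ω, w ω * d (x ω (mv ω)) r) 1 :=
        le_min (by linarith) (by linarith)
      have h4 := pow_le_pow_left₀ (by positivity) h3 2
      nlinarith
  · -- case B, claimed
    push Not at g1
    have h1 := avg_split (d := d) (x := x) (r := r) hw (a := 1 / 10)
      (α := 2) (β := 0) (γ := 23) (by norm_num)
      (fun y => Ec d G (Real.log (2 * (13 * k : ℕ))) σ (σ.claim d v r) y)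
      (fun y hy => Ec_claimB_near hG hd hI v g1 hy)
      (fun y _ _ => by simpa using Ec_le hG hd (claim_inv hd hI v r) y)
      (fun y hy => Ec_claim_far hd hI (Or.inr hv) hy)
    have h2 := hclaim v
    have h8 : (σ.claim d v r).base = σ.base := rfl
    rw [h8]
    linarith
  · -- case C with reset
    have h1 := move_B (x := x) (r := r) (σ := σ.reset.addB v r) hk hG hd
      (addB_inv (reset_inv hI) _ _)
      (by simp only [St.addB, St.reset, insert_empty_eq, card_singleton]; omega)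
      (Or.inr ⟨v, mem_insert_self _ _, by simp [St.addB, hd.refl]⟩) hw hw1 mv g3
    have h2 := avg_le hw hw1
      (f := fun ω => ∑ l, Ec d G (Real.log (2 * (13 * k : ℕ))) σ (σ.reset.addB v r) (x ω l))
      (g₁ := fun _ => 0) (g₂ := fun _ => 0) (a := 0) (b := 0) (c := 5 / 2 * k) fun ω => by
        have := sum_le_sum fun l (_ : l ∈ univ) =>
          Ec_reset (d := d) (lam := Real.log (2 * (13 * k : ℕ))) (σ := σ) hG v r (x ω l)
        simp only [sum_const, card_univ, Fintype.card_fin, nsmul_eq_mul] at this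
        linarith
    have h3 : ((σ.reset.addB v r).base.card : ℝ) = 1 := by
      simp [St.addB, St.reset]
    have h4 : (13 * k : ℝ) ≤ σ.base.card := by exact_mod_cast g5
    rw [h3]
    linarith
  · -- case C without reset
    have h1 := move_B (x := x) (r := r) (σ := σ.addB v r) hk hG hd (addB_inv hI _ _)
      (by have := card_insert_le v σ.base
          simp only [St.addB]; omega)
      (Or.inr ⟨v, mem_insert_self _ _, by simp [St.addB, hd.refl]⟩) hw hw1 mv g3
    have h2 := avg_split (d := d) (x := x) (r := r) hw (a := 1 / 10)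
      (α := 2 / 5) (β := 0) (γ := 0) (by norm_num)
      (fun y => Ec d G (Real.log (2 * (13 * k : ℕ))) σ (σ.addB v r) y)
      (fun y hy => Ec_addB_near hd hI hv2 g4.1 g4.2 hy)
      (fun y _ _ => by simpa using Ec_addB hd hI hv2 r y)
      (fun y _ => Ec_addB hd hI hv2 r y)
    have h3 : ((σ.addB v r).base.card : ℝ) ≤ σ.base.card + 1 := by
      exact_mod_cast card_insert_le v σ.base
    rcases le_or_gt (1 / 2) (ballMass d w x r (1 / 10)) with hM | hM
    · linarith
    · have h4 := half_le_of_ballMass_lt hd hw hw1 mv (by norm_num) hM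
      have h5 : 1 / 20 ≤ min (∑ ω, w ω * d (x ω (mv ω)) r) 1 :=
        le_min (by linarith) (by norm_num)
      have h6 := pow_le_pow_left₀ (by norm_num) h5 2
      have h7 := ballMass_nonneg (d := d) (x := x) (r := r) hw (1 / 10)
      linarith
  · -- nothing changes
    rw [hself]
    have h0 : σ.m d r ≤ 1 ∨ ∃ b ∈ σ.base, d r (σ.bc b) ≤ 1 := by
      by_contra hcon
      push Not at hcon
      exact g4 hcon
    have h1 := move_B (x := x) (r := r) hk hG hd hI hc h0 hw hw1 mv g3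
    linarith

end Vale.Agent.P304.Lv
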