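import Vale.Agent.P304.LStep
import Vale.Agent.P304.FSBasic

/-!
P304, part LEVEL: the state process, telescoping and the choice of the radii.
-/

set_option linter.unusedSectionVars false

namespace Vale.Agent.P304.Lv

open Finset

section Aux

variable {ι X : Type} [Fintype ι] [LinearOrder ι] [Nonempty ι]
variable {d : X → X → ℝ} {G : ℕ} {lam : ℝ}

theorem chg_tri (σ σ' : St ι X) (y r : X) :
    chg d G lam σ σ' y r ≤ chg d G lam σ σ' y y + chg d G lam σ' σ' y r := by
  unfold chg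
  rw [← PR_add]
  refine PR_mono fun R => ind_le_add fun h => ?_
  by_contra hcon
  push Not at hcon
  exact h (hcon.1.trans hcon.2)

theorem path_le {k : ℕ} (σ σ' : St ι X) (x : Fin k → X) (i : Fin k) (r : X) :
    ∑ l, chg d G lam σ σ' (x l) (Function.update x i r l) +
      ∑ l, σ'.psi d G lam (Function.update x i r l) - ∑ l, σ.psi d G lam (x l) ≤
    ∑ l, Ec d G lam σ σ' (x l) + Mc d G lam σ' (x i) r := by
  have h1 : Mc d G lam σ' (x i) r = ∑ l, if l = i then Mc d G lam σ' (x i) r else 0 := by simp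
  rw [h1, ← sum_add_distrib, ← sum_add_distrib, ← sum_sub_distrib]
  refine sum_le_sum fun l _ => ?_
  by_cases h : l = i
  · subst h
    rw [Function.update_self, if_pos rfl]
    have := chg_tri (d := d) (G := G) (lam := lam) σ σ' (x l) r
    unfold Ec Mc
    linarith
  · rw [Function.update_of_ne h, if_neg h]
    unfold Ec
    linarith

theorem PR_sum {κ : Type} (s : Finset κ) (f : κ → RS ι G → ℝ) :
    PR G lam (fun R => ∑ i ∈ s, f i R) = ∑ i ∈ s, PR G lam (f i) := by
  unfold PR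
  simp only [mul_sum]
  exact sum_comm

theorem PR_mul (c : ℝ) (f : RS ι G → ℝ) : PR G lam (fun R => c * f R) = c * PR G lam f := by
  unfold PR
  rw [mul_sum]
  exact sum_congr rfl fun _ _ => by ring

end Aux

variable {Ω X : Type} [Fintype Ω] {F : FS Ω} {k : ℕ}

/-- The state process. -/
noncomputable def stp (S : Svc F X k) (d : X → X → ℝ) (T : ℕ) (a : X) :
    ℕ → Ω → St (Fin (T + 1)) X
  | 0, _ => St.init 0 a
  | t + 1, ω => if h : t < T then
      (stp S d T a t ω).upd d (F.cw (t + 1) ω) (S.x t) (S.r (t + 1) ω) ⟨t + 1, by omega⟩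
      else stp S d T a t ω

variable {S : Svc F X k} {d : X → X → ℝ} {T : ℕ} {a : X}

theorem stp_succ {t : ℕ} (h : t < T) (ω : Ω) : stp S d T a (t + 1) ω =
    (stp S d T a t ω).upd d (F.cw (t + 1) ω) (S.x t) (S.r (t + 1) ω) ⟨t + 1, by omega⟩ := by
  rw [stp, dif_pos h]

theorem stp_adapted : F.Adapted (stp S d T a) := by
  intro t
  induction t with
  | zero => intro ω ω' _; rfl
  | succ t ih =>
    intro ω ω' h
    rw [stp, stp, ih ω ω' (F.anti t _ _ h), F.cw_congr h, S.r_ad _ _ _ h]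

theorem stp_inv (hk : 2 ≤ k) (hd : IsD d) (t : ℕ) (ω : Ω) :
    (stp S d T a t ω).Inv d ∧ (stp S d T a t ω).base.card ≤ 13 * k ∧
      ∀ u : Fin (T + 1), t < u.val → 8 ≤ (stp S d T a t ω).h u ∧ u ∉ (stp S d T a t ω).base := by
  induction t with
  | zero =>
    refine ⟨init_inv hd _ _, by simp [stp, St.init], fun u hu => ⟨?_, by simp [stp, St.init]⟩⟩
    have : u ≠ 0 := by
      intro h; rw [h] at hu; simp at hu
    simp [stp, St.init, this]
  | succ t ih =>
    obtain ⟨h1, h2, h3⟩ := ih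
    by_cases h : t < T
    · rw [stp_succ h]
      refine ⟨upd_inv hd h1, upd_card hk h2, fun u hu => ?_⟩
      have := h3 u (by omega)
      refine upd_fresh hd ?_ this.1 this.2
      intro he
      rw [he] at hu
      simp at hu
    · rw [stp, dif_neg h]
      exact ⟨h1, h2, fun u hu => h3 u (by omega)⟩

theorem level_avg (hk : 2 ≤ k) (hd : IsD d) (l₀ : Fin k) {G : ℕ} (hG : 0 < G) :
    F.E (fun ω => ∑ t ∈ range T, ∑ l, chg d G (Real.log (2 * (13 * k : ℕ)))
        (stp S d T (S.s l₀) t ω) (stp S d T (S.s l₀) (t + 1) ω) (S.x t ω l) (S.x (t + 1) ω l)) ≤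
      9000 * F.E (fun ω => ∑ t ∈ range T, S.gain d t ω) +
        23 * ∑ l : Fin k, (min (d (S.s l) (S.s l₀)) 1) ^ 2 +
        T * ((2 * k + 1 + 2 * Real.log (2 * (13 * k : ℕ))) / G) := by
  set lam := Real.log (2 * (13 * k : ℕ)) with hlam
  set err := (2 * k + 1 + 2 * lam) / G with herr
  set σ := stp S d T (S.s l₀) with hσ
  have key := F.telescope T
    (fun t ω => ∑ l, chg d G lam (σ t ω) (σ (t + 1) ω) (S.x t ω l) (S.x (t + 1) ω l))
    (fun t ω => 9000 * S.gain d t ω + err)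
    (fun t ω => ∑ l, (σ t ω).psi d G lam (S.x t ω l) + ((σ t ω).base.card : ℝ) / 5) ?_ ?_
  · have h1 : F.E (fun ω => ∑ t ∈ range T, (9000 * S.gain d t ω + err)) =
        9000 * F.E (fun ω => ∑ t ∈ range T, S.gain d t ω) + T * err := by
      rw [← F.E_mul, ← F.E_const (T * err), ← F.E_add]
      congr 1
      funext ω
      rw [sum_add_distrib, mul_sum]
      simp
    have h2 : F.E (fun ω => ∑ l, (σ 0 ω).psi d G lam (S.x 0 ω l) + ((σ 0 ω).base.card : ℝ) / 5) ≤
        23 * ∑ l : Fin k, (min (d (S.s l) (S.s l₀)) 1) ^ 2 := by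
      rw [← F.E_const (23 * ∑ l : Fin k, (min (d (S.s l) (S.s l₀)) 1) ^ 2)]
      refine F.E_mono fun ω => ?_
      have e : σ 0 ω = St.init 0 (S.s l₀) := rfl
      rw [e, S.x_zero, mul_sum]
      have : ((St.init (0 : Fin (T + 1)) (S.s l₀)).base.card : ℝ) = 0 := by simp [St.init]
      rw [this, zero_div, add_zero]
      exact sum_le_sum fun l _ => psi_init hG hd _ _ _
    linarith
  · intro t ht ω
    obtain ⟨i1, i2, i3⟩ := stp_inv (S := S) (T := T) (a := S.s l₀) hk hd t ω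
    have hv := i3 ⟨t + 1, by omega⟩ (by simp)
    have hv2 : ∀ b ∈ (σ t ω).base, b < ⟨t + 1, by omega⟩ := by
      intro b hb
      by_contra hcon
      have : t < b.val := by
        have := Fin.le_def.1 (not_lt.1 hcon)
        simp only at this
        omega
      exact (i3 b this).2 hb
    have hs := step_ineq (x := S.x t) (r := S.r (t + 1) ω) (w := F.cw (t + 1) ω) hk hG hd i1 i2
      hv.1 hv2 (F.cw_nonneg _ _) (F.sum_cw _ _) (S.mv (t + 1))
    rw [← stp_succ ht] at hs
    have hdb : ∑ ω', F.cw (t + 1) ω ω' * S.step d t ω' =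
        ∑ ω', F.cw (t + 1) ω ω' * d (S.x t ω' (S.mv (t + 1) ω')) (S.r (t + 1) ω) :=
      F.ce_congr fun ω' h => by unfold Svc.step; rw [S.r_ad _ _ _ h]
    set db := ∑ ω', F.cw (t + 1) ω ω' * d (S.x t ω' (S.mv (t + 1) ω')) (S.r (t + 1) ω) with hdbdef
    set c0 := (((σ (t + 1) ω).base.card : ℝ) - (σ t ω).base.card) / 5 -
      9000 * ((min db 1) ^ 2 + Lk k * budget d (F.cw (t + 1) ω) (S.x t) (S.r (t + 1) ω) * db) - err
      with hc0
    have h3 := F.ce_mono (t := t + 1) (ω := ω)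
      (f := fun ω' => ∑ l, chg d G lam (σ t ω') (σ (t + 1) ω') (S.x t ω' l) (S.x (t + 1) ω' l) +
        (∑ l, (σ (t + 1) ω').psi d G lam (S.x (t + 1) ω' l) + ((σ (t + 1) ω').base.card : ℝ) / 5) -
        (∑ l, (σ t ω').psi d G lam (S.x t ω' l) + ((σ t ω').base.card : ℝ) / 5) -
        (9000 * S.gain d t ω' + err))
      (g := fun ω' => (∑ l, Ec d G lam (σ t ω) (σ (t + 1) ω) (S.x t ω' l) +
        Mc d G lam (σ (t + 1) ω) (S.x t ω' (S.mv (t + 1) ω')) (S.r (t + 1) ω)) +
        (-9000) * (min (d (S.x t ω' (S.mv (t + 1) ω')) (S.r (t + 1) ω)) 1) ^ 2 + c0) ?_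
    · refine h3.trans ?_
      simp only [mul_add (F.cw (t + 1) ω _), sum_add_distrib] at hs ⊢
      rw [F.ce_const]
      have : ∑ ω', F.cw (t + 1) ω ω' *
          (-9000 * (min (d (S.x t ω' (S.mv (t + 1) ω')) (S.r (t + 1) ω)) 1) ^ 2) =
          -9000 * ∑ ω', F.cw (t + 1) ω ω' *
            (min (d (S.x t ω' (S.mv (t + 1) ω')) (S.r (t + 1) ω)) 1) ^ 2 := by
        rw [mul_sum]; exact sum_congr rfl fun _ _ => by ring
      rw [this]
      linarith
    · intro ω' h
      have e1 : σ (t + 1) ω' = σ (t + 1) ω := (stp_adapted _ _ _ h).symm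
      have e2 : σ t ω' = σ t ω := (stp_adapted _ _ _ (F.anti t _ _ h)).symm
      have e3 : S.r (t + 1) ω' = S.r (t + 1) ω := (S.r_ad _ _ _ h).symm
      have e4 : F.cw (t + 1) ω' = F.cw (t + 1) ω := (F.cw_congr h).symm
      have e5 := path_le (d := d) (G := G) (lam := lam) (σ t ω) (σ (t + 1) ω) (S.x t ω')
        (S.mv (t + 1) ω') (S.r (t + 1) ω)
      have e6 : S.gain d t ω' = (min (d (S.x t ω' (S.mv (t + 1) ω')) (S.r (t + 1) ω)) 1) ^ 2 +
          (min db 1) ^ 2 + Lk k * budget d (F.cw (t + 1) ω) (S.x t) (S.r (t + 1) ω) * db := by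
        unfold Svc.gain
        rw [e4, hdb, e3]
        unfold Svc.step
        rw [e3]
      rw [e1, e2, S.x_succ, e3, e6]
      linarith
  · intro ω
    refine sum_nonneg fun ω' _ => mul_nonneg (F.cw_nonneg _ _ _) ?_
    exact add_nonneg (sum_nonneg fun l _ => psi_nonneg _ _) (by positivity)

end Vale.Agent.P304.Lv

namespace Vale.Agent.P304

open Finset Lv

theorem level : LevelStmt := by
  refine ⟨9000, by norm_num, ?_⟩
  intro k hk Ω _ F X _ d hd S T l₀ ε hε
  obtain ⟨G, hG⟩ := exists_nat_gt (T * (2 * k + 1 + 2 * Real.log (2 * (13 * k : ℕ))) / ε)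
  have hN : 1 ≤ 13 * k := by omega
  have hN' : (1 : ℝ) ≤ (13 * k : ℕ) := by exact_mod_cast hN
  have hlam : 0 ≤ Real.log (2 * (13 * k : ℕ)) := Real.log_nonneg (by linarith)
  have hG0 : (0 : ℝ) < G := lt_of_le_of_lt (by positivity) hG
  have hG1 : 0 < G := by exact_mod_cast hG0
  have herr : T * ((2 * k + 1 + 2 * Real.log (2 * (13 * k : ℕ))) / G) ≤ ε := by
    rw [div_lt_iff₀ hε] at hG
    rw [← mul_div_assoc, div_le_iff₀ hG0]
    linarith
  have key := level_avg (S := S) (T := T) hk hd l₀ hG1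
  set lam := Real.log (2 * (13 * k : ℕ)) with hlamdef
  set σ := stp S d T (S.s l₀) with hσ
  obtain ⟨R, hR⟩ := exists_le_PR (ι := Fin (T + 1)) hG1 lam fun R =>
    F.E fun ω => ∑ t ∈ range T, ∑ l,
      ind ((σ t ω).lab d G R (S.x t ω l) ≠ (σ (t + 1) ω).lab d G R (S.x (t + 1) ω l))
  have hswap : PR G lam (fun R : RS (Fin (T + 1)) G => F.E fun ω => ∑ t ∈ range T, ∑ l,
      ind ((σ t ω).lab d G R (S.x t ω l) ≠ (σ (t + 1) ω).lab d G R (S.x (t + 1) ω l))) =
      F.E (fun ω => ∑ t ∈ range T, ∑ l, chg d G lam (σ t ω) (σ (t + 1) ω) (S.x t ω l)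
        (S.x (t + 1) ω l)) := by
    unfold FS.E
    rw [PR_sum]
    refine sum_congr rfl fun ω _ => ?_
    rw [PR_mul, PR_sum]
    congr 1
    refine sum_congr rfl fun t _ => ?_
    rw [PR_sum]
    rfl
  refine ⟨fun t ω y => (σ t ω).lab d G R y, ?_, fun _ _ => rfl, ?_, ?_, ?_⟩
  · intro t ω ω' h
    have : σ t ω = σ t ω' := stp_adapted _ _ _ h
    simp only [this]
  · intro t ω a b h
    exact lab_diam hd (stp_inv hk hd t ω).1 h
  · intro ω l h
    have hI := (stp_inv (S := S) (T := T) (a := S.s l₀) hk hd 0 ω).1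
    have e : ∀ y, (σ 0 ω).z d y 0 = d y (S.s l₀) := fun y => by
      simp [hσ, stp, St.init, St.z]
    show (σ 0 ω).lab d G R (S.s l) = (σ 0 ω).lab d G R (S.s l₀)
    rw [lab_tier_two hd hI R (u := 0) (by rw [e]; exact h),
      lab_tier_two hd hI R (u := 0) (by rw [e, hd.refl]; norm_num)]
  · have h1 : 0 ≤ ∑ l : Fin k, (min (d (S.s l) (S.s l₀)) 1) ^ 2 :=
      sum_nonneg fun _ _ => by positivity
    refine le_trans (le_of_eq ?_) (hR.trans (by rw [hswap]; linarith))
    congr 1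
    funext ω
    refine sum_congr rfl fun t _ => sum_congr rfl fun l _ => ?_
    split_ifs with h
    · exact (ind_neg fun h' => h' h).symm
    · exact (ind_pos h).symm

end Vale.Agent.P304
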