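import Vale.Agent.P304.TDefs

/-! P304 TREE: sums over the tree, tree distance, counts.
Plan. `sum_allN_succ`: `allN (J+1) = insert [] (image of allN J ×ˢ univ under (v, a) ↦ a :: v)`.
`td_ge`: take the longest common suffix `v` (induct, or maximise the length); one of `a, b`, say `a`, has a suffix `c :: v` that is not a
suffix of the other, keep only that term. `dirty_le`: with `g c = I1 (dirty c) * ν c` one has
`g (a :: v) ≤ I1 (dirty v) * ν (a :: v) + I1 (Z (a :: v)) * ν (a :: v)`, so `TS g ≤ TS g / 2 + TS (I1 Z * ν)` (cases on `J`, use the exact `TS_succ` and `TS_le_succ`). -/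

namespace Vale.Agent.P304

open Finset

variable {Lab : Type} [Fintype Lab] [DecidableEq Lab] {k : ℕ} {X : Type} [MetricSpace X]
  {Ω : Type} [Fintype Ω] {W : ℝ} {J : ℕ}

theorem I1_of {P : Prop} (h : P) : I1 P = 1 := by
  unfold I1
  simp [h]

theorem I1_of_not {P : Prop} (h : ¬P) : I1 P = 0 := by
  unfold I1
  simp [h]

theorem I1_nonneg (P : Prop) : 0 ≤ I1 P := by
  by_cases h : P
  · rw [I1_of h]; norm_num
  · rw [I1_of_not h]

theorem I1_le_one (P : Prop) : I1 P ≤ 1 := by
  by_cases h : P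
  · rw [I1_of h]
  · rw [I1_of_not h]; norm_num

theorem I1_eq (P : Prop) [Decidable P] : I1 P = if P then 1 else 0 := by
  by_cases h : P
  · rw [I1_of h, if_pos h]
  · rw [I1_of_not h, if_neg h]

theorem ttree_mem_nodes {n : ℕ} {v : List Lab} : v ∈ nodes Lab n ↔ v.length = n := by
  induction n generalizing v with
  | zero => simp [nodes]
  | succ n ih =>
    simp only [nodes, mem_biUnion, mem_image, mem_univ, true_and]
    constructor
    · rintro ⟨u, hu, a, rfl⟩
      simp [ih.1 hu]
    · intro h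
      cases v with
      | nil => simp at h
      | cons a u => exact ⟨u, ih.2 (by simpa using h), a, rfl⟩

theorem mem_allN {v : List Lab} : v ∈ allN Lab J ↔ v.length ≤ J := by
  unfold allN
  simp only [mem_biUnion, mem_range, ttree_mem_nodes]
  constructor
  · rintro ⟨n, hn, h⟩
    omega
  · intro h
    exact ⟨v.length, by omega, rfl⟩

theorem sum_allN_succ {M : Type*} [AddCommMonoid M] (J : ℕ) (f : List Lab → M) :
    ∑ v ∈ allN Lab (J + 1), f v = f [] + ∑ v ∈ allN Lab J, ∑ a, f (a :: v) := by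
  have e : allN Lab (J + 1) =
      insert [] ((allN Lab J ×ˢ (univ : Finset Lab)).image fun x => x.2 :: x.1) := by
    ext v
    cases v with
    | nil => simp [mem_allN]
    | cons a u =>
      simp only [mem_allN, List.length_cons, mem_insert, reduceCtorEq, mem_image, mem_product,
        mem_univ, and_true, false_or, Prod.exists, List.cons.injEq]
      constructor
      · intro h
        exact ⟨u, a, by omega, rfl, rfl⟩
      · rintro ⟨u', a', h, -, rfl⟩
        omega
  rw [e, sum_insert (by simp), sum_image, sum_product]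
  rintro ⟨u, a⟩ - ⟨u', a'⟩ - h
  simp only [List.cons.injEq] at h
  obtain ⟨rfl, rfl⟩ := h
  rfl

theorem sum_allN_child {M : Type*} [AddCommMonoid M] {f : List Lab → M} (h : ∀ v, J < v.length → f v = 0) :
    ∑ v ∈ allN Lab J, f v = f [] + ∑ v ∈ allN Lab J, ∑ a, f (a :: v) := by
  rw [← sum_allN_succ]
  apply sum_subset
  · intro v hv
    rw [mem_allN] at hv ⊢
    omega
  · intro v _ hv
    rw [mem_allN] at hv
    exact h v (by omega)

theorem ttree_wt_pos (hW : 0 < W) (n : ℕ) : 0 < wt W n := by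
  unfold wt
  positivity

theorem ttree_wt_succ (W : ℝ) (n : ℕ) : wt W (n + 1) = 1 / 2 * wt W n := by
  unfold wt
  rw [pow_succ]
  field_simp

theorem TS_mono (hW : 0 < W) {f g : List Lab → ℝ} (h : ∀ v, v.length ≤ J → f v ≤ g v) :
    TS W J f ≤ TS W J g := by
  unfold TS
  apply sum_le_sum
  intro v hv
  exact mul_le_mul_of_nonneg_left (h v (mem_allN.1 hv)) (ttree_wt_pos hW _).le

theorem TS_nonneg (hW : 0 < W) {f : List Lab → ℝ} (h : ∀ v, 0 ≤ f v) : 0 ≤ TS W J f := by
  unfold TS
  exact sum_nonneg fun v _ => mul_nonneg (ttree_wt_pos hW _).le (h v)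

theorem TS_add (f g : List Lab → ℝ) : TS W J (fun v => f v + g v) = TS W J f + TS W J g := by
  unfold TS
  rw [← sum_add_distrib]
  exact sum_congr rfl fun v _ => by ring

theorem TS_sub (f g : List Lab → ℝ) : TS W J (fun v => f v - g v) = TS W J f - TS W J g := by
  unfold TS
  rw [← sum_sub_distrib]
  exact sum_congr rfl fun v _ => by ring

theorem TS_mul (c : ℝ) (f : List Lab → ℝ) : TS W J (fun v => c * f v) = c * TS W J f := by
  unfold TS
  rw [mul_sum]
  exact sum_congr rfl fun v _ => by ring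

theorem TS_sum {ι : Type*} (s : Finset ι) (f : ι → List Lab → ℝ) :
    TS W J (fun v => ∑ i ∈ s, f i v) = ∑ i ∈ s, TS W J (f i) := by
  unfold TS
  rw [sum_comm]
  exact sum_congr rfl fun v _ => by rw [mul_sum]

theorem TS_succ (W : ℝ) (J : ℕ) (f : List Lab → ℝ) :
    TS W (J + 1) f = W * f [] + 1 / 2 * TS W J fun v => ∑ a, f (a :: v) := by
  unfold TS
  rw [sum_allN_succ, mul_sum]
  congr 1
  · simp [wt]
  · refine sum_congr rfl fun v _ => ?_
    rw [mul_sum, mul_sum]
    refine sum_congr rfl fun a _ => ?_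
    rw [List.length_cons, ttree_wt_succ]
    ring

theorem TS_le_succ (hW : 0 < W) {f : List Lab → ℝ} (h : ∀ v, 0 ≤ f v) : TS W J f ≤ TS W (J + 1) f := by
  unfold TS
  apply sum_le_sum_of_subset_of_nonneg
  · intro v hv
    rw [mem_allN] at hv ⊢
    omega
  · intro v _ _
    exact mul_nonneg (ttree_wt_pos hW _).le (h v)

theorem TS_le_child (hW : 0 < W) {f : List Lab → ℝ} (h : ∀ v, 0 ≤ f v) :
    TS W J f ≤ W * f [] + 1 / 2 * TS W J fun v => ∑ a, f (a :: v) := by
  rw [← TS_succ]
  exact TS_le_succ hW h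

theorem TS_child (W : ℝ) {f : List Lab → ℝ} (h : ∀ v, J < v.length → f v = 0) :
    TS W J f = W * f [] + 1 / 2 * TS W J fun v => ∑ a, f (a :: v) := by
  rw [← TS_succ]
  unfold TS
  apply sum_subset
  · intro v hv
    rw [mem_allN] at hv ⊢
    omega
  · intro v _ hv
    rw [mem_allN] at hv
    rw [h v (by omega), mul_zero]

theorem dirty_le (hW : 0 < W) {ν : List Lab → ℝ} (h0 : ∀ v, 0 ≤ ν v) (h1 : ∀ v, ∑ a, ν (a :: v) ≤ ν v)
    (Z : List Lab → Prop) :
    TS W J (fun c => I1 (∃ z, z <:+ c ∧ Z z) * ν c) ≤ 2 * TS W J fun z => I1 (Z z) * ν z := by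
  set g : List Lab → ℝ := fun c => I1 (∃ z, z <:+ c ∧ Z z) * ν c with hg
  set e : List Lab → ℝ := fun z => I1 (Z z) * ν z with he
  have g0 : ∀ v, 0 ≤ g v := fun v => mul_nonneg (I1_nonneg _) (h0 v)
  have e0 : ∀ v, 0 ≤ e v := fun v => mul_nonneg (I1_nonneg _) (h0 v)
  have hnil : g [] ≤ e [] := by
    simp only [hg, he]
    apply mul_le_mul_of_nonneg_right _ (h0 _)
    by_cases hd : ∃ z, z <:+ ([] : List Lab) ∧ Z z
    · obtain ⟨z, hz, hZ⟩ := hd
      rw [List.suffix_nil] at hz
      subst hz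
      rw [I1_of hZ]
      exact I1_le_one _
    · rw [I1_of_not hd]
      exact I1_nonneg _
  have hch : ∀ v, ∑ a, g (a :: v) ≤ g v + ∑ a, e (a :: v) := by
    intro v
    by_cases hd : ∃ z, z <:+ v ∧ Z z
    · have h2 : ∑ a, g (a :: v) ≤ ∑ a, ν (a :: v) := by
        refine sum_le_sum fun a _ => ?_
        simp only [hg]
        exact mul_le_of_le_one_left (h0 _) (I1_le_one _)
      have h3 : g v = ν v := by
        simp only [hg]
        rw [I1_of hd, one_mul]
      have h4 : 0 ≤ ∑ a, e (a :: v) := sum_nonneg fun a _ => e0 _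
      linarith [h1 v]
    · have h2 : ∑ a, g (a :: v) ≤ ∑ a, e (a :: v) := by
        refine sum_le_sum fun a _ => ?_
        simp only [hg, he]
        apply mul_le_mul_of_nonneg_right _ (h0 _)
        by_cases hd' : ∃ z, z <:+ a :: v ∧ Z z
        · obtain ⟨z, hz, hZ⟩ := hd'
          rcases List.suffix_cons_iff.1 hz with rfl | hz'
          · rw [I1_of hZ]
            exact I1_le_one _
          · exact absurd ⟨z, hz', hZ⟩ hd
        · rw [I1_of_not hd']
          exact I1_nonneg _
      linarith [g0 v]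
  cases J with
  | zero =>
    have e1 : allN Lab 0 = {[]} := by
      ext v
      simp [mem_allN]
    unfold TS
    rw [e1, sum_singleton, sum_singleton]
    have := ttree_wt_pos hW ([] : List Lab).length
    have h5 := mul_le_mul_of_nonneg_left hnil this.le
    have h6 := mul_nonneg this.le (e0 [])
    linarith
  | succ J =>
    have a1 := TS_succ W J g
    have a2 := TS_succ W J e
    have a3 : TS W J (fun v => ∑ a, g (a :: v)) ≤ TS W J (fun v => g v + ∑ a, e (a :: v)) :=
      TS_mono hW fun v _ => hch v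
    rw [TS_add] at a3
    have a4 := TS_le_succ (J := J) hW g0
    have a5 := mul_le_mul_of_nonneg_left hnil hW.le
    have a6 := mul_nonneg hW.le (e0 [])
    have a7 : 0 ≤ TS W J (fun v => ∑ a, e (a :: v)) :=
      TS_nonneg hW fun v => sum_nonneg fun a _ => e0 _
    change TS W (J + 1) g ≤ 2 * TS W (J + 1) e
    linarith

theorem td_eq (a b : List Lab) : td W J a b = TS W J fun v => |I1 (v <:+ a) - I1 (v <:+ b)| := by
  unfold td TS allN
  rw [sum_biUnion]
  · refine sum_congr rfl fun n _ => ?_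
    rw [mul_sum]
    refine sum_congr rfl fun v hv => ?_
    simp only [ttree_mem_nodes.1 hv, I1_eq]
  · intro n _ m _ hnm
    rw [Function.onFun, disjoint_left]
    intro v h1 h2
    rw [ttree_mem_nodes] at h1 h2
    exact hnm (h1.symm.trans h2)

theorem td_nonneg (hW : 0 < W) (a b : List Lab) : 0 ≤ td W J a b := by
  rw [td_eq]
  exact TS_nonneg hW fun v => abs_nonneg _

theorem td_self (a : List Lab) : td W J a a = 0 := by
  simp [td]

theorem td_triangle (hW : 0 < W) (a b c : List Lab) : td W J a c ≤ td W J a b + td W J b c := by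
  rw [td_eq, td_eq, td_eq, ← TS_add]
  exact TS_mono hW fun v _ => abs_sub_le _ _ _

omit [Fintype Lab] [DecidableEq Lab] in
theorem ttree_step {v a : List Lab} (h : v <:+ a) (hne : v ≠ a) : ∃ c, c :: v <:+ a := by
  obtain ⟨t, rfl⟩ := h
  rcases List.eq_nil_or_concat t with rfl | ⟨t', c, rfl⟩
  · simp at hne
  · exact ⟨c, t', by simp⟩

theorem td_ge (hW : 0 < W) {a b : List Lab} (ha : a.length ≤ J) (hb : b.length ≤ J) (h : a ≠ b) :
    ∃ v, v <:+ a ∧ v <:+ b ∧ wt W v.length ≤ 2 * td W J a b := by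
  classical
  have hex : ∃ n, ∀ v : List Lab, v <:+ a → v <:+ b → v.length ≤ n :=
    ⟨a.length, fun v hv _ => hv.length_le⟩
  obtain ⟨v, hv, hmax⟩ := exists_max_image ((allN Lab J).filter fun v => v <:+ a ∧ v <:+ b)
    List.length ⟨[], by simp [mem_allN]⟩
  rw [mem_filter] at hv
  refine ⟨v, hv.2.1, hv.2.2, ?_⟩
  have key : ∃ u : List Lab, u.length = v.length + 1 ∧ u.length ≤ J ∧
      |I1 (u <:+ a) - I1 (u <:+ b)| = 1 := by
    have hnot : ∀ c : Lab, c :: v <:+ a → c :: v <:+ b → False := by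
      intro c h1 h2
      have := hmax (c :: v) (by
        rw [mem_filter, mem_allN]
        exact ⟨h1.length_le.trans ha, h1, h2⟩)
      simp at this
    by_cases hva : v = a
    · have hvb : v ≠ b := fun e => h (hva.symm.trans e)
      obtain ⟨c, hc⟩ := ttree_step hv.2.2 hvb
      refine ⟨c :: v, by simp, hc.length_le.trans hb, ?_⟩
      rw [I1_of hc, I1_of_not fun h1 => hnot c h1 hc]
      norm_num
    · obtain ⟨c, hc⟩ := ttree_step hv.2.1 hva
      refine ⟨c :: v, by simp, hc.length_le.trans ha, ?_⟩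
      rw [I1_of hc, I1_of_not fun h1 => hnot c hc h1]
      norm_num
  obtain ⟨u, hu1, hu2, hu3⟩ := key
  rw [td_eq]
  have h1 : wt W u.length * |I1 (u <:+ a) - I1 (u <:+ b)| ≤
      TS W J fun v => |I1 (v <:+ a) - I1 (v <:+ b)| := by
    unfold TS
    exact single_le_sum (f := fun v : List Lab => wt W v.length * |I1 (v <:+ a) - I1 (v <:+ b)|)
      (fun v _ => mul_nonneg (ttree_wt_pos hW _).le (abs_nonneg _)) (mem_allN.2 hu2)
  rw [hu3, hu1, ttree_wt_succ] at h1
  linarith

theorem Nn_eq (p : Fin k → List Lab) (v : List Lab) : (Nn p v : ℝ) = ∑ l, I1 (v <:+ p l) := by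
  unfold Nn
  rw [card_filter]
  push_cast
  exact sum_congr rfl fun l _ => by rw [I1_eq]

theorem Nn_le (p : Fin k → List Lab) (v : List Lab) : Nn p v ≤ k := by
  unfold Nn
  exact (card_filter_le _ _).trans (by simp)

theorem Nn_nil (p : Fin k → List Lab) : Nn p [] = k := by
  simp [Nn]

theorem Nn_split (p : Fin k → List Lab) (v : List Lab) : Nn p v = pk p v + ∑ a, Nn p (a :: v) := by
  unfold Nn pk
  simp only [card_filter]
  rw [sum_comm, ← sum_add_distrib]
  refine sum_congr rfl fun l _ => ?_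
  by_cases h1 : p l = v
  · have h2 : ∀ a : Lab, ¬(a :: v <:+ p l) := by
      intro a ha
      have := ha.length_le
      rw [h1] at this
      simp at this
    rw [if_pos h1, if_pos (by rw [h1]), sum_eq_zero fun a _ => if_neg (h2 a), add_zero]
  · by_cases h2 : v <:+ p l
    · obtain ⟨c, hc⟩ := ttree_step h2 (Ne.symm h1)
      rw [if_pos h2, if_neg h1, zero_add, sum_eq_single c, if_pos hc]
      · intro b _ hb
        rw [if_neg]
        intro hb'
        have := List.suffix_of_suffix_length_le hb' hc (by simp)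
        have e := this.eq_of_length (by simp)
        simp only [List.cons.injEq, and_true] at e
        exact hb e
      · simp
    · have h3 : ∀ a : Lab, ¬(a :: v <:+ p l) := fun a ha =>
        h2 ((List.suffix_cons a v).trans ha)
      simp [h1, h2, h3]

theorem Nn_deep {p : Fin k → List Lab} (h : ∀ l, (p l).length ≤ J) {v : List Lab} (hv : J < v.length) :
    Nn p v = 0 := by
  unfold Nn
  rw [card_eq_zero, filter_eq_empty_iff]
  intro l _ hl
  have := hl.length_le
  have := h l
  omega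

theorem Nn_pos {p : Fin k → List Lab} {v : List Lab} : 0 < Nn p v ↔ ∃ l, v <:+ p l := by
  unfold Nn
  rw [card_pos]
  simp [Finset.Nonempty]

theorem pk_pos {p : Fin k → List Lab} {v : List Lab} : 0 < pk p v ↔ ∃ l, p l = v := by
  unfold pk
  rw [card_pos]
  simp [Finset.Nonempty]

theorem TS_Nn_le (hW : 0 < W) (p p' : Fin k → List Lab) :
    TS W J (fun v => |(Nn p v : ℝ) - Nn p' v|) ≤ ∑ l, td W J (p l) (p' l) := by
  simp only [td_eq]
  rw [← TS_sum]
  refine TS_mono hW fun v _ => ?_
  rw [Nn_eq, Nn_eq, ← sum_sub_distrib]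
  exact abs_sum_le_sum_abs _ _

theorem ttree_cnt {n : ℕ} (hn : n ≤ k) : ∑ i : Fin k, I1 (n < (i : ℕ) + 1) = (k : ℝ) - n := by
  rw [Fin.sum_univ_eq_sum_range (fun i => I1 (n < i + 1)) k]
  induction k, hn using Nat.le_induction with
  | base =>
    rw [sub_self]
    refine sum_eq_zero fun i hi => I1_of_not ?_
    rw [mem_range] at hi
    omega
  | succ m hm ih =>
    rw [sum_range_succ, ih, I1_of (by omega)]
    push_cast
    ring

theorem ttree_count {n m : ℕ} (hm : m ≤ k) (h : n ≤ m) :
    ∑ i : Fin k, |I1 (n < (i : ℕ) + 1) - I1 (m < (i : ℕ) + 1)| = (m : ℝ) - n := by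
  have e : ∀ i : Fin k, |I1 (n < (i : ℕ) + 1) - I1 (m < (i : ℕ) + 1)| =
      I1 (n < (i : ℕ) + 1) - I1 (m < (i : ℕ) + 1) := by
    intro i
    apply abs_of_nonneg
    by_cases h1 : m < (i : ℕ) + 1
    · rw [I1_of h1, I1_of (by omega)]
      norm_num
    · rw [I1_of_not h1, sub_zero]
      exact I1_nonneg _
  simp only [e]
  rw [sum_sub_distrib, ttree_cnt hm, ttree_cnt (h.trans hm)]
  ring

theorem sum_bb (p p' : Fin k → List Lab) (v : List Lab) :
    ∑ i, |bb p v i - bb p' v i| = |(Nn p v : ℝ) - Nn p' v| := by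
  unfold bb
  rcases le_total (Nn p v) (Nn p' v) with h | h
  · rw [ttree_count (Nn_le p' v) h, abs_sub_comm, abs_of_nonneg]
    have : (Nn p v : ℝ) ≤ Nn p' v := by exact_mod_cast h
    linarith
  · simp only [abs_sub_comm (I1 (Nn p v < _))]
    rw [ttree_count (Nn_le p v) h, abs_of_nonneg]
    have : (Nn p' v : ℝ) ≤ Nn p v := by exact_mod_cast h
    linarith

theorem CfgOK.sum_pk {M : ℕ} {Y : List Lab → ℤ} {cfg : Fin M → Fin k → List Lab} (h : CfgOK J Y cfg)
    (v : List Lab) : ∑ j, (pk (cfg j) v : ℤ) = Y v - ∑ a, Y (a :: v) := by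
  rw [← h.sum v]
  simp only [← h.sum]
  rw [sum_comm, ← sum_sub_distrib]
  refine sum_congr rfl fun j _ => ?_
  rw [Nn_split (cfg j) v]
  push_cast
  ring

end Vale.Agent.P304
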