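import Vale.Agent.P304.TPar
import Vale.Agent.P304.TTree

/-! P304 TREE: ranks, heavy and flagged nodes.
Plan. `nu_lt`: induction on `v` (`ν (a :: v) ≤ ν v`, `th` monotone). `heavy_unique`: two heavy children have mass `≥ 2 th (2 r) > th (2 r + 4) > ν v`.
`flag_chain`: by induction on `b`: the number of flagged suffixes of `b` is at most `er [] - (if Flag b then er b - 1 else er b)`; or: `er` is injective on the flagged
suffixes of `b` (if `v` is flagged and `a :: v <:+ u` then `er u ≤ rk (a :: v) < er v`) with values in `Icc 1 (Sk k)`. -/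

namespace Vale.Agent.P304

open Finset

variable {Lab : Type} [Fintype Lab] [DecidableEq Lab] {k : ℕ} {X : Type} [MetricSpace X]
  {Ω : Type} [Fintype Ω] {W : ℝ} {J : ℕ}

theorem NuOK.child {ν : List Lab → ℝ} (h : NuOK k J ν) (a : Lab) (v : List Lab) : ν (a :: v) ≤ ν v := by
  exact (single_le_sum (f := fun b => ν (b :: v)) (fun b _ => h.nonneg _) (mem_univ a)).trans (h.sub v)

theorem NuOK.anti {ν : List Lab → ℝ} (h : NuOK k J ν) {u v : List Lab} (huv : u <:+ v) : ν v ≤ ν u := by
  obtain ⟨t, rfl⟩ := huv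
  induction t with
  | nil => exact le_rfl
  | cons a t ih => exact (h.child a _).trans ih

theorem NuOK.le_k {ν : List Lab → ℝ} (h : NuOK k J ν) (v : List Lab) : ν v ≤ k := by
  rw [← h.root]
  exact h.anti List.nil_suffix

theorem er_le_rk (rk : List Lab → ℕ) (v : List Lab) : er rk v ≤ rk v := by
  cases v with
  | nil => exact le_rfl
  | cons a v => exact min_le_right _ _

theorem er_anti (rk : List Lab → ℕ) {u v : List Lab} (h : u <:+ v) : er rk v ≤ er rk u := by
  obtain ⟨t, rfl⟩ := h
  induction t with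
  | nil => exact le_rfl
  | cons a t ih => exact (min_le_left _ _).trans ih

theorem er_congr {rk rk' : List Lab → ℕ} {v : List Lab} (h : ∀ u, u <:+ v → rk u = rk' u) :
    er rk v = er rk' v := by
  induction v with
  | nil => exact h _ (List.suffix_refl _)
  | cons a v ih =>
    simp only [er]
    rw [ih fun u hu => h u (hu.trans (List.suffix_cons a v)), h _ (List.suffix_refl _)]

theorem er_pos {rk : List Lab → ℕ} {v : List Lab} (h : ∀ u, u <:+ v → 0 < rk u) : 0 < er rk v := by
  induction v with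
  | nil => exact h _ (List.suffix_refl _)
  | cons a v ih =>
    exact lt_min (ih fun u hu => h u (hu.trans (List.suffix_cons a v))) (h _ (List.suffix_refl _))

theorem Heavy.er_eq {rk : List Lab → ℕ} {a : Lab} {v : List Lab} (h : Heavy rk a v) :
    er rk (a :: v) = er rk v := by
  exact min_eq_left h.2

theorem Light.er_eq {rk : List Lab → ℕ} {a : Lab} {v : List Lab} (h : Light rk a v) :
    er rk (a :: v) = rk (a :: v) := by
  exact min_eq_right h.2.le

theorem active_iff {rk : List Lab → ℕ} {a : Lab} {v : List Lab} :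
    0 < er rk (a :: v) ↔ Heavy rk a v ∨ Light rk a v := by
  simp only [er, Heavy, Light, lt_min_iff]
  omega

theorem Heavy.not_light {rk : List Lab → ℕ} {a : Lab} {v : List Lab} (h : Heavy rk a v) : ¬Light rk a v := by
  exact fun h' => absurd h.2 (not_le.2 h'.2)

theorem rk_le_Sk (hk : 2 ≤ k) {ν : List Lab → ℝ} (h : NuOK k J ν) {rk : List Lab → ℕ}
    (hr : ∀ v, RkV (ν v) (rk v)) (v : List Lab) : rk v ≤ Sk k := by
  rcases Nat.eq_zero_or_pos (rk v) with h0 | h0
  · omega
  · exact le_Sk_of_th hk (((hr v).2 h0).trans (h.le_k v))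

theorem rk_pos {x : ℝ} {r : ℕ} (h : RkV x r) (hx : 1 ≤ x) : 0 < r := by
  rcases Nat.eq_zero_or_pos r with rfl | h0
  · have h1 := h.1
    have h2 := th_four_lt
    simp only [mul_zero, zero_add] at h1
    linarith
  · exact h0

theorem nu_lt {ν : List Lab → ℝ} (h : NuOK k J ν) {rk : List Lab → ℕ} (hr : ∀ v, RkV (ν v) (rk v))
    (v : List Lab) : ν v < th (2 * er rk v + 4) := by
  induction v with
  | nil => exact (hr _).1
  | cons a v ih =>
    rcases le_total (er rk v) (rk (a :: v)) with h1 | h1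
    · have e : er rk (a :: v) = er rk v := min_eq_left h1
      rw [e]
      exact (h.child a v).trans_lt ih
    · have e : er rk (a :: v) = rk (a :: v) := min_eq_right h1
      rw [e]
      exact (hr _).1

theorem le_nu {ν : List Lab → ℝ} {rk : List Lab → ℕ} (hr : ∀ v, RkV (ν v) (rk v)) {v : List Lab}
    (hv : 0 < er rk v) : th (2 * er rk v) ≤ ν v := by
  have h1 := er_le_rk rk v
  exact (th_strictMono.monotone (by omega)).trans ((hr v).2 (by omega))

theorem rk_deep {ν : List Lab → ℝ} (h : NuOK k J ν) {rk : List Lab → ℕ} (hr : ∀ v, RkV (ν v) (rk v))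
    {v : List Lab} (hv : J < v.length) : rk v = 0 := by
  by_contra h0
  have h1 := (hr v).2 (by omega)
  rw [h.deep v hv] at h1
  exact absurd (th_pos _) (not_lt.2 h1)

theorem heavy_unique {ν : List Lab → ℝ} (h : NuOK k J ν) {rk : List Lab → ℕ} (hr : ∀ v, RkV (ν v) (rk v))
    {a b : Lab} {v : List Lab} (ha : Heavy rk a v) (hb : Heavy rk b v) : a = b := by
  by_contra hab
  have h1 : th (2 * er rk v) ≤ ν (a :: v) := by
    rw [← ha.er_eq]
    exact le_nu hr (by rw [ha.er_eq]; exact ha.1)
  have h2 : th (2 * er rk v) ≤ ν (b :: v) := by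
    rw [← hb.er_eq]
    exact le_nu hr (by rw [hb.er_eq]; exact hb.1)
  have h3 := nu_lt h hr v
  have h4 := th_add_four (2 * er rk v)
  have h5 : ∑ c ∈ ({a, b} : Finset Lab), ν (c :: v) ≤ ∑ c, ν (c :: v) :=
    sum_le_sum_of_subset_of_nonneg (subset_univ _) fun c _ _ => h.nonneg _
  rw [sum_pair hab] at h5
  have h6 := h.sub v
  linarith

theorem flag_chain (hk : 2 ≤ k) {ν : List Lab → ℝ} (h : NuOK k J ν) {rk : List Lab → ℕ}
    (hr : ∀ v, RkV (ν v) (rk v)) (b : List Lab) :
    ∑ v ∈ allN Lab J, I1 (Flag rk v) * I1 (v <:+ b) ≤ Sk k := by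
  classical
  have e : ∑ v ∈ allN Lab J, I1 (Flag rk v) * I1 (v <:+ b) =
      (((allN Lab J).filter fun v => Flag rk v ∧ v <:+ b).card : ℝ) := by
    rw [card_filter]
    push_cast
    refine sum_congr rfl fun v _ => ?_
    by_cases h1 : Flag rk v <;> by_cases h2 : v <:+ b <;> simp [h1, h2, I1_of, I1_of_not]
  rw [e]
  have key : ∀ u v : List Lab, Flag rk v → v <:+ u → er rk u = er rk v → u = v := by
    intro u v hv huv he
    obtain ⟨t, rfl⟩ := huv
    rcases List.eq_nil_or_concat t with rfl | ⟨t', a, rfl⟩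
    · rfl
    · exfalso
      have h1 : a :: v <:+ t'.concat a ++ v := ⟨t', by simp⟩
      have h2 := er_anti rk h1
      have h3 := er_le_rk rk (a :: v)
      exact hv.2 a ⟨hv.1, by omega⟩
  have hc : ((allN Lab J).filter fun v => Flag rk v ∧ v <:+ b).card ≤ (Icc 1 (Sk k)).card := by
    refine card_le_card_of_injOn (er rk) (fun v hv => ?_) fun u hu v hv he => ?_
    · have h1 := (mem_filter.1 (mem_coe.1 hv)).2.1.1
      exact mem_coe.2 (mem_Icc.2 ⟨h1, (er_le_rk rk v).trans (rk_le_Sk hk h hr v)⟩)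
    · have hu' := (mem_filter.1 (mem_coe.1 hu)).2
      have hv' := (mem_filter.1 (mem_coe.1 hv)).2
      rcases List.suffix_or_suffix_of_suffix hu'.2 hv'.2 with h1 | h1
      · exact (key v u hu'.1 h1 he.symm).symm
      · exact key u v hv'.1 h1 he
  rw [Nat.card_Icc] at hc
  exact_mod_cast hc

end Vale.Agent.P304
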