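import Vale.Agent.P304.TPar

/-! P304 TREE: scalar potentials.
Plan. `tht yh y - tht y y = y log (y / yh) - y + yh`. For `y ≥ yh` use `log u ≥ 2 (u - 1) / (u + 1)` (`Real.le_log_one_add_of_nonneg`), for `y ≤ yh` use
`u log u ≥ u - 1 + (1 - u) ^ 2 / 2` on `(0, 1]` (derivative, or `Real.log` series / `log u ≥ (u - 1/u) / 2`... check: `u log u ≥ (u^2 - 1)/2 = u - 1 + (1 - u)^2 / 2`).
`phq_nonneg`, `phr_nonneg`: `tht yh y ≥ tht y y = - y log y`, concavity of `Real.negMulLog` (`Real.concaveOn_negMulLog`). `phq` and `phr` are affine in the second argument.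
`phr_drop`: see the notes; `th 3 ≥ 0.79`, `th 4 ≥ 0.92`. -/

namespace Vale.Agent.P304

open Finset

variable {Lab : Type} [Fintype Lab] [DecidableEq Lab] {k : ℕ} {X : Type} [MetricSpace X]
  {Ω : Type} [Fintype Ω] {W : ℝ} {J : ℕ}

theorem breg_ge {y yh : ℝ} (h0 : 0 < yh) (h : yh ≤ y) : (y - yh) ^ 2 / (y + yh) ≤ tht yh y - tht y y := by
  have hy : 0 < y := h0.trans_le h
  have h1 := Real.le_log_one_add_of_nonneg (x := (y - yh) / yh) (div_nonneg (by linarith) h0.le)
  have h2 : 1 + (y - yh) / yh = y / yh := by field_simp; ring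
  have h3 : 2 * ((y - yh) / yh) / ((y - yh) / yh + 2) = 2 * (y - yh) / (y + yh) := by
    have h6 : (y - yh) / yh + 2 = (y + yh) / yh := by
      field_simp
      ring
    rw [h6]
    field_simp
  rw [h2, h3, Real.log_div hy.ne' h0.ne'] at h1
  have h4 := mul_le_mul_of_nonneg_left h1 hy.le
  have h5 : (y - yh) ^ 2 / (y + yh) = y * (2 * (y - yh) / (y + yh)) - (y - yh) := by
    field_simp
    ring
  unfold tht
  linarith

theorem breg_le {y yh : ℝ} (h0 : 0 < y) (h : y ≤ yh) : (yh - y) ^ 2 / (2 * yh) ≤ tht yh y - tht y y := by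
  have hy : 0 < yh := h0.trans_le h
  have h1 : 0 ≤ Real.log (yh / y) := Real.log_nonneg ((one_le_div h0).2 h)
  have h2 := Real.self_le_sinh_iff.2 h1
  rw [Real.sinh_log (div_pos hy h0), Real.log_div hy.ne' h0.ne'] at h2
  have h4 := mul_le_mul_of_nonneg_left h2 h0.le
  have h5 : (yh - y) ^ 2 / (2 * yh) = yh - y - y * ((yh / y - (yh / y)⁻¹) / 2) := by
    field_simp
    ring
  unfold tht
  linarith

theorem tbreg_self (y : ℝ) : tht y y = Real.negMulLog y := by
  unfold tht Real.negMulLog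
  ring

theorem tbreg_le {y yh : ℝ} (h0 : 0 < yh) (h1 : 0 < y) : tht y y ≤ tht yh y := by
  rcases le_total yh y with h | h
  · have h2 := breg_ge h0 h
    have h3 : 0 ≤ (y - yh) ^ 2 / (y + yh) := by positivity
    linarith
  · have h2 := breg_le h1 h
    have h3 : 0 ≤ (yh - y) ^ 2 / (2 * yh) := by positivity
    linarith

theorem tbreg_phq_eq (k : ℕ) (qh b : ℝ) : phq k qh b = phq k qh 0 +
    b * (-1 - Real.log (qh + dl k) - tht (1 + dl k) (1 + dl k) + tht (dl k) (dl k)) := by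
  unfold phq
  generalize tht (1 + dl k) (1 + dl k) = A
  generalize tht (dl k) (dl k) = B
  unfold tht
  ring

theorem tbreg_phr_eq (k : ℕ) (nh N : ℝ) : phr k nh N = phr k nh 0 +
    N * (-1 - Real.log (nh + 1) + (k + 1) * Real.log (k + 1) / k) := by
  unfold phr tht
  ring

theorem tbreg_lip {c L : ℝ} (h : |c| ≤ L) (a b b' : ℝ) :
    a + b' * c - (a + b * c) ≤ L * |b - b'| := by
  have h1 : a + b' * c - (a + b * c) = -(c * (b - b')) := by ring
  rw [h1]
  refine (neg_le_abs _).trans ?_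
  rw [abs_mul]
  exact mul_le_mul_of_nonneg_right h (abs_nonneg _)

theorem tbreg_c (hk : 2 ≤ k) : Real.log (k + 1) ≤ Real.log k + 1 ∧
    0 ≤ ((k : ℝ) + 1) * Real.log (k + 1) / k ∧
    ((k : ℝ) + 1) * Real.log (k + 1) / k ≤ 2 * (Real.log k + 1) := by
  have k2 : (2 : ℝ) ≤ k := by exact_mod_cast hk
  have l1 : 0 ≤ Real.log ((k : ℝ) + 1) := Real.log_nonneg (by linarith)
  have b3 : Real.log ((k : ℝ) + 1) ≤ Real.log (k * 2) :=
    Real.log_le_log (by linarith) (by linarith)
  rw [Real.log_mul (by linarith) (by norm_num)] at b3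
  have b4 : Real.log 2 ≤ 2 - 1 := Real.log_le_sub_one_of_pos (by norm_num)
  refine ⟨by linarith, by positivity, ?_⟩
  rw [div_le_iff₀ (by linarith)]
  nlinarith

theorem phq_mean {ι : Type*} (s : Finset ι) {w : ι → ℝ} (hw : ∑ i ∈ s, w i = 1) (k : ℕ) (qh : ℝ) (b : ι → ℝ) :
    ∑ i ∈ s, w i * phq k qh (b i) = phq k qh (∑ i ∈ s, w i * b i) := by
  rw [tbreg_phq_eq k qh (∑ i ∈ s, w i * b i), Finset.sum_congr rfl fun i _ => by
    rw [tbreg_phq_eq k qh (b i)]]
  simp only [mul_add, Finset.sum_add_distrib, ← mul_assoc, ← Finset.sum_mul, hw,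
    one_mul]

theorem phr_mean {ι : Type*} (s : Finset ι) {w : ι → ℝ} (hw : ∑ i ∈ s, w i = 1) (k : ℕ) (nh : ℝ) (N : ι → ℝ) :
    ∑ i ∈ s, w i * phr k nh (N i) = phr k nh (∑ i ∈ s, w i * N i) := by
  rw [tbreg_phr_eq k nh (∑ i ∈ s, w i * N i), Finset.sum_congr rfl fun i _ => by
    rw [tbreg_phr_eq k nh (N i)]]
  simp only [mul_add, Finset.sum_add_distrib, ← mul_assoc, ← Finset.sum_mul, hw,
    one_mul]

theorem phq_nonneg (k : ℕ) {qh q : ℝ} (h : 0 ≤ qh) (h0 : 0 ≤ q) (h1 : q ≤ 1) : 0 ≤ phq k qh q := by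
  have d0 := dl_pos k
  have h2 := tbreg_le (yh := qh + dl k) (y := q + dl k) (by linarith) (by linarith)
  have h3 := Real.concaveOn_negMulLog.2 (x := 1 + dl k) (y := dl k)
    (show (0 : ℝ) ≤ _ by linarith) (show (0 : ℝ) ≤ _ by linarith) h0 (sub_nonneg.2 h1) (by ring)
  have h4 : q • (1 + dl k) + (1 - q) • dl k = q + dl k := by
    simp only [smul_eq_mul]
    ring
  rw [h4] at h3
  simp only [smul_eq_mul, ← tbreg_self] at h3
  unfold phq
  linarith

theorem phq_self (k : ℕ) (P : Prop) : phq k (I1 P) (I1 P) = 0 := by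
  by_cases h : P <;> simp [I1, h, phq]

theorem phq_lip (hk : 2 ≤ k) {qh : ℝ} (h0 : 0 ≤ qh) (h1 : qh ≤ 1) (b b' : ℝ) :
    phq k qh b' - phq k qh b ≤ 3 * Lk k * |b - b'| := by
  have d0 := dl_pos k
  have d1 := dl_le hk
  have k2 : (2 : ℝ) ≤ k := by exact_mod_cast hk
  have l0 : 0 ≤ Real.log k := Real.log_nonneg (by linarith)
  have a1 : Real.log (qh + dl k) ≤ 1 / 10 :=
    (Real.log_le_sub_one_of_pos (by linarith)).trans (by linarith)
  have a2 : -(Real.log k + 4) ≤ Real.log (qh + dl k) := by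
    have b1 : Real.log (dl k) ≤ Real.log (qh + dl k) := Real.log_le_log d0 (by linarith)
    have b2 : Real.log (dl k) = -Real.log (4 * k + 2) := by
      rw [dl, one_div, Real.log_inv]
    have b3 : Real.log (4 * k + 2) ≤ Real.log (k * 5) :=
      Real.log_le_log (by linarith) (by linarith)
    rw [Real.log_mul (by linarith) (by norm_num)] at b3
    have b4 : Real.log 5 ≤ 5 - 1 := Real.log_le_sub_one_of_pos (by norm_num)
    linarith
  have a3 : 0 ≤ Real.log (1 + dl k) := Real.log_nonneg (by linarith)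
  have a4 : Real.log (1 + dl k) ≤ 1 / 10 :=
    (Real.log_le_sub_one_of_pos (by linarith)).trans (by linarith)
  have a5 : 0 ≤ tht (dl k) (dl k) := by
    rw [tbreg_self]
    exact Real.negMulLog_nonneg d0.le (by linarith)
  have a6 : tht (dl k) (dl k) ≤ 1 - dl k := by
    rw [tbreg_self]
    exact Real.negMulLog_le_one_sub_self d0.le
  have a7 : tht (1 + dl k) (1 + dl k) = -((1 + dl k) * Real.log (1 + dl k)) := by
    unfold tht
    ring
  have a8 : 0 ≤ (1 + dl k) * Real.log (1 + dl k) := by positivity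
  have a9 : (1 + dl k) * Real.log (1 + dl k) ≤ 1 := by nlinarith
  rw [tbreg_phq_eq k qh b', tbreg_phq_eq k qh b]
  refine tbreg_lip (abs_le.2 ⟨?_, ?_⟩) _ _ _ <;> unfold Lk <;> linarith

theorem phq_drop (hk : 2 ≤ k) {qh q : ℝ} (h : 0 ≤ qh) (h0 : 0 ≤ q) (hc : ¬Close k q qh) :
    phq k q q - phq k qh q ≤ -(eta k / 3 * |qh - q|) := by
  have d0 := dl_pos k
  have e0 := eta_pos hk
  have e1 := eta_le hk
  have key : eta k / 3 * |qh - q| ≤ tht (qh + dl k) (q + dl k) - tht (q + dl k) (q + dl k) := by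
    rcases not_and_or.1 hc with h1 | h1
    · have h2 := not_le.1 h1
      have h3 : 0 < eta k * (qh + dl k) := by positivity
      have h4 : qh < q := by nlinarith
      refine le_trans ?_ (breg_ge (by linarith) (by linarith))
      rw [abs_of_neg (by linarith), le_div_iff₀ (by linarith)]
      have h5 : eta k / 3 * (q + dl k + (qh + dl k)) ≤ q - qh := by nlinarith
      nlinarith
    · have h2 := not_le.1 h1
      have h3 : 0 < eta k * (q + dl k) := by positivity
      have h4 : q < qh := by nlinarith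
      refine le_trans ?_ (breg_le (by linarith) (by linarith))
      rw [abs_of_pos (by linarith), le_div_iff₀ (by linarith)]
      have h5 : eta k / 3 * (2 * (qh + dl k)) ≤ qh - q := by nlinarith
      nlinarith
  unfold phq
  linarith

theorem phr_nonneg (hk : 2 ≤ k) {nh x : ℝ} (h : 0 ≤ nh) (h0 : 0 ≤ x) (h1 : x ≤ k) : 0 ≤ phr k nh x := by
  have k2 : (2 : ℝ) ≤ k := by exact_mod_cast hk
  have k0 : (0 : ℝ) < k := by linarith
  have h2 := tbreg_le (yh := nh + 1) (y := x + 1) (by linarith) (by linarith)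
  have h3 := Real.concaveOn_negMulLog.2 (x := (k : ℝ) + 1) (y := 1)
    (show (0 : ℝ) ≤ _ by linarith) (show (0 : ℝ) ≤ _ by linarith) (div_nonneg h0 k0.le)
    (sub_nonneg.2 ((div_le_one k0).2 h1)) (by ring)
  have h4 : (x / k) • ((k : ℝ) + 1) + (1 - x / k) • (1 : ℝ) = x + 1 := by
    simp only [smul_eq_mul]
    field_simp
    ring
  rw [h4, ← tbreg_self (x + 1)] at h3
  simp only [smul_eq_mul, Real.negMulLog, Real.log_one, mul_zero, add_zero] at h3
  have h5 : x / k * (-((k : ℝ) + 1) * Real.log (k + 1)) = -(x * ((k + 1) * Real.log (k + 1) / k)) := by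
    ring
  unfold phr
  linarith

theorem phr_self_le (hk : 2 ≤ k) {x : ℝ} (h0 : 0 ≤ x) : phr k x x ≤ 2 * Lk k * x := by
  have h1 := (tbreg_c hk).2.2
  have h2 : 0 ≤ (x + 1) * Real.log (x + 1) := mul_nonneg (by linarith) (Real.log_nonneg (by linarith))
  have h3 := mul_le_mul_of_nonneg_left h1 h0
  unfold phr tht Lk
  nlinarith

theorem phr_zero (k : ℕ) : phr k 0 0 = 0 := by
  simp [phr, tht]

theorem phr_full (hk : 2 ≤ k) : phr k k k = 0 := by
  have k2 : (2 : ℝ) ≤ k := by exact_mod_cast hk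
  have k0 : (k : ℝ) ≠ 0 := by linarith
  unfold phr tht
  field_simp
  ring

theorem phr_lip (hk : 2 ≤ k) {nh : ℝ} (h0 : 0 ≤ nh) (h1 : nh ≤ k) (N N' : ℝ) :
    phr k nh N' - phr k nh N ≤ 4 * Lk k * |N - N'| := by
  obtain ⟨c1, c2, c3⟩ := tbreg_c hk
  have k2 : (2 : ℝ) ≤ k := by exact_mod_cast hk
  have l0 : 0 ≤ Real.log k := Real.log_nonneg (by linarith)
  have a1 : 0 ≤ Real.log (nh + 1) := Real.log_nonneg (by linarith)
  have a2 : Real.log (nh + 1) ≤ Real.log (k + 1) := Real.log_le_log (by linarith) (by linarith)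
  rw [tbreg_phr_eq k nh N', tbreg_phr_eq k nh N]
  refine tbreg_lip (abs_le.2 ⟨?_, ?_⟩) _ _ _ <;> unfold Lk <;> linarith

theorem phr_drop {r : ℕ} {nh x x' : ℝ} (hn : NhV k r nh) (hx : RkV x r) (h0 : 0 ≤ x') (h : ¬RkV x' r) :
    phr k x' x' - phr k nh x' ≤ -((x + x') / 600) := by
  obtain ⟨n0, -, n2, n3⟩ := hn
  have x1 := hx.1
  have key : (x + x') / 600 ≤ tht (nh + 1) (x' + 1) - tht (x' + 1) (x' + 1) := by
    rcases not_and_or.1 h with h1 | h1
    · have h2 := not_lt.1 h1
      have h3 : th 4 ≤ th (2 * r + 4) := th_strictMono.monotone (by omega)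
      have h4 : 92 / 100 ≤ th 4 := by norm_num [th]
      have h5 : th (2 * r + 4) = 7 / 6 * th (2 * r + 3) := th_succ _
      refine le_trans ?_ (breg_ge (by linarith) (by linarith))
      rw [le_div_iff₀ (by linarith)]
      have h6 : x' / 7 ≤ x' + 1 - (nh + 1) := by linarith
      have h7 := pow_le_pow_left₀ (by linarith) h6 2
      have h8 : (x + x') / 600 * (x' + 1 + (nh + 1)) ≤ x' / 300 * (x' + 1 + (nh + 1)) :=
        mul_le_mul_of_nonneg_right (by linarith) (by linarith)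
      have h9 : x' / 300 * (x' + 1 + (nh + 1)) ≤ x' / 300 * (5 * x') :=
        mul_le_mul_of_nonneg_left (by linarith) (by linarith)
      nlinarith
    · obtain ⟨r1, h2⟩ := Classical.not_imp.1 h1
      have h2' := not_le.1 h2
      have n4 := n3 r1
      have h3 : th 3 ≤ th (2 * r + 1) := th_strictMono.monotone (by omega)
      have h4 : 79 / 100 ≤ th 3 := by norm_num [th]
      have h5 : th (2 * r + 1) = 7 / 6 * th (2 * r) := th_succ _
      have h5a : th (2 * r + 2) = 7 / 6 * th (2 * r + 1) := th_succ _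
      have h5b : th (2 * r + 3) = 7 / 6 * th (2 * r + 2) := th_succ _
      have h5c : th (2 * r + 4) = 7 / 6 * th (2 * r + 3) := th_succ _
      refine le_trans ?_ (breg_le (by linarith) (by linarith))
      rw [le_div_iff₀ (by linarith)]
      have h6 : nh / 7 ≤ nh + 1 - (x' + 1) := by linarith
      have h7 := pow_le_pow_left₀ (by linarith) h6 2
      have h8 : (x + x') / 600 * (2 * (nh + 1)) ≤ 245 / 100 * nh / 600 * (2 * (nh + 1)) :=
        mul_le_mul_of_nonneg_right (by linarith) (by linarith)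
      have h9 : 245 / 100 * nh / 600 * (2 * (nh + 1)) ≤ 245 / 100 * nh / 600 * (2 * (227 / 100 * nh)) :=
        mul_le_mul_of_nonneg_left (by linarith) (by linarith)
      nlinarith
  unfold phr
  linarith

end Vale.Agent.P304
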