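import Vale.Agent.P304.TTree

/-! P304 TREE: transport on the tree for one particle.
Plan. Strong induction on the natural number `∑ v ∈ allN J, |Nn p v - c v|`; each step moves one server along one edge. Put `f v = Nn p v - c v` (integers, `f [] = 0`,
zero below depth `J`), so `f v - ∑ a, f (a :: v) = pk p v - e v`. If some `f` is positive take a deepest node `u = a :: v` with `f u > 0`: its children have `f ≤ 0`, so `pk p u > 0`;
move a server from `u` to `v`. Otherwise, if `f ≠ 0`, take a shallowest `u = a :: v` with `f u < 0`: then `f v = 0`, so `pk p v > 0`; move a server from `v` to `u`.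
In both cases only `Nn · u` changes, `|f u|` drops by one and `td u v = wt W u.length`; `td_triangle`. -/

namespace Vale.Agent.P304

open Finset

variable {Lab : Type} [Fintype Lab] [DecidableEq Lab] {k : ℕ} {X : Type} [MetricSpace X]
  {Ω : Type} [Fintype Ω] {W : ℝ} {J : ℕ}

theorem ttrans_edge (a : Lab) (v z : List Lab) :
    I1 (z <:+ a :: v) = I1 (z <:+ v) + I1 (z = a :: v) := by
  by_cases h : z = a :: v
  · subst h
    have h1 : ¬a :: v <:+ v := fun h => by
      have := h.length_le
      simp at this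
    rw [I1_of (List.suffix_refl _), I1_of_not h1, I1_of rfl, zero_add]
  · rw [I1_of_not h, add_zero]
    by_cases h1 : z <:+ v
    · rw [I1_of h1, I1_of (List.suffix_cons_iff.mpr (Or.inr h1))]
    · rw [I1_of_not h1, I1_of_not fun h2 => (List.suffix_cons_iff.mp h2).elim h h1]

theorem ttrans_update (p : Fin k → List Lab) (l : Fin k) (y z : List Lab) :
    (Nn (Function.update p l y) z : ℝ) = Nn p z - I1 (z <:+ p l) + I1 (z <:+ y) := by
  rw [Nn_eq, Nn_eq, ← add_sum_erase _ _ (mem_univ l), ← add_sum_erase _ _ (mem_univ l),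
    Function.update_self]
  have h : ∑ x ∈ univ.erase l, I1 (z <:+ Function.update p l y x) =
      ∑ x ∈ univ.erase l, I1 (z <:+ p x) :=
    sum_congr rfl fun x hx => by rw [Function.update_of_ne (ne_of_mem_erase hx)]
  rw [h]
  ring

theorem ttrans_step {p : Fin k → List Lab} (hp : ∀ l, (p l).length ≤ J) {c e : List Lab → ℕ}
    (h0 : c [] = k) (h1 : ∀ v, c v = e v + ∑ a, c (a :: v)) (h2 : ∀ v, J < v.length → c v = 0)
    (hne : ¬∀ v, Nn p v = c v) :
    ∃ l y u, u.length ≤ J ∧ y.length ≤ J ∧ (∀ z, |I1 (z <:+ p l) - I1 (z <:+ y)| = I1 (z = u)) ∧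
      ∀ z, |(Nn p z : ℝ) - c z| = |(Nn (Function.update p l y) z : ℝ) - c z| + I1 (z = u) := by
  by_cases hc : ∃ u, c u < Nn p u
  · have hlen : ∀ u, c u < Nn p u → u.length ≤ J := fun u hu => by
      by_contra h
      have := Nn_deep hp (not_le.mp h)
      omega
    obtain ⟨u₀, hu₀⟩ := hc
    obtain ⟨u, hu, hmax⟩ := exists_max_image ((allN Lab J).filter fun u => c u < Nn p u) List.length
      ⟨u₀, mem_filter.mpr ⟨mem_allN.mpr (hlen _ hu₀), hu₀⟩⟩
    have hu1 := (mem_filter.mp hu).2
    have hch : ∀ b, Nn p (b :: u) ≤ c (b :: u) := fun b => by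
      by_contra h
      have h' := not_le.mp h
      have := hmax _ (mem_filter.mpr ⟨mem_allN.mpr (hlen _ h'), h'⟩)
      simp at this
    have h3 : ∑ b, Nn p (b :: u) ≤ ∑ b, c (b :: u) := sum_le_sum fun b _ => hch b
    have h4 := Nn_split p u
    have h5 := h1 u
    obtain ⟨l, hl⟩ := (pk_pos (p := p) (v := u)).mp (by omega)
    cases u with
    | nil =>
      rw [h0, Nn_nil] at hu1
      omega
    | cons a v =>
      have h6 := hlen _ hu1
      refine ⟨l, v, a :: v, h6, by simp at h6; omega, fun z => ?_, fun z => ?_⟩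
      · rw [hl, ttrans_edge, add_sub_cancel_left, abs_of_nonneg (I1_nonneg _)]
      · rw [ttrans_update, hl, ttrans_edge]
        by_cases hz : z = a :: v
        · subst hz
          have h7 : (c (a :: v) : ℝ) + 1 ≤ Nn p (a :: v) := by exact_mod_cast hu1
          rw [I1_of rfl, abs_of_nonneg (by linarith), abs_of_nonneg (by linarith)]
          ring
        · rw [I1_of_not hz]
          ring_nf
  · push Not at hc hne
    have hmin : ∀ u, Nn p u ≠ c u → ∃ a v, Nn p (a :: v) < c (a :: v) ∧ Nn p v = c v := fun u => by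
      induction u with
      | nil => exact fun h => absurd ((Nn_nil p).trans h0.symm) h
      | cons a v ih =>
        intro h
        by_cases hv : Nn p v = c v
        · exact ⟨a, v, lt_of_le_of_ne (hc _) h, hv⟩
        · exact ih hv
    obtain ⟨u₀, hu₀⟩ := hne
    obtain ⟨a, v, hu, hv⟩ := hmin u₀ hu₀
    have h6 : (a :: v).length ≤ J := by
      by_contra h
      have := h2 _ (not_le.mp h)
      omega
    have h3 : ∑ b, Nn p (b :: v) < ∑ b, c (b :: v) :=
      sum_lt_sum (fun b _ => hc _) ⟨a, mem_univ _, hu⟩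
    have h4 := Nn_split p v
    have h5 := h1 v
    obtain ⟨l, hl⟩ := (pk_pos (p := p) (v := v)).mp (by omega)
    refine ⟨l, a :: v, a :: v, h6, h6, fun z => ?_, fun z => ?_⟩
    · rw [hl, ttrans_edge, abs_sub_comm, add_sub_cancel_left, abs_of_nonneg (I1_nonneg _)]
    · rw [ttrans_update, hl, ttrans_edge]
      by_cases hz : z = a :: v
      · subst hz
        have h7 : (Nn p (a :: v) : ℝ) + 1 ≤ c (a :: v) := by exact_mod_cast hu
        rw [I1_of rfl, abs_of_nonpos (by linarith), abs_of_nonpos (by linarith)]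
        ring
      · rw [I1_of_not hz]
        ring_nf

theorem ttrans_ind (hW : 0 < W) {c e : List Lab → ℕ}
    (h0 : c [] = k) (h1 : ∀ v, c v = e v + ∑ a, c (a :: v)) (h2 : ∀ v, J < v.length → c v = 0)
    (n : ℕ) : ∀ p : Fin k → List Lab, (∀ l, (p l).length ≤ J) →
      ∑ z ∈ allN Lab J, |(Nn p z : ℝ) - c z| < n →
      ∃ p' : Fin k → List Lab, (∀ l, (p' l).length ≤ J) ∧ (∀ v, Nn p' v = c v) ∧
        ∑ l, td W J (p l) (p' l) ≤ TS W J fun v => |(Nn p v : ℝ) - c v| := by
  induction n with
  | zero =>
    intro p _ h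
    rw [Nat.cast_zero] at h
    exact absurd (sum_nonneg fun j _ => abs_nonneg _) (not_le.mpr h)
  | succ n ih =>
    intro p hp hn
    by_cases hne : ∀ v, Nn p v = c v
    · refine ⟨p, hp, hne, ?_⟩
      simp only [td_self, sum_const_zero]
      exact TS_nonneg hW fun _ => abs_nonneg _
    · obtain ⟨l, y, u, hu, hy, g1, g2⟩ := ttrans_step hp h0 h1 h2 hne
      have hp₁ : ∀ l', (Function.update p l y l').length ≤ J := fun l' => by
        by_cases h : l' = l
        · rw [h, Function.update_self]
          exact hy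
        · rw [Function.update_of_ne h]
          exact hp l'
      have h3 : ∑ z ∈ allN Lab J, I1 (z = u) = 1 := by
        simp only [I1_eq, sum_ite_eq', if_pos (mem_allN.mpr hu)]
      simp only [g2, sum_add_distrib, h3] at hn
      push_cast at hn
      obtain ⟨p', q1, q2, q3⟩ := ih _ hp₁ (by linarith)
      refine ⟨p', q1, q2, ?_⟩
      have h4 : ∑ l', td W J (p l') (p' l') ≤ ∑ l', (td W J (p l') (Function.update p l y l') +
          td W J (Function.update p l y l') (p' l')) :=
        sum_le_sum fun l' _ => td_triangle hW _ _ _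
      have h5 : ∑ l', td W J (p l') (Function.update p l y l') = TS W J fun z => I1 (z = u) := by
        rw [sum_eq_single l (fun l' _ h => by rw [Function.update_of_ne h, td_self])
          (fun h => absurd (mem_univ l) h), Function.update_self, td_eq]
        simp only [g1]
      simp only [g2]
      rw [TS_add]
      rw [sum_add_distrib, h5] at h4
      linarith

theorem transport (hW : 0 < W) {p : Fin k → List Lab} (hp : ∀ l, (p l).length ≤ J) {c e : List Lab → ℕ}
    (h0 : c [] = k) (h1 : ∀ v, c v = e v + ∑ a, c (a :: v)) (h2 : ∀ v, J < v.length → c v = 0) :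
    ∃ p' : Fin k → List Lab, (∀ l, (p' l).length ≤ J) ∧ (∀ v, Nn p' v = c v) ∧
      ∑ l, td W J (p l) (p' l) ≤ TS W J fun v => |(Nn p v : ℝ) - c v| := by
  obtain ⟨n, hn⟩ := exists_nat_gt (∑ z ∈ allN Lab J, |(Nn p z : ℝ) - c z|)
  exact ttrans_ind hW h0 h1 h2 n p hp hn

end Vale.Agent.P304
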