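import Vale.Agent.P304.TRound1
import Vale.Agent.P304.TTrans

/-! P304 TREE: rounding of a whole configuration.
Plan. Choose (by `Classical.choose` on `round_one` with `I = Option Lab`, old entries `none ↦ pk (cfg j) v`, `some a ↦ Nn (cfg j) (a :: v)`, column sums `toNat` of `Y' v - ∑ a, Y' (a :: v)` and `Y' (a :: v)`)
a function `R v ρ : Fin M → Option Lab → ℕ`, define `c : List Lab → Fin M → ℕ` by recursion, `c [] = fun _ => k`, `c (a :: v) j = R v (c v) j (some a)`, `e v j = R v (c v) j none`;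
by induction `c v` is balanced with sum `Y' v`. With `E v = ∑ j, |Nn (cfg j) v - c v j|`, `D v = |Y v - Y' v|`: `∑ a, E (a :: v) ≤ E v + 2 D v + 4 ∑ a, D (a :: v)`, `E [] = 0`;
`TS_child` gives `TS E ≤ TS E / 2 + TS D + 4 TS D`. Apply `transport` to each particle; `pk = e` by `Nn_split`. -/

namespace Vale.Agent.P304

open Finset

variable {Lab : Type} [Fintype Lab] [DecidableEq Lab] {k : ℕ} {X : Type} [MetricSpace X]
  {Ω : Type} [Fintype Ω] {W : ℝ} {J : ℕ}

/-- old entries at the node `v` -/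
def tround_A {M : ℕ} (cfg : Fin M → Fin k → List Lab) (v : List Lab) (j : Fin M) : Option Lab → ℕ
  | none => pk (cfg j) v
  | some a => Nn (cfg j) (a :: v)

/-- new column sums at the node `v` -/
def tround_C (Y : List Lab → ℤ) (v : List Lab) : Option Lab → ℕ
  | none => (Y v - ∑ a, Y (a :: v)).toNat
  | some a => (Y (a :: v)).toNat

/-- the top-down recursion -/
def tround_c {M : ℕ} (k : ℕ) (R : List Lab → (Fin M → ℕ) → Fin M → Option Lab → ℕ) :
    List Lab → Fin M → ℕ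
  | [] => fun _ => k
  | a :: v => fun j => R v (tround_c k R v) j (some a)

theorem tround_counts {M : ℕ} (hM : 0 < M) {Y Y' : List Lab → ℤ} {cfg : Fin M → Fin k → List Lab}
    (h : CfgOK J Y cfg) (h' : YOK M k J Y') :
    ∃ c e : List Lab → Fin M → ℕ, (∀ j, c [] j = k) ∧ (∀ v j, c v j = e v j + ∑ a, c (a :: v) j) ∧
      (∀ v, Bal (c v)) ∧ (∀ v, Bal (e v)) ∧ (∀ v, ∑ j, (c v j : ℤ) = Y' v) ∧
      ∀ v, ∑ a, ∑ j, |(Nn (cfg j) (a :: v) : ℤ) - c (a :: v) j| ≤
        ∑ j, |(Nn (cfg j) v : ℤ) - c v j| + 2 * |Y v - Y' v| + 4 * ∑ a, |Y (a :: v) - Y' (a :: v)| := by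
  have hA : ∀ v i, Bal fun j => tround_A cfg v j i := fun v i => by
    cases i with
    | none => exact h.balp v
    | some a => exact h.bal (a :: v)
  have hC0 : ∀ v, (tround_C Y' v none : ℤ) = Y' v - ∑ a, Y' (a :: v) := fun v =>
    Int.toNat_of_nonneg (sub_nonneg.mpr (h'.sub v))
  have hC1 : ∀ v a, (tround_C Y' v (some a) : ℤ) = Y' (a :: v) := fun v a =>
    Int.toNat_of_nonneg (h'.nonneg _)
  have hC : ∀ v, ∑ i, (tround_C Y' v i : ℤ) = Y' v := fun v => by
    rw [Fintype.sum_option, hC0]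
    simp only [hC1]
    ring
  have hR : ∀ (v : List Lab) (ρ : Fin M → ℕ), ∃ a' : Fin M → Option Lab → ℕ,
      Bal ρ → ∑ j, (ρ j : ℤ) = Y' v →
      (∀ i, Bal fun j => a' j i) ∧ (∀ i, ∑ j, a' j i = tround_C Y' v i) ∧
      (∀ j, ∑ i, a' j i = ρ j) ∧ ∑ i, ∑ j, |(tround_A cfg v j i : ℤ) - a' j i| ≤
        2 * ∑ i, |∑ j, (tround_A cfg v j i : ℤ) - tround_C Y' v i| +
          ∑ j, |∑ i, (tround_A cfg v j i : ℤ) - ρ j| := fun v ρ => by
    by_cases hρ : Bal ρ ∧ ∑ j, (ρ j : ℤ) = Y' v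
    · have hs : ∑ j, ρ j = ∑ i, tround_C Y' v i := by
        have := hρ.2.trans (hC v).symm
        exact_mod_cast this
      obtain ⟨a', ha'⟩ := round_one hM (hA v) (tround_C Y' v) hρ.1 hs
      exact ⟨a', fun _ _ => ha'⟩
    · exact ⟨fun _ _ => 0, fun h1 h2 => absurd ⟨h1, h2⟩ hρ⟩
  choose R hR using hR
  have hc : ∀ v, Bal (tround_c k R v) ∧ ∑ j, (tround_c k R v j : ℤ) = Y' v := fun v => by
    induction v with
    | nil =>
      refine ⟨fun j j' => Nat.le_succ _, ?_⟩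
      rw [h'.root]
      simp [tround_c]
    | cons a v ih =>
      obtain ⟨g1, g2, -, -⟩ := hR v _ ih.1 ih.2
      refine ⟨g1 (some a), ?_⟩
      rw [← hC1, ← g2]
      push_cast
      rfl
  refine ⟨tround_c k R, fun v j => R v (tround_c k R v) j none, fun _ => rfl, fun v j => ?_,
    fun v => (hc v).1, fun v => (hR v _ (hc v).1 (hc v).2).1 none, fun v => (hc v).2, fun v => ?_⟩
  · obtain ⟨-, -, g3, -⟩ := hR v _ (hc v).1 (hc v).2
    rw [← g3 j, Fintype.sum_option]
    rfl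
  · obtain ⟨-, -, -, g4⟩ := hR v _ (hc v).1 (hc v).2
    have e1 : ∀ j, ∑ i, (tround_A cfg v j i : ℤ) = Nn (cfg j) v := fun j => by
      rw [Fintype.sum_option, Nn_split (cfg j) v]
      push_cast
      rfl
    have e2 : ∑ j, (tround_A cfg v j none : ℤ) = Y v - ∑ a, Y (a :: v) := h.sum_pk v
    have e3 : ∀ a, ∑ j, (tround_A cfg v j (some a) : ℤ) = Y (a :: v) := fun a => h.sum _
    simp only [e1] at g4
    rw [Fintype.sum_option, Fintype.sum_option, e2, hC0] at g4
    simp only [e3, hC1] at g4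
    have e4 : |Y v - ∑ a, Y (a :: v) - (Y' v - ∑ a, Y' (a :: v))| ≤
        |Y v - Y' v| + ∑ a, |Y (a :: v) - Y' (a :: v)| := by
      have e5 : Y v - ∑ a, Y (a :: v) - (Y' v - ∑ a, Y' (a :: v)) =
          Y v - Y' v - ∑ a, (Y (a :: v) - Y' (a :: v)) := by
        rw [sum_sub_distrib]
        ring
      rw [e5]
      exact (abs_sub _ _).trans (add_le_add le_rfl (abs_sum_le_sum_abs _ _))
    have e6 : 0 ≤ ∑ j, |(tround_A cfg v j none : ℤ) - R v (tround_c k R v) j none| :=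
      sum_nonneg fun _ _ => abs_nonneg _
    have e7 : ∑ a, ∑ j, |(Nn (cfg j) (a :: v) : ℤ) - tround_c k R (a :: v) j| =
        ∑ a, ∑ j, |(tround_A cfg v j (some a) : ℤ) - R v (tround_c k R v) j (some a)| := rfl
    rw [e7]
    linarith

theorem round {M : ℕ} (hM : 0 < M) (hW : 0 < W) {Y Y' : List Lab → ℤ} {cfg : Fin M → Fin k → List Lab}
    (h : CfgOK J Y cfg) (h' : YOK M k J Y') :
    ∃ cfg' : Fin M → Fin k → List Lab, CfgOK J Y' cfg' ∧
      ∑ j, ∑ l, td W J (cfg j l) (cfg' j l) ≤ 10 * TS W J fun v => |((Y v - Y' v : ℤ) : ℝ)| := by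
  obtain ⟨c, e, h0, h1, hc, he, hs, hE⟩ := tround_counts hM h h'
  have h2 : ∀ j v, J < v.length → c v j = 0 := fun j v hv => by
    have h3 := hs v
    rw [h'.deep v hv] at h3
    have h4 : ∑ j, c v j = 0 := by exact_mod_cast h3
    exact sum_eq_zero_iff.mp h4 j (mem_univ _)
  choose cfg' g1 g2 g3 using fun j => transport (c := fun v => c v j) (e := fun v => e v j) hW
    (h.len j) (h0 j) (fun v => h1 v j) (h2 j)
  refine ⟨cfg', ⟨g1, fun v => ?_, fun v j j' => ?_, fun v j j' => ?_⟩, ?_⟩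
  · simp only [g2]
    exact hs v
  · rw [g2, g2]
    exact hc v j j'
  · have h3 : ∀ j, pk (cfg' j) v = e v j := fun j => by
      have h4 := Nn_split (cfg' j) v
      simp only [g2] at h4
      have h5 := h1 v j
      omega
    rw [h3, h3]
    exact he v j j'
  · refine (sum_le_sum fun j _ => g3 j).trans ?_
    rw [← TS_sum]
    set E : List Lab → ℝ := fun v => ∑ j, |(Nn (cfg j) v : ℝ) - c v j| with hEdef
    set D : List Lab → ℝ := fun v => |((Y v - Y' v : ℤ) : ℝ)| with hDdef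
    have hE0 : E [] = 0 := by
      simp only [hEdef, Nn_nil, h0, sub_self, abs_zero, sum_const_zero]
    have hEd : ∀ v, J < v.length → E v = 0 := fun v hv => by
      simp only [hEdef, h2 _ v hv, Nn_deep (h.len _) hv, sub_self, abs_zero, sum_const_zero]
    have hDd : ∀ v, J < v.length → D v = 0 := fun v hv => by
      simp only [hDdef, ← h.sum v, h'.deep v hv, Nn_deep (h.len _) hv]
      simp
    have hD0 : 0 ≤ W * D [] := mul_nonneg hW.le (abs_nonneg _)
    have h3 := TS_child W hEd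
    have h4 := TS_child W hDd
    have h5 : TS W J (fun v => ∑ a, E (a :: v)) ≤
        TS W J fun v => E v + 2 * D v + 4 * ∑ a, D (a :: v) :=
      TS_mono hW fun v _ => by
        simp only [hEdef, hDdef]
        exact_mod_cast hE v
    rw [TS_add, TS_add, TS_mul, TS_mul] at h5
    rw [hE0, mul_zero] at h3
    linarith

theorem exists_cfg {M : ℕ} (hM : 0 < M) {Y : List Lab → ℤ} (h : YOK M k J Y) :
    ∃ cfg : Fin M → Fin k → List Lab, CfgOK J Y cfg := by
  have h0 : CfgOK (M := M) (k := k) J (fun v : List Lab => ∑ _j : Fin M, (Nn (fun _ : Fin k => []) v : ℤ))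
      fun _ _ => [] :=
    ⟨fun _ _ => Nat.zero_le _, fun _ => rfl, fun _ _ _ => Nat.le_succ _, fun _ _ _ => Nat.le_succ _⟩
  obtain ⟨cfg, h1, -⟩ := round hM one_pos h0 h
  exact ⟨cfg, h1⟩

end Vale.Agent.P304
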