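import Vale.Agent.P304.TPar
import Vale.Agent.P304.TTree

/-! P304 TREE: posterior masses and the barrier functional.
Plan. For a random variable `N : Ω → ℕ`, `N ≤ k`, put `q i = ∑ ω, w ω * I1 (N ω < i + 1)` (monotone in `i`), `C = (1 + eta) ^ e ∈ [1, 3]`,
`A = 1 + dl - C * dl ≤ 1`, `g t = A * t - C * ∑ ω, w ω * max (t - N ω) 0` for `t : ℕ`. Then `g (t+1) - g t = A - C * (mass of N ≤ t)`,
so `bar = ∑ i, max (g (i+1) - g i) 0 = g t₀` with `t₀` the number of `i` with a positive increment (increments are antitone), `g t ≤ bar` for `t ≤ k`, and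
`g t ≤ g k` for `t ≥ k`. Superadditivity: `max (∑ t a - N) 0 ≤ ∑ max (t a - N a) 0` when `∑ N a ≤ N`. -/

namespace Vale.Agent.P304

open Finset

variable {Lab : Type} [Fintype Lab] [DecidableEq Lab] {k : ℕ} {X : Type} [MetricSpace X]
  {Ω : Type} [Fintype Ω] {W : ℝ} {J : ℕ}

theorem bar_nonneg (e : ℕ) (q : Fin k → ℝ) : 0 ≤ bar k e q := by
  exact sum_nonneg fun i _ => le_max_right _ _

theorem bar_le {e e' : ℕ} {q q' : Fin k → ℝ}
    (h : ∀ i, (1 + eta k) ^ e' * (q' i + dl k) ≤ (1 + eta k) ^ e * (q i + dl k)) : bar k e q ≤ bar k e' q' := by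
  refine sum_le_sum fun i _ => max_le_max ?_ le_rfl
  linarith [h i]

theorem bar_anti (hk : 2 ≤ k) {e e' : ℕ} (h : e' ≤ e) {q : Fin k → ℝ} (hq : ∀ i, 0 ≤ q i) :
    bar k e q ≤ bar k e' q := by
  refine bar_le fun i => ?_
  have h1 : 1 ≤ 1 + eta k := by linarith [eta_pos hk]
  exact mul_le_mul_of_nonneg_right (pow_le_pow_right₀ h1 h) (by linarith [hq i, dl_pos k])

theorem bar_close (hk : 2 ≤ k) (e : ℕ) {q qh : Fin k → ℝ} (h : ∀ i, Close k (q i) (qh i)) :
    bar k (e + 1) q ≤ bar k e qh ∧ bar k (e + 1) qh ≤ bar k e q := by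
  have h1 : 0 ≤ (1 + eta k) ^ e := pow_nonneg (by linarith [eta_pos hk]) _
  constructor
  · refine bar_le fun i => ?_
    rw [pow_succ, mul_assoc]
    exact mul_le_mul_of_nonneg_left (h i).2 h1
  · refine bar_le fun i => ?_
    rw [pow_succ, mul_assoc]
    exact mul_le_mul_of_nonneg_left (h i).1 h1

theorem bar_lip (hk : 2 ≤ k) {e : ℕ} (he : e ≤ 2 * Sk k) (q q' : Fin k → ℝ) :
    |bar k e q - bar k e q'| ≤ 3 * ∑ i, |q i - q' i| := by
  have h1 : 0 ≤ (1 + eta k) ^ e := pow_nonneg (by linarith [eta_pos hk]) _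
  have h3 := pow_eta_le hk he
  unfold bar
  rw [← sum_sub_distrib, mul_sum]
  refine (abs_sum_le_sum_abs _ _).trans (sum_le_sum fun i _ => ?_)
  refine (abs_max_sub_max_le_abs _ _ _).trans ?_
  have : 1 - ((1 + eta k) ^ e * (q i + dl k) - dl k) - (1 - ((1 + eta k) ^ e * (q' i + dl k) - dl k))
      = -((1 + eta k) ^ e * (q i - q' i)) := by ring
  rw [this, abs_neg, abs_mul, abs_of_nonneg h1]
  exact mul_le_mul_of_nonneg_right h3 (abs_nonneg _)

theorem le_bar (hk : 2 ≤ k) {e : ℕ} (he : e ≤ 2 * Sk k) {q : Fin k → ℝ} {i : Fin k} (h : q i = 0) :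
    1 - 2 * dl k ≤ bar k e q := by
  have h3 := pow_eta_le hk he
  have h2 : max (1 - ((1 + eta k) ^ e * (q i + dl k) - dl k)) 0 ≤ bar k e q :=
    single_le_sum (f := fun i => max (1 - ((1 + eta k) ^ e * (q i + dl k) - dl k)) 0)
      (fun j _ => le_max_right _ _) (mem_univ i)
  refine le_trans ?_ ((le_max_left _ _).trans h2)
  rw [h, zero_add]
  nlinarith [dl_pos k]

theorem nuOK {w : Ω → ℝ} (h0 : ∀ ω, 0 ≤ w ω) (h1 : ∑ ω, w ω = 1) {P : Ω → Fin k → List Lab}
    (h : ∀ ω l, (P ω l).length ≤ J) : NuOK k J (nu w P) := by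
  refine ⟨?_, fun v => ?_, fun v => ?_, fun v hv => ?_⟩
  · simp only [nu, Nn_nil]
    rw [← sum_mul, h1, one_mul]
  · exact sum_nonneg fun ω _ => mul_nonneg (h0 ω) (Nat.cast_nonneg _)
  · simp only [nu]
    rw [sum_comm]
    refine sum_le_sum fun ω _ => ?_
    rw [← mul_sum]
    refine mul_le_mul_of_nonneg_left ?_ (h0 ω)
    have := Nn_split (P ω) v
    have h2 : ∑ a, Nn (P ω) (a :: v) ≤ Nn (P ω) v := by omega
    exact_mod_cast h2
  · refine sum_eq_zero fun ω _ => ?_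
    rw [Nn_deep (h ω) hv]
    simp

theorem tbar_range (N t : ℕ) : ∑ j ∈ range t, I1 (N < j + 1) = max ((t : ℝ) - N) 0 := by
  induction t with
  | zero => simp
  | succ t ih =>
    rw [sum_range_succ, ih]
    by_cases h : N < t + 1
    · have h2 : (N : ℝ) ≤ t := by exact_mod_cast Nat.lt_succ_iff.1 h
      rw [I1_of h, max_eq_left (by linarith), max_eq_left (by push_cast; linarith)]
      push_cast; ring
    · have h2 : (t : ℝ) + 1 ≤ N := by exact_mod_cast Nat.not_lt.1 h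
      rw [I1_of_not h, max_eq_right (by linarith), max_eq_right (by push_cast; linarith)]
      ring

theorem tbar_sub (N : ℕ) (S : Finset (Fin k)) :
    max ((S.card : ℝ) - N) 0 ≤ ∑ i ∈ S, I1 (N < (i : ℕ) + 1) := by
  refine max_le ?_ (sum_nonneg fun i _ => I1_nonneg _)
  have h1 : ∑ i ∈ S, I1 (N < (i : ℕ) + 1) = ((S.filter fun i : Fin k => N < (i : ℕ) + 1).card : ℝ) := by
    simp_rw [I1_eq]
    rw [sum_boole]
  have h2 : (S.filter fun i : Fin k => ¬N < (i : ℕ) + 1).card ≤ N := by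
    calc (S.filter fun i : Fin k => ¬N < (i : ℕ) + 1).card ≤ (range N).card := by
          refine card_le_card_of_injOn (fun i => (i : ℕ)) (fun i hi => ?_) fun i _ j _ hij => Fin.ext hij
          have := (mem_filter.1 (mem_coe.1 hi)).2
          simp only [coe_range, Set.mem_Iio]
          omega
      _ = N := card_range N
  have h3 := card_filter_add_card_filter_not (s := S) (fun i : Fin k => N < (i : ℕ) + 1)
  rw [h1]
  have h4 : S.card ≤ (S.filter fun i : Fin k => N < (i : ℕ) + 1).card + N := by omega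
  have h5 : (S.card : ℝ) ≤ ((S.filter fun i : Fin k => N < (i : ℕ) + 1).card : ℝ) + N := by exact_mod_cast h4
  linarith

theorem tbar_up (hk : 2 ≤ k) (e : ℕ) {w : Ω → ℝ} (h0 : ∀ ω, 0 ≤ w ω) (N : Ω → ℕ) :
    ∃ t : ℕ, bar k e (fun i => ∑ ω, w ω * I1 (N ω < (i : ℕ) + 1)) ≤
      (1 + dl k - (1 + eta k) ^ e * dl k) * t - (1 + eta k) ^ e * ∑ ω, w ω * max ((t : ℝ) - N ω) 0 := by
  have hC : 0 ≤ (1 + eta k) ^ e := pow_nonneg (by linarith [eta_pos hk]) _
  set C := (1 + eta k) ^ e with hCd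
  set q : Fin k → ℝ := fun i => ∑ ω, w ω * I1 (N ω < (i : ℕ) + 1) with hq
  set S : Finset (Fin k) := univ.filter fun i => 0 ≤ 1 - (C * (q i + dl k) - dl k) with hS
  refine ⟨S.card, ?_⟩
  have h1 : bar k e q = ∑ i ∈ S, (1 - (C * (q i + dl k) - dl k)) := by
    rw [hS, sum_filter]
    refine sum_congr rfl fun i _ => ?_
    split_ifs with h
    · exact max_eq_left h
    · exact max_eq_right (le_of_lt (not_le.1 h))
  have h2 : ∑ i ∈ S, (1 - (C * (q i + dl k) - dl k)) = (1 + dl k - C * dl k) * S.card - C * ∑ i ∈ S, q i := by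
    rw [mul_sum, mul_comm _ (S.card : ℝ), ← nsmul_eq_mul, ← sum_const, ← sum_sub_distrib]
    exact sum_congr rfl fun i _ => by ring
  have h3 : ∑ ω, w ω * max ((S.card : ℝ) - N ω) 0 ≤ ∑ i ∈ S, q i := by
    simp only [hq]
    rw [sum_comm]
    refine sum_le_sum fun ω _ => ?_
    rw [← mul_sum]
    exact mul_le_mul_of_nonneg_left (tbar_sub _ _) (h0 ω)
  rw [h1, h2]
  have := mul_le_mul_of_nonneg_left h3 hC
  linarith

theorem tbar_low (hk : 2 ≤ k) (e : ℕ) {w : Ω → ℝ} (h1 : ∑ ω, w ω = 1) {N : Ω → ℕ} (hN : ∀ ω, N ω ≤ k)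
    (t : ℕ) :
    (1 + dl k - (1 + eta k) ^ e * dl k) * t - (1 + eta k) ^ e * ∑ ω, w ω * max ((t : ℝ) - N ω) 0 ≤
      bar k e (fun i => ∑ ω, w ω * I1 (N ω < (i : ℕ) + 1)) := by
  have hC : 1 ≤ (1 + eta k) ^ e := one_le_pow₀ (by linarith [eta_pos hk])
  set C := (1 + eta k) ^ e with hCd
  set f : ℕ → ℝ := fun j => 1 - (C * ((∑ ω, w ω * I1 (N ω < j + 1)) + dl k) - dl k) with hf
  have h2 : (1 + dl k - C * dl k) * t - C * ∑ ω, w ω * max ((t : ℝ) - N ω) 0 = ∑ j ∈ range t, f j := by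
    have : ∑ ω, w ω * max ((t : ℝ) - N ω) 0 = ∑ j ∈ range t, ∑ ω, w ω * I1 (N ω < j + 1) := by
      rw [sum_comm]
      refine sum_congr rfl fun ω _ => ?_
      rw [← mul_sum, tbar_range]
    rw [this, mul_sum]
    conv_lhs => rw [← card_range t]
    rw [mul_comm _ (((range t).card : ℕ) : ℝ), ← nsmul_eq_mul, ← sum_const, card_range, ← sum_sub_distrib]
    exact sum_congr rfl fun j _ => by simp only [hf]; ring
  have h3 : bar k e (fun i => ∑ ω, w ω * I1 (N ω < (i : ℕ) + 1)) = ∑ j ∈ range k, max (f j) 0 :=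
    (Fin.sum_univ_eq_sum_range (fun j => max (f j) 0) k)
  have h4 : ∀ j, k ≤ j → max (f j) 0 = 0 := by
    intro j hj
    refine max_eq_right ?_
    have : ∑ ω, w ω * I1 (N ω < j + 1) = 1 := by
      rw [← h1]
      refine sum_congr rfl fun ω _ => ?_
      rw [I1_of (by have := hN ω; omega), mul_one]
    simp only [hf, this]
    nlinarith [dl_pos k]
  rw [h2, h3]
  calc ∑ j ∈ range t, f j ≤ ∑ j ∈ range t, max (f j) 0 := sum_le_sum fun j _ => le_max_left _ _
    _ ≤ ∑ j ∈ range (t + k), max (f j) 0 :=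
      sum_le_sum_of_subset_of_nonneg (range_subset_range.2 (by omega)) fun j _ _ => le_max_right _ _
    _ = ∑ j ∈ range k, max (f j) 0 := by
      symm
      refine sum_subset (range_subset_range.2 (by omega)) fun j _ hj => h4 j ?_
      simpa using hj

theorem barOK (hk : 2 ≤ k) {w : Ω → ℝ} (h0 : ∀ ω, 0 ≤ w ω) (h1 : ∑ ω, w ω = 1)
    (P : Ω → Fin k → List Lab) : BarOK (nu w P) (qq w P) := by
  have hle : ∀ v i, qq w P v i ≤ 1 := by
    intro v i
    rw [← h1]
    exact sum_le_sum fun ω _ => mul_le_of_le_one_right (h0 ω) (I1_le_one _)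
  have hge : ∀ v i, 0 ≤ qq w P v i := fun v i =>
    sum_nonneg fun ω _ => mul_nonneg (h0 ω) (I1_nonneg _)
  refine ⟨hge, hle, fun e _ v => ?_, fun e v => ?_⟩
  · have hC : 0 ≤ (1 + eta k) ^ e := pow_nonneg (by linarith [eta_pos hk]) _
    choose t ht using fun a : Lab => tbar_up hk e h0 (fun ω => Nn (P ω) (a :: v))
    have hl := tbar_low hk e h1 (N := fun ω => Nn (P ω) v) (fun ω => Nn_le _ _) (∑ a, t a)
    refine le_trans (sum_le_sum fun a _ => ht a) (le_trans ?_ hl)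
    rw [sum_sub_distrib, ← mul_sum, ← mul_sum, Nat.cast_sum]
    refine sub_le_sub le_rfl (mul_le_mul_of_nonneg_left ?_ hC)
    rw [sum_comm]
    refine sum_le_sum fun ω _ => ?_
    rw [← mul_sum]
    refine mul_le_mul_of_nonneg_left ?_ (h0 ω)
    refine max_le ?_ (sum_nonneg fun a _ => le_max_right _ _)
    have := Nn_split (P ω) v
    have h2 : ∑ a, Nn (P ω) (a :: v) ≤ Nn (P ω) v := by omega
    have h3 : ∑ a, (Nn (P ω) (a :: v) : ℝ) ≤ Nn (P ω) v := by exact_mod_cast h2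
    calc ∑ a, (t a : ℝ) - Nn (P ω) v ≤ ∑ a, ((t a : ℝ) - Nn (P ω) (a :: v)) := by
          rw [sum_sub_distrib]; linarith
      _ ≤ _ := sum_le_sum fun a _ => le_max_left _ _
  · have hC : 1 ≤ (1 + eta k) ^ e := one_le_pow₀ (by linarith [eta_pos hk])
    calc bar k e (qq w P v) ≤ ∑ i, (1 - qq w P v i) := by
          refine sum_le_sum fun i _ => max_le ?_ (by linarith [hle v i])
          nlinarith [hge v i, dl_pos k]
      _ = nu w P v := by
          have h2 : ∑ i, qq w P v i = ∑ ω, w ω * ((k : ℝ) - Nn (P ω) v) := by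
            simp only [qq, bb]
            rw [sum_comm]
            refine sum_congr rfl fun ω _ => ?_
            rw [← mul_sum, Fin.sum_univ_eq_sum_range (fun j => I1 (Nn (P ω) v < j + 1)) k, tbar_range,
              max_eq_left]
            have : (Nn (P ω) v : ℝ) ≤ k := by exact_mod_cast Nn_le (P ω) v
            linarith
          rw [sum_sub_distrib, h2]
          simp only [mul_sub, sum_sub_distrib, ← sum_mul, h1, nu]
          simp

theorem Snap.nuOK {A : Pic Ω Lab X k} (h : Snap W J A) : NuOK k J (nu A.w A.P) := by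
  exact P304.nuOK h.nonneg h.sum h.len

theorem Snap.barOK (hk : 2 ≤ k) {A : Pic Ω Lab X k} (h : Snap W J A) : BarOK (nu A.w A.P) (qq A.w A.P) := by
  exact P304.barOK hk h.nonneg h.sum A.P

theorem Snap.exists_mem {A : Pic Ω Lab X k} (h : Snap W J A) {v : List Lab} (hv : 0 < nu A.w A.P v) :
    ∃ y, A.Mem v y := by
  by_contra hn
  refine absurd hv (not_lt.2 (le_of_eq (sum_eq_zero fun ω _ => ?_)))
  rcases (h.nonneg ω).eq_or_lt with h0 | h0
  · rw [← h0, zero_mul]
  · rcases Nat.eq_zero_or_pos (Nn (A.P ω) v) with h2 | h2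
    · rw [h2]; simp
    · obtain ⟨l, hl⟩ := Nn_pos.1 h2
      exact absurd ⟨A.x ω l, ω, l, h0, hl, rfl⟩ hn

/-- a surely occupied node -/
theorem Snap.occupied (hk : 2 ≤ k) {A : Pic Ω Lab X k} (h : Snap W J A) {v : List Lab}
    (hv : ∀ ω, 0 < A.w ω → ∃ l, v <:+ A.P ω l) :
    1 ≤ nu A.w A.P v ∧ qq A.w A.P v ⟨0, by omega⟩ = 0 := by
  constructor
  · rw [← h.sum]
    refine sum_le_sum fun ω _ => ?_
    rcases (h.nonneg ω).eq_or_lt with h0 | h0
    · rw [← h0, zero_mul]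
    · have h2 : 1 ≤ Nn (A.P ω) v := Nn_pos.2 (hv ω h0)
      exact le_mul_of_one_le_right h0.le (by exact_mod_cast h2)
  · refine sum_eq_zero fun ω _ => ?_
    rcases (h.nonneg ω).eq_or_lt with h0 | h0
    · rw [← h0, zero_mul]
    · have h2 : 0 < Nn (A.P ω) v := Nn_pos.2 (hv ω h0)
      rw [bb, I1_of_not (by simp only; omega), mul_zero]

end Vale.Agent.P304
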