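import Vale.Agent.P304.FSBasic

/-! P304, part TREE: definitions (see notes/P304.md, section TREE, and notes/P304_TREE.md). -/

namespace Vale.Agent.P304

open Finset

noncomputable def Sk (k : ℕ) : ℕ := ⌈4 * Lk k⌉₊
noncomputable def eta (k : ℕ) : ℝ := 1 / (2 * Sk k)
noncomputable def dl (k : ℕ) : ℝ := 1 / (4 * k + 2)
noncomputable def th (m : ℕ) : ℝ := (7 / 6) ^ m / 2
noncomputable def Mm (k : ℕ) : ℕ := 4 * Sk k * (4 * k + 2)

/-- real indicator of a proposition -/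
noncomputable def I1 (P : Prop) : ℝ := open Classical in if P then 1 else 0

variable {Lab : Type} [Fintype Lab] [DecidableEq Lab] {k : ℕ} {X : Type} [MetricSpace X]
  {Ω : Type} [Fintype Ω]

/-- nodes of depth at most `J` -/
def allN (Lab : Type) [Fintype Lab] [DecidableEq Lab] (J : ℕ) : Finset (List Lab) :=
  (range (J + 1)).biUnion (nodes Lab)

/-- weighted sum over the nodes of depth at most `J` -/
noncomputable def TS (W : ℝ) (J : ℕ) (f : List Lab → ℝ) : ℝ := ∑ v ∈ allN Lab J, wt W v.length * f v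

/-- number of servers in the subtree of `v` -/
def Nn (p : Fin k → List Lab) (v : List Lab) : ℕ := (univ.filter fun l => v <:+ p l).card

/-- number of servers parked exactly at `v` -/
def pk (p : Fin k → List Lab) (v : List Lab) : ℕ := (univ.filter fun l => p l = v).card

noncomputable def bb (p : Fin k → List Lab) (v : List Lab) (i : Fin k) : ℝ := I1 (Nn p v < i + 1)

noncomputable def nu (w : Ω → ℝ) (P : Ω → Fin k → List Lab) (v : List Lab) : ℝ := ∑ ω, w ω * Nn (P ω) v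

noncomputable def qq (w : Ω → ℝ) (P : Ω → Fin k → List Lab) (v : List Lab) (i : Fin k) : ℝ :=
  ∑ ω, w ω * bb (P ω) v i

/-- effective rank: the minimum of the ranks on the path from the root -/
def er (rk : List Lab → ℕ) : List Lab → ℕ
  | [] => rk []
  | a :: v => min (er rk v) (rk (a :: v))

def Heavy (rk : List Lab → ℕ) (a : Lab) (v : List Lab) : Prop := 0 < er rk v ∧ er rk v ≤ rk (a :: v)
def Light (rk : List Lab → ℕ) (a : Lab) (v : List Lab) : Prop := 0 < rk (a :: v) ∧ rk (a :: v) < er rk v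
def Flag (rk : List Lab → ℕ) (v : List Lab) : Prop := 0 < er rk v ∧ ∀ a, ¬Heavy rk a v

/-- barrier functional -/
noncomputable def bar (k e : ℕ) (q : Fin k → ℝ) : ℝ :=
  ∑ i, max (1 - ((1 + eta k) ^ e * (q i + dl k) - dl k)) 0

noncomputable def sig (x : ℝ) : ℝ := ⌊x⌋ + max 0 (2 * Int.fract x - 1)

noncomputable def fl (k : ℕ) (x : ℝ) : ℤ := ⌊(Mm k : ℝ) * sig (x * (2 * k + 1) / (2 * k))⌋

open Classical in
noncomputable def mu (qh : List Lab → Fin k → ℝ) (rk : List Lab → ℕ) (a : Lab) (v : List Lab) : ℝ :=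
  if Light rk a v then bar k (2 * (Sk k - rk (a :: v)) - 1) (qh (a :: v)) else 0

open Classical in
/-- number of particle servers in the subtree of a node -/
noncomputable def YY (qh : List Lab → Fin k → ℝ) (rk : List Lab → ℕ) : List Lab → ℤ
  | [] => Mm k * k
  | a :: v => if Heavy rk a v then YY qh rk v - ∑ b ∈ univ.erase a, fl k (mu qh rk b v)
      else fl k (mu qh rk a v)

structure NuOK (k J : ℕ) (ν : List Lab → ℝ) : Prop where
  root : ν [] = k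
  nonneg : ∀ v, 0 ≤ ν v
  sub : ∀ v, ∑ a, ν (a :: v) ≤ ν v
  deep : ∀ v, J < v.length → ν v = 0

/-- the rank `r` is valid for the mass `x` -/
def RkV (x : ℝ) (r : ℕ) : Prop := x < th (2 * r + 4) ∧ (1 ≤ r → th (2 * r) ≤ x)

/-- the reference mass `y` is valid for the rank `r` -/
def NhV (k : ℕ) (r : ℕ) (y : ℝ) : Prop :=
  0 ≤ y ∧ y ≤ k ∧ y < th (2 * r + 3) ∧ (1 ≤ r → th (2 * r + 1) ≤ y)

def Close (k : ℕ) (a b : ℝ) : Prop :=
  a + dl k ≤ (1 + eta k) * (b + dl k) ∧ b + dl k ≤ (1 + eta k) * (a + dl k)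

def QhOK (q qh : List Lab → Fin k → ℝ) : Prop :=
  ∀ v i, Close k (q v i) (qh v i) ∧ 0 ≤ qh v i ∧ qh v i ≤ 1

structure BarOK (ν : List Lab → ℝ) (q : List Lab → Fin k → ℝ) : Prop where
  nonneg : ∀ v i, 0 ≤ q v i
  le_one : ∀ v i, q v i ≤ 1
  sup : ∀ e ≤ 2 * Sk k, ∀ v, ∑ a, bar k e (q (a :: v)) ≤ bar k e (q v)
  le_nu : ∀ e v, bar k e (q v) ≤ ν v

structure YOK (M k J : ℕ) (Y : List Lab → ℤ) : Prop where
  root : Y [] = M * k
  nonneg : ∀ v, 0 ≤ Y v
  sub : ∀ v, ∑ a, Y (a :: v) ≤ Y v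
  deep : ∀ v, J < v.length → Y v = 0

structure CfgOK {M : ℕ} (J : ℕ) (Y : List Lab → ℤ) (cfg : Fin M → Fin k → List Lab) : Prop where
  len : ∀ j l, (cfg j l).length ≤ J
  sum : ∀ v, ∑ j, (Nn (cfg j) v : ℤ) = Y v
  bal : ∀ v j j', Nn (cfg j) v ≤ Nn (cfg j') v + 1
  balp : ∀ v j j', pk (cfg j) v ≤ pk (cfg j') v + 1

structure St (Lab X : Type) (k : ℕ) where
  qh : List Lab → Fin k → ℝ
  rk : List Lab → ℕ
  nh : List Lab → ℝ
  an : List Lab → X
  cfg : Fin (Mm k) → Fin k → List Lab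

/-- what is known at one time: posterior weights, tree positions and physical positions -/
structure Pic (Ω Lab X : Type) (k : ℕ) where
  w : Ω → ℝ
  P : Ω → Fin k → List Lab
  x : Ω → Fin k → X

/-- `y` is the position of a possible member of the subtree of `v` -/
def Pic.Mem (A : Pic Ω Lab X k) (v : List Lab) (y : X) : Prop :=
  ∃ ω l, 0 < A.w ω ∧ v <:+ A.P ω l ∧ A.x ω l = y

structure Snap (W : ℝ) (J : ℕ) (A : Pic Ω Lab X k) : Prop where
  nonneg : ∀ ω, 0 ≤ A.w ω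
  sum : ∑ ω, A.w ω = 1
  len : ∀ ω l, (A.P ω l).length ≤ J
  geo : ∀ v y y', A.Mem v y → A.Mem v y' → dist y y' ≤ 6 * wt W v.length

structure Move (W : ℝ) (A A' : Pic Ω Lab X k) : Prop where
  supp : ∀ ω, 0 < A'.w ω → 0 < A.w ω
  dir : (∀ ω l, A'.P ω l <:+ A.P ω l ∧ dist (A.x ω l) (A'.x ω l) ≤ wt W (A'.P ω l).length) ∨
    (A'.w = A.w ∧ ∀ ω l, A.P ω l <:+ A'.P ω l ∧ A'.x ω l = A.x ω l)

structure Valid (W : ℝ) (J : ℕ) (A : Pic Ω Lab X k) (S : St Lab X k) : Prop where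
  q : QhOK (qq A.w A.P) S.qh
  r : ∀ v, RkV (nu A.w A.P v) (S.rk v)
  n : ∀ v, NhV k (S.rk v) (S.nh v)
  a : ∀ v y, Flag S.rk v → A.Mem v y → dist (S.an v) y ≤ 24 * wt W v.length
  c : CfgOK J (YY S.qh S.rk) S.cfg

structure Upd (W : ℝ) (J : ℕ) (A' : Pic Ω Lab X k) (S S' : St Lab X k) : Prop where
  q : ∀ v i, S'.qh v i = S.qh v i ∨
    (S'.qh v i = qq A'.w A'.P v i ∧ ¬Close k (qq A'.w A'.P v i) (S.qh v i))
  r : ∀ v, (S'.rk v = S.rk v ∧ S'.nh v = S.nh v) ∨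
    (S'.nh v = nu A'.w A'.P v ∧ ¬RkV (nu A'.w A'.P v) (S.rk v))
  a : ∀ v, Flag S'.rk v → (Flag S.rk v ∧ S'.an v = S.an v) ∨ (A'.Mem v (S'.an v) ∧
    (Flag S.rk v → ∃ y, A'.Mem v y ∧ 24 * wt W v.length < dist (S.an v) y))
  c : ∑ j, ∑ l, td W J (S.cfg j l) (S'.cfg j l) ≤
    10 * TS W J fun v => |((YY S.qh S.rk v - YY S'.qh S'.rk v : ℤ) : ℝ)|

/-- all hypotheses of one step -/
structure Step (W : ℝ) (J : ℕ) (A A' : Pic Ω Lab X k) (S S' : St Lab X k) : Prop where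
  hk : 2 ≤ k
  hW : 0 < W
  s : Snap W J A
  s' : Snap W J A'
  m : Move W A A'
  v : Valid W J A S
  v' : Valid W J A' S'
  u : Upd W J A' S S'

noncomputable def DQ (W : ℝ) (J : ℕ) (S S' : St Lab X k) : ℝ :=
  TS W J fun v => ∑ i, |S.qh v i - S'.qh v i|

noncomputable def DZ (W : ℝ) (J : ℕ) (A A' : Pic Ω Lab X k) (S S' : St Lab X k) : ℝ :=
  TS W J fun v => I1 (S.rk v ≠ S'.rk v) * (nu A.w A.P v + nu A'.w A'.P v)

noncomputable def DA (J : ℕ) (A' : Pic Ω Lab X k) (S S' : St Lab X k) : ℝ :=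
  ∑ v ∈ allN Lab J, I1 (Flag S.rk v ∧ Flag S'.rk v) * (nu A'.w A'.P v * dist (S.an v) (S'.an v))

noncomputable def tht (yh y : ℝ) : ℝ := yh - y - y * Real.log yh

noncomputable def phq (k : ℕ) (qh b : ℝ) : ℝ :=
  tht (qh + dl k) (b + dl k) - (b * tht (1 + dl k) (1 + dl k) + (1 - b) * tht (dl k) (dl k))

noncomputable def phr (k : ℕ) (nh N : ℝ) : ℝ :=
  tht (nh + 1) (N + 1) + N * ((k + 1) * Real.log (k + 1) / k)

noncomputable def PhiQ (W : ℝ) (J : ℕ) (S : St Lab X k) (p : Fin k → List Lab) : ℝ :=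
  TS W J fun v => ∑ i, phq k (S.qh v i) (bb p v i)

noncomputable def PhiR (W : ℝ) (J : ℕ) (S : St Lab X k) (p : Fin k → List Lab) : ℝ :=
  TS W J fun v => phr k (S.nh v) (Nn p v)

noncomputable def PhiA (J : ℕ) (S : St Lab X k) (p : Fin k → List Lab) (x : Fin k → X) : ℝ :=
  ∑ v ∈ allN Lab J, I1 (Flag S.rk v) * ∑ l, I1 (v <:+ p l) * dist (x l) (S.an v)

end Vale.Agent.P304
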