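import Vale.Agent.P304.TY

/-! P304 TREE: movement of the integer masses.
Plan. Let `d c = |YY c - YY' c|`, `H a v := Heavy rk a v ∧ Heavy rk' a v`, `e c = 8 Mm ∑ i |Δqh c i| + 3 Mm I1 (dirty c) (ν c + ν' c)`, dirty: some suffix changed its rank.
`move_rest`: if `¬H a v` then `d (a :: v) ≤ e (a :: v)`: dirty: `YH.le_nu`; clean: `er_congr`, same status, not heavy, `mu` uses the same exponent; if `qh = qh'` on this node `d = 0`,
otherwise `fl_lip`, `bar_lip` and `1 ≤ Mm / 2 * |Δqh|` (`Mm_mul`). If `H a v` then the siblings are not heavy in either state, `d (a :: v) ≤ d v + ∑ siblings d`.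
So `∑ a, d (a :: v) ≤ d v + 2 ∑ a, e (a :: v)`; `TS_child` for `d` and `e` (both vanish below depth `J` after cutting `e` by `I1 (length ≤ J)`, or use `TS_succ`) gives
`TS d ≤ TS d / 2 + 2 TS e`; finish with `dirty_le`. -/

namespace Vale.Agent.P304

open Finset

variable {Lab : Type} [Fintype Lab] [DecidableEq Lab] {k : ℕ} {X : Type} [MetricSpace X]
  {Ω : Type} [Fintype Ω] {W : ℝ} {J : ℕ}

theorem tmove_rest {ν ν' : List Lab → ℝ} {q q' qh qh' : List Lab → Fin k → ℝ} {rk rk' : List Lab → ℕ}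
    (h : YH k J ν q qh rk) (h' : YH k J ν' q' qh' rk')
    (hq : ∀ v i, qh' v i = qh v i ∨ eta k * dl k ≤ |qh v i - qh' v i|) {a : Lab} {v : List Lab}
    (hh : ¬(Heavy rk a v ∧ Heavy rk' a v)) :
    |((YY qh rk (a :: v) - YY qh' rk' (a :: v) : ℤ) : ℝ)| ≤ 8 * Mm k * ∑ i, |qh (a :: v) i - qh' (a :: v) i| +
      3 * Mm k * (I1 (∃ z, z <:+ a :: v ∧ rk z ≠ rk' z) * (ν (a :: v) + ν' (a :: v))) := by
  have hM : (0 : ℝ) ≤ Mm k := Nat.cast_nonneg _
  have s0 : 0 ≤ ∑ i, |qh (a :: v) i - qh' (a :: v) i| := by positivity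
  by_cases d : ∃ z, z <:+ a :: v ∧ rk z ≠ rk' z
  · have y1 : (0 : ℝ) ≤ YY qh rk (a :: v) := by exact_mod_cast h.yOK.nonneg _
    have y2 : (0 : ℝ) ≤ YY qh' rk' (a :: v) := by exact_mod_cast h'.yOK.nonneg _
    have := mul_nonneg hM s0
    rw [I1_of d, Int.cast_sub, abs_le]
    constructor <;> linarith [h.le_nu (a :: v), h'.le_nu (a :: v)]
  rw [I1_of_not d, zero_mul, mul_zero, add_zero]
  have c : ∀ u, u <:+ a :: v → rk u = rk' u := fun u hu => by
    by_contra k
    exact d ⟨u, hu, k⟩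
  have e1 := c _ List.suffix_rfl
  have e2 : er rk v = er rk' v := er_congr fun u hu => c u (hu.trans (List.suffix_cons a v))
  have e3 : Heavy rk a v ↔ Heavy rk' a v := by rw [Heavy, Heavy, e1, e2]
  have e4 : Light rk a v ↔ Light rk' a v := by rw [Light, Light, e1, e2]
  rw [YY_not_heavy fun k => hh ⟨k, e3.1 k⟩, YY_not_heavy fun k => hh ⟨e3.2 k, k⟩]
  by_cases l : Light rk a v
  swap
  · rw [mu, mu, if_neg l, if_neg fun k => l (e4.2 k), sub_self, Int.cast_zero, abs_zero]
    positivity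
  rw [mu, mu, if_pos l, if_pos (e4.1 l), ← e1]
  by_cases z : qh' (a :: v) = qh (a :: v)
  · rw [z, sub_self, Int.cast_zero, abs_zero]
    positivity
  obtain ⟨i, hi⟩ := Function.ne_iff.1 z
  have b1 := ((hq _ i).resolve_left hi).trans
    (single_le_sum (f := fun i => |qh (a :: v) i - qh' (a :: v) i|) (fun _ _ => abs_nonneg _) (mem_univ i))
  have b2 := mul_le_mul_of_nonneg_left b1 hM
  rw [Mm_mul h.hk] at b2
  have b3 := mul_le_mul_of_nonneg_left (bar_lip h.hk (e := 2 * (Sk k - rk (a :: v)) - 1) (by omega)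
    (qh (a :: v)) (qh' (a :: v))) hM
  refine (fl_lip h.hk _ _).trans ?_
  linarith

theorem move_Y {ν ν' : List Lab → ℝ} {q q' qh qh' : List Lab → Fin k → ℝ} {rk rk' : List Lab → ℕ}
    (hW : 0 < W) (h : YH k J ν q qh rk) (h' : YH k J ν' q' qh' rk')
    (hq : ∀ v i, qh' v i = qh v i ∨ eta k * dl k ≤ |qh v i - qh' v i|) :
    TS W J (fun v => |((YY qh rk v - YY qh' rk' v : ℤ) : ℝ)|) ≤
      Mm k * (32 * TS W J (fun v => ∑ i, |qh v i - qh' v i|) +
        24 * TS W J fun v => I1 (rk v ≠ rk' v) * (ν v + ν' v)) := by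
  have hM : (0 : ℝ) ≤ Mm k := Nat.cast_nonneg _
  set d : List Lab → ℝ := fun v => |((YY qh rk v - YY qh' rk' v : ℤ) : ℝ)| with hd
  set e : List Lab → ℝ := fun v => 8 * Mm k * ∑ i, |qh v i - qh' v i| +
    3 * Mm k * (I1 (∃ z, z <:+ v ∧ rk z ≠ rk' z) * (ν v + ν' v)) with he
  have n0 : ∀ v, 0 ≤ ν v + ν' v := fun v => add_nonneg (h.n.nonneg v) (h'.n.nonneg v)
  have d0 : ∀ v, 0 ≤ d v := fun v => abs_nonneg _
  have e0 : ∀ v, 0 ≤ e v := fun v => add_nonneg (by positivity)
    (mul_nonneg (by positivity) (mul_nonneg (I1_nonneg _) (n0 v)))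
  have step : ∀ v, ∑ a, d (a :: v) ≤ d v + 2 * ∑ a, e (a :: v) := by
    intro v
    have s0 : 0 ≤ ∑ a, e (a :: v) := sum_nonneg fun a _ => e0 _
    by_cases c : ∃ a, Heavy rk a v ∧ Heavy rk' a v
    · obtain ⟨a, ha, ha'⟩ := c
      have nb : ∀ b ∈ univ.erase a, ¬Heavy rk b v := fun b hb k =>
        (mem_erase.1 hb).1 (heavy_unique h.n h.r k ha)
      have nb' : ∀ b ∈ univ.erase a, ¬Heavy rk' b v := fun b hb k =>
        (mem_erase.1 hb).1 (heavy_unique h'.n h'.r k ha')
      have s1 : ∑ b ∈ univ.erase a, d (b :: v) ≤ ∑ b, e (b :: v) :=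
        (sum_le_sum fun b hb => tmove_rest h h' hq fun k => nb b hb k.1).trans
          (sum_le_sum_of_subset_of_nonneg (erase_subset _ _) fun b _ _ => e0 _)
      have s2 : d (a :: v) ≤ d v + ∑ b ∈ univ.erase a, d (b :: v) := by
        have : YY qh rk (a :: v) - YY qh' rk' (a :: v) = (YY qh rk v - YY qh' rk' v) -
            ∑ b ∈ univ.erase a, (YY qh rk (b :: v) - YY qh' rk' (b :: v)) := by
          rw [YY_heavy ha, YY_heavy ha', sum_sub_distrib, sum_congr rfl fun b hb => YY_not_heavy (nb b hb),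
            sum_congr rfl fun b hb => YY_not_heavy (nb' b hb)]
          ring
        simp only [hd]
        rw [this, Int.cast_sub, Int.cast_sum]
        exact (abs_sub _ _).trans (add_le_add le_rfl (abs_sum_le_sum_abs _ _))
      rw [← add_sum_erase _ _ (mem_univ a)]
      linarith
    · have := sum_le_sum fun a (_ : a ∈ univ) => tmove_rest h h' hq (a := a) (v := v) fun k => c ⟨a, k⟩
      linarith [d0 v]
  have root : d [] = 0 := by simp [hd, YY]
  have main : TS W J d ≤ 4 * TS W J e := by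
    cases J with
    | zero =>
      have := TS_mono (J := 0) hW (f := d) (g := fun v => 4 * e v) fun v hv => by
        rw [List.length_eq_zero_iff.1 (Nat.le_zero.1 hv), root]
        linarith [e0 []]
      rwa [TS_mul] at this
    | succ J =>
      have a1 := TS_succ W J d
      have a2 := TS_succ W J e
      have a3 := TS_mono (J := J) hW fun v _ => step v
      rw [TS_add, TS_mul] at a3
      have a4 := TS_le_succ (J := J) hW d0
      have a5 := mul_nonneg hW.le (e0 [])
      rw [root] at a1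
      linarith
  have fin := dirty_le (J := J) hW n0 (fun v => by
    rw [sum_add_distrib]
    exact add_le_add (h.n.sub v) (h'.n.sub v)) fun z => rk z ≠ rk' z
  rw [he, TS_add, TS_mul, TS_mul] at main
  nlinarith [mul_le_mul_of_nonneg_left fin hM]

theorem Step.move_le {A A' : Pic Ω Lab X k} {S S' : St Lab X k} (h : Step W J A A' S S') :
    ∑ j, ∑ l, td W J (S.cfg j l) (S'.cfg j l) ≤ Mm k * (320 * DQ W J S S' + 240 * DZ W J A A' S S') := by
  have := move_Y h.hW (h.v.yh h.hk h.s) (h.v'.yh h.hk h.s') fun v i => (h.u.q v i).imp id fun c => by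
    rw [c.1]
    exact not_close h.hk ((h.s'.barOK h.hk).nonneg v i) (h.v.q v i).2.1 c.2
  unfold DQ DZ
  linarith [h.u.c]

end Vale.Agent.P304
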