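import Vale.Agent.P304.TDefs

/-! P304 TREE: numerical facts about the parameters, and the function `sig`.
Plan. `pow_eta_le`: `(1 + x) ^ e ≤ exp (e x) ≤ exp 1 ≤ 3`. `le_Sk_of_th`: `(7/6)^(2r) ≤ 2k`, `log (7/6) ≥ 1/7`.
`sig`: write `x = ⌊x⌋ + fract x`; superadditivity by cases on `fract x + fract y < 1`; monotone and Lipschitz follow from
`sig x ≤ sig y ≤ sig x + 2 (y - x)` for `x ≤ y` (cases `⌊x⌋ = ⌊y⌋` or `⌊x⌋ + 1 ≤ ⌊y⌋`). `fl_lip`: `(2k+1)/(2k) ≤ 5/4`. -/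

namespace Vale.Agent.P304

open Finset

variable {Lab : Type} [Fintype Lab] [DecidableEq Lab] {k : ℕ} {X : Type} [MetricSpace X]
  {Ω : Type} [Fintype Ω] {W : ℝ} {J : ℕ}

theorem le_Sk (k : ℕ) : 4 * Lk k ≤ Sk k := by
  exact Nat.le_ceil _

theorem Sk_le (hk : 2 ≤ k) : (Sk k : ℝ) ≤ 5 * Lk k := by
  have h1 := two_le_Lk (k := k) (by omega)
  have h2 : (Sk k : ℝ) < 4 * Lk k + 1 := Nat.ceil_lt_add_one (by linarith)
  linarith

theorem Sk_pos (hk : 2 ≤ k) : 0 < Sk k := by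
  have h1 := two_le_Lk (k := k) (by omega)
  exact Nat.ceil_pos.2 (by linarith)

theorem eta_pos (hk : 2 ≤ k) : 0 < eta k := by
  have : (0 : ℝ) < Sk k := by exact_mod_cast Sk_pos hk
  unfold eta
  positivity

theorem eta_le (hk : 2 ≤ k) : eta k ≤ 1 / 2 := by
  have : (1 : ℝ) ≤ Sk k := by exact_mod_cast Sk_pos hk
  exact one_div_le_one_div_of_le (by norm_num) (by linarith)

theorem dl_pos (k : ℕ) : 0 < dl k := by
  unfold dl
  positivity

theorem dl_le (hk : 2 ≤ k) : dl k ≤ 1 / 10 := by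
  have : (2 : ℝ) ≤ k := by exact_mod_cast hk
  exact one_div_le_one_div_of_le (by norm_num) (by linarith)

theorem Mm_pos (hk : 2 ≤ k) : 0 < Mm k := by
  have := Sk_pos hk
  unfold Mm
  positivity

theorem Mm_mul (hk : 2 ≤ k) : (Mm k : ℝ) * (eta k * dl k) = 2 := by
  have : (0 : ℝ) < Sk k := by exact_mod_cast Sk_pos hk
  unfold Mm eta dl
  push_cast
  field_simp
  norm_num

theorem pow_eta_le (hk : 2 ≤ k) {e : ℕ} (he : e ≤ 2 * Sk k) : (1 + eta k) ^ e ≤ 3 := by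
  have h0 : (0 : ℝ) < Sk k := by exact_mod_cast Sk_pos hk
  have h1 := eta_pos hk
  calc (1 + eta k) ^ e ≤ (1 + eta k) ^ (2 * Sk k) := pow_le_pow_right₀ (by linarith) he
    _ ≤ Real.exp (eta k) ^ (2 * Sk k) :=
      pow_le_pow_left₀ (by linarith) (by linarith [Real.add_one_le_exp (eta k)]) _
    _ = Real.exp 1 := by
      rw [← Real.exp_nat_mul]
      congr 1
      unfold eta
      push_cast
      field_simp
    _ ≤ 3 := by linarith [Real.exp_one_lt_d9]

theorem th_pos (m : ℕ) : 0 < th m := by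
  unfold th
  positivity

theorem th_succ (m : ℕ) : th (m + 1) = 7 / 6 * th m := by
  unfold th
  ring

theorem th_strictMono : StrictMono th := by
  refine strictMono_nat_of_lt_succ fun m => ?_
  rw [th_succ]
  linarith [th_pos m]

theorem th_add_four (m : ℕ) : th (m + 4) < 2 * th m := by
  rw [th_succ, th_succ, th_succ, th_succ]
  linarith [th_pos m]

theorem th_four_lt : th 4 < 1 := by
  unfold th
  norm_num

theorem le_Sk_of_th (hk : 2 ≤ k) {r : ℕ} (h : th (2 * r) ≤ k) : r ≤ Sk k := by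
  have hk' : (2 : ℝ) ≤ k := by exact_mod_cast hk
  have h1 : ((7 : ℝ) / 6) ^ (2 * r) ≤ 2 * k := by unfold th at h; linarith
  have h2 := Real.log_le_log (by positivity) h1
  rw [Real.log_pow, Real.log_mul (by norm_num) (by positivity)] at h2
  have h3 : (1 : ℝ) / 7 ≤ Real.log (7 / 6) := by
    have := Real.one_sub_inv_le_log_of_pos (x := 7 / 6) (by norm_num)
    linarith
  have h4 := Real.log_two_lt_d9
  have h5 : 0 ≤ Real.log k := Real.log_nonneg (by linarith)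
  have h6 := le_Sk k
  have h7 : (0 : ℝ) ≤ r := Nat.cast_nonneg r
  have h8 := mul_le_mul_of_nonneg_left h3 h7
  push_cast at h2
  unfold Lk at h6
  exact_mod_cast (by linarith : (r : ℝ) ≤ Sk k)

/-- a fresh rank -/
theorem exists_rank {x : ℝ} (h0 : 0 ≤ x) (h1 : x ≤ k) : ∃ r, RkV x r ∧ NhV k r x := by
  have hex : ∃ r, x < th (2 * r + 3) := by
    obtain ⟨m, hm⟩ := pow_unbounded_of_one_lt (2 * x) (by norm_num : (1 : ℝ) < 7 / 6)
    refine ⟨m, lt_of_lt_of_le ?_ (th_strictMono.monotone (by omega : m ≤ 2 * m + 3))⟩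
    unfold th
    linarith
  have h2 := Nat.find_spec hex
  have h3 : 1 ≤ Nat.find hex → th (2 * Nat.find hex + 1) ≤ x := fun h => by
    have := Nat.find_min hex (m := Nat.find hex - 1) (by omega)
    rw [show 2 * (Nat.find hex - 1) + 3 = 2 * Nat.find hex + 1 by omega] at this
    exact not_lt.1 this
  exact ⟨Nat.find hex, ⟨h2.trans (th_strictMono (by omega)),
    fun h => (th_strictMono.monotone (by omega)).trans (h3 h)⟩, h0, h1, h2, h3⟩

theorem close_self (hk : 2 ≤ k) {a : ℝ} (ha : 0 ≤ a) : Close k a a := by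
  have := mul_nonneg (eta_pos hk).le (add_nonneg ha (dl_pos k).le)
  constructor <;> linarith

theorem not_close (hk : 2 ≤ k) {a b : ℝ} (ha : 0 ≤ a) (hb : 0 ≤ b) (h : ¬Close k a b) :
    eta k * dl k ≤ |b - a| := by
  by_contra hn
  obtain ⟨h1, h2⟩ := abs_lt.1 (not_le.1 hn)
  have h3 := mul_nonneg (eta_pos hk).le ha
  have h4 := mul_nonneg (eta_pos hk).le hb
  exact h ⟨by nlinarith, by nlinarith⟩

theorem tpar_sig {x y : ℝ} (h : x ≤ y) : sig x ≤ sig y ∧ sig y ≤ sig x + 2 * (y - x) := by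
  have h1 := Int.fract_nonneg x
  have h2 := Int.fract_lt_one x
  have h3 := Int.fract_nonneg y
  have h4 := Int.fract_lt_one y
  have h5 := Int.floor_add_fract x
  have h6 := Int.floor_add_fract y
  unfold sig
  rcases (Int.floor_mono h).eq_or_lt with e | e
  · have e' : ((⌊x⌋ : ℤ) : ℝ) = (⌊y⌋ : ℤ) := by exact_mod_cast e
    rcases max_cases 0 (2 * Int.fract x - 1) with ⟨a, b⟩ | ⟨a, b⟩ <;>
      rcases max_cases 0 (2 * Int.fract y - 1) with ⟨c, d⟩ | ⟨c, d⟩ <;>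
      constructor <;> linarith
  · have e' : ((⌊x⌋ : ℤ) : ℝ) + 1 ≤ (⌊y⌋ : ℤ) := by exact_mod_cast e
    rcases max_cases 0 (2 * Int.fract x - 1) with ⟨a, b⟩ | ⟨a, b⟩ <;>
      rcases max_cases 0 (2 * Int.fract y - 1) with ⟨c, d⟩ | ⟨c, d⟩ <;>
      constructor <;> linarith

theorem sig_mono : Monotone sig := by
  exact fun _ _ h => (tpar_sig h).1

theorem sig_lip (x y : ℝ) : |sig x - sig y| ≤ 2 * |x - y| := by
  rcases le_total x y with h | h
  · obtain ⟨h1, h2⟩ := tpar_sig h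
    rw [abs_of_nonpos (by linarith), abs_of_nonpos (by linarith)]
    linarith
  · obtain ⟨h1, h2⟩ := tpar_sig h
    rw [abs_of_nonneg (by linarith), abs_of_nonneg (by linarith)]
    linarith

theorem sig_add (x y : ℝ) : sig x + sig y ≤ sig (x + y) := by
  have h1 := Int.fract_nonneg x
  have h2 := Int.fract_lt_one x
  have h3 := Int.fract_nonneg y
  have h4 := Int.fract_lt_one y
  have h5 := Int.floor_add_fract x
  have h6 := Int.floor_add_fract y
  have h7 := Int.floor_add_fract (x + y)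
  have h8 := Int.fract_lt_one (x + y)
  unfold sig
  rcases (Int.le_floor_add x y).eq_or_lt with e | e
  · have e' : ((⌊x⌋ : ℤ) : ℝ) + (⌊y⌋ : ℤ) = (⌊x + y⌋ : ℤ) := by exact_mod_cast e
    rcases max_cases 0 (2 * Int.fract x - 1) with ⟨a, b⟩ | ⟨a, b⟩ <;>
      rcases max_cases 0 (2 * Int.fract y - 1) with ⟨c, d⟩ | ⟨c, d⟩ <;>
      rcases max_cases 0 (2 * Int.fract (x + y) - 1) with ⟨f, g⟩ | ⟨f, g⟩ <;> linarith
  · have e1 : ⌊x + y⌋ ≤ ⌊x⌋ + ⌊y⌋ + 1 := by
      have := Int.le_floor_add_floor x y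
      omega
    have e' : ((⌊x⌋ : ℤ) : ℝ) + (⌊y⌋ : ℤ) + 1 = (⌊x + y⌋ : ℤ) := by
      exact_mod_cast (by omega : ⌊x⌋ + ⌊y⌋ + 1 = ⌊x + y⌋)
    rcases max_cases 0 (2 * Int.fract x - 1) with ⟨a, b⟩ | ⟨a, b⟩ <;>
      rcases max_cases 0 (2 * Int.fract y - 1) with ⟨c, d⟩ | ⟨c, d⟩ <;>
      rcases max_cases 0 (2 * Int.fract (x + y) - 1) with ⟨f, g⟩ | ⟨f, g⟩ <;> linarith

theorem sig_le (x : ℝ) : sig x ≤ x := by
  have h1 := Int.fract_nonneg x
  have h2 := Int.fract_lt_one x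
  have h5 := Int.floor_add_fract x
  unfold sig
  rcases max_cases 0 (2 * Int.fract x - 1) with ⟨a, b⟩ | ⟨a, b⟩ <;> linarith

theorem fl_zero (k : ℕ) : fl k 0 = 0 := by
  simp [fl, sig]

theorem fl_mono (k : ℕ) : Monotone (fl k) := by
  intro x y h
  refine Int.floor_mono (mul_le_mul_of_nonneg_left (sig_mono ?_) (Nat.cast_nonneg _))
  gcongr

theorem fl_add (k : ℕ) (x y : ℝ) : fl k x + fl k y ≤ fl k (x + y) := by
  refine (Int.le_floor_add _ _).trans (Int.floor_mono ?_)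
  rw [← mul_add, add_mul, add_div]
  exact mul_le_mul_of_nonneg_left (sig_add _ _) (Nat.cast_nonneg _)

theorem fl_sum {ι : Type*} (k : ℕ) (s : Finset ι) (x : ι → ℝ) :
    ∑ i ∈ s, fl k (x i) ≤ fl k (∑ i ∈ s, x i) := by
  classical
  induction s using Finset.induction_on with
  | empty => simp [fl_zero]
  | insert a s ha ih =>
    rw [sum_insert ha, sum_insert ha]
    exact (add_le_add le_rfl ih).trans (fl_add k _ _)

theorem fl_root (hk : 2 ≤ k) : fl k k = Mm k * k := by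
  have hk' : (2 : ℝ) ≤ k := by exact_mod_cast hk
  have e : (k : ℝ) * (2 * k + 1) / (2 * k) = (k : ℕ) + 1 / 2 := by field_simp
  have h1 : ⌊((k : ℕ) : ℝ) + 1 / 2⌋ = k := by
    rw [Int.floor_eq_iff]
    push_cast
    constructor <;> linarith
  have h2 : sig ((k : ℕ) + 1 / 2) = k := by
    unfold sig Int.fract
    rw [h1]
    push_cast
    norm_num
  unfold fl
  rw [e, h2]
  exact_mod_cast Int.floor_intCast (R := ℝ) ((Mm k : ℤ) * k)

theorem tpar_ratio (hk : 2 ≤ k) : (2 * k + 1 : ℝ) / (2 * k) ≤ 5 / 4 := by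
  have hk' : (2 : ℝ) ≤ k := by exact_mod_cast hk
  rw [div_le_iff₀ (by linarith)]
  linarith

theorem fl_le (hk : 2 ≤ k) {x : ℝ} (hx : 0 ≤ x) : (fl k x : ℝ) ≤ 5 / 4 * Mm k * x := by
  refine (Int.floor_le _).trans ?_
  have h1 := mul_le_mul_of_nonneg_left (sig_le (x * (2 * k + 1) / (2 * k)))
    (Nat.cast_nonneg (α := ℝ) (Mm k))
  have h2 := mul_le_mul_of_nonneg_left (tpar_ratio hk)
    (mul_nonneg (Nat.cast_nonneg (α := ℝ) (Mm k)) hx)
  rw [mul_div_assoc] at h1 ⊢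
  linarith

theorem le_fl (hk : 2 ≤ k) {x : ℝ} (hx : 1 - 2 * dl k ≤ x) : (Mm k : ℤ) ≤ fl k x := by
  have hk' : (2 : ℝ) ≤ k := by exact_mod_cast hk
  have h1 : 1 ≤ x * (2 * k + 1) / (2 * k) := by
    rw [le_div_iff₀ (by linarith)]
    have e : (1 - 2 * dl k) * (2 * k + 1) = 2 * k := by
      unfold dl
      field_simp
      ring
    have := mul_le_mul_of_nonneg_right hx (by linarith : (0 : ℝ) ≤ 2 * k + 1)
    linarith
  have h2 := sig_mono h1
  have h3 : sig 1 = 1 := by simp [sig]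
  rw [h3] at h2
  refine Int.le_floor.2 ?_
  push_cast
  exact le_mul_of_one_le_right (Nat.cast_nonneg _) h2

theorem fl_lip (hk : 2 ≤ k) (x y : ℝ) : |((fl k x - fl k y : ℤ) : ℝ)| ≤ 5 / 2 * Mm k * |x - y| + 1 := by
  have hk' : (2 : ℝ) ≤ k := by exact_mod_cast hk
  have hM := Nat.cast_nonneg (α := ℝ) (Mm k)
  have h1 := sig_lip (x * (2 * k + 1) / (2 * k)) (y * (2 * k + 1) / (2 * k))
  rw [← sub_div, ← sub_mul, mul_div_assoc (x - y), abs_mul,
    abs_of_nonneg (by positivity : (0 : ℝ) ≤ (2 * k + 1) / (2 * k))] at h1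
  have h2 := mul_le_mul_of_nonneg_left (tpar_ratio hk) (abs_nonneg (x - y))
  have h3 : |sig (x * (2 * k + 1) / (2 * k)) - sig (y * (2 * k + 1) / (2 * k))| ≤
      5 / 2 * |x - y| := by
    linarith
  obtain ⟨h4, h5⟩ := abs_le.1 h3
  have h6 := mul_le_mul_of_nonneg_left h4 hM
  have h7 := mul_le_mul_of_nonneg_left h5 hM
  have a1 := Int.floor_le ((Mm k : ℝ) * sig (x * (2 * k + 1) / (2 * k)))
  have a2 := Int.lt_floor_add_one ((Mm k : ℝ) * sig (x * (2 * k + 1) / (2 * k)))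
  have a3 := Int.floor_le ((Mm k : ℝ) * sig (y * (2 * k + 1) / (2 * k)))
  have a4 := Int.lt_floor_add_one ((Mm k : ℝ) * sig (y * (2 * k + 1) / (2 * k)))
  unfold fl
  push_cast
  rw [abs_le]
  constructor <;> linarith

end Vale.Agent.P304
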