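import Vale.Agent.P304.TY

/-! P304 TREE: physical cost and service.
Plan. `Valid.park`: a node where a particle server is parked has `0 < pk`, so `∑ a, YY (a :: v) < YY v` (`CfgOK.sum_pk`), hence it is flagged (`YH.flag`) and has a member (`le_nu`, `Snap.exists_mem`).
`phys`: different parks: `td_ge`, distance `≤ (24 + 6 + 1 + 24) wt`; equal parks `b`: group by `b` (`Finset.sum_fiberwise_of_maps_to`), the number of pairs is at most
`∑ j, pk (S'.cfg j) b ≤ YY' b ≤ 3 Mm ν' b`. `serve`: `Snap.occupied`, `YH.occupied`, children are below depth `J`, balance of `pk`. -/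

namespace Vale.Agent.P304

open Finset

variable {Lab : Type} [Fintype Lab] [DecidableEq Lab] {k : ℕ} {X : Type} [MetricSpace X]
  {Ω : Type} [Fintype Ω] {W : ℝ} {J : ℕ}
variable {A A' : Pic Ω Lab X k} {S S' : St Lab X k}

theorem Valid.park (hk : 2 ≤ k) (hs : Snap W J A) (h : Valid W J A S) (j : Fin (Mm k)) (l : Fin k) :
    Flag S.rk (S.cfg j l) ∧ ∃ y, A.Mem (S.cfg j l) y := by
  have h1 : 0 < pk (S.cfg j) (S.cfg j l) := pk_pos.2 ⟨l, rfl⟩
  have h2 := h.c.sum_pk (S.cfg j l)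
  have h3 : (pk (S.cfg j) (S.cfg j l) : ℤ) ≤ ∑ j', (pk (S.cfg j') (S.cfg j l) : ℤ) :=
    Finset.single_le_sum (f := fun j' => (pk (S.cfg j') (S.cfg j l) : ℤ))
      (fun _ _ => Int.natCast_nonneg _) (Finset.mem_univ j)
  have h4 : Flag S.rk (S.cfg j l) := (h.yh hk hs).flag (by omega)
  exact ⟨h4, hs.exists_mem ((th_pos _).trans_le (le_nu h.r h4.1))⟩

omit [Fintype Lab] [DecidableEq Lab] [MetricSpace X] [Fintype Ω] in
theorem tphys_mem {u v : List Lab} {y : X} (h : A.Mem u y) (hv : v <:+ u) : A.Mem v y := by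
  obtain ⟨ω, l, h1, h2, h3⟩ := h
  exact ⟨ω, l, h1, hv.trans h2, h3⟩

theorem tphys_cross (h : Step W J A A' S S') {v : List Lab} {y y' : X} (hy : A.Mem v y)
    (hy' : A'.Mem v y') : dist y y' ≤ 7 * wt W v.length := by
  have w0 := wt_pos h.hW v.length
  rcases h.m.dir with d | ⟨d1, d2⟩
  · obtain ⟨ω, l, h1, h2, rfl⟩ := hy'
    have h3 := h.s.geo v y _ hy ⟨ω, l, h.m.supp ω h1, h2.trans (d ω l).1, rfl⟩
    have h4 := (d ω l).2
    have h5 := wt_anti h.hW h2.length_le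
    have h6 := dist_triangle y (A.x ω l) (A'.x ω l)
    linarith
  · obtain ⟨ω, l, h1, h2, rfl⟩ := hy
    have h3 := h.s'.geo v _ y' ⟨ω, l, d1 ▸ h1, h2.trans (d2 ω l).1, (d2 ω l).2⟩ hy'
    linarith

theorem Step.phys (h : Step W J A A' S S') :
    ∑ j, ∑ l, dist (S.an (S.cfg j l)) (S'.an (S'.cfg j l)) ≤
      110 * ∑ j, ∑ l, td W J (S.cfg j l) (S'.cfg j l) + 3 * Mm k * DA J A' S S' := by
  let f : List Lab → ℝ := fun v => I1 (Flag S.rk v ∧ Flag S'.rk v) * dist (S.an v) (S'.an v)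
  have f0 : ∀ v, 0 ≤ f v := fun v => mul_nonneg (I1_nonneg _) dist_nonneg
  have h1 : ∀ j l, dist (S.an (S.cfg j l)) (S'.an (S'.cfg j l)) ≤
      110 * td W J (S.cfg j l) (S'.cfg j l) + f (S'.cfg j l) := by
    intro j l
    obtain ⟨a1, y, a2⟩ := h.v.park h.hk h.s j l
    obtain ⟨b1, y', b2⟩ := h.v'.park h.hk h.s' j l
    have t0 := td_nonneg (J := J) h.hW (S.cfg j l) (S'.cfg j l)
    by_cases e : S.cfg j l = S'.cfg j l
    · have e1 : f (S'.cfg j l) = dist (S.an (S.cfg j l)) (S'.an (S'.cfg j l)) := by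
        simp only [f]
        rw [I1_of ⟨e ▸ a1, b1⟩, one_mul, e]
      linarith
    · obtain ⟨v, v1, v2, v3⟩ := td_ge h.hW (h.v.c.len j l) (h.v'.c.len j l) e
      have c1 := h.v.a _ _ a1 a2
      have c2 := h.v'.a _ _ b1 b2
      have c3 := wt_anti h.hW v1.length_le
      have c4 := wt_anti h.hW v2.length_le
      have c5 := tphys_cross h (tphys_mem a2 v1) (tphys_mem b2 v2)
      have c6 := dist_triangle4 (S.an (S.cfg j l)) y y' (S'.an (S'.cfg j l))
      rw [dist_comm y'] at c6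
      have c7 := f0 (S'.cfg j l)
      linarith
  have h2 : ∀ j, ∑ l, f (S'.cfg j l) = ∑ v ∈ allN Lab J, (pk (S'.cfg j) v : ℝ) * f v := by
    intro j
    rw [← Finset.sum_fiberwise_of_maps_to (s := univ) (t := allN Lab J) (g := S'.cfg j)
      fun l _ => mem_allN.2 (h.v'.c.len j l)]
    refine Finset.sum_congr rfl fun v _ => ?_
    rw [Finset.sum_congr rfl (g := fun _ => f v) fun l hl => by rw [(Finset.mem_filter.1 hl).2],
      Finset.sum_const, nsmul_eq_mul, pk]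
  have h3 : ∀ v, ∑ j, (pk (S'.cfg j) v : ℝ) ≤ 3 * Mm k * nu A'.w A'.P v := by
    intro v
    refine le_trans ?_ ((h.v'.yh h.hk h.s').le_nu v)
    rw [← h.v'.c.sum v]
    push_cast
    refine Finset.sum_le_sum fun j _ => ?_
    have := Nn_split (S'.cfg j) v
    exact_mod_cast (by omega : pk (S'.cfg j) v ≤ Nn (S'.cfg j) v)
  have h4 : ∑ j, ∑ l, f (S'.cfg j l) ≤ 3 * Mm k * DA J A' S S' := by
    simp only [h2]
    rw [Finset.sum_comm, DA, Finset.mul_sum]
    refine Finset.sum_le_sum fun v _ => ?_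
    rw [← Finset.sum_mul]
    refine (mul_le_mul_of_nonneg_right (h3 v) (f0 v)).trans_eq ?_
    simp only [f]
    ring
  refine (Finset.sum_le_sum fun j _ => Finset.sum_le_sum fun l _ => h1 j l).trans ?_
  simp only [Finset.sum_add_distrib, ← Finset.mul_sum]
  linarith

theorem Valid.serve (hk : 2 ≤ k) (hs : Snap W J A) (h : Valid W J A S)
    (hsep : ∀ a b : X, dist a b ≤ 24 * wt W J → a = b) {v : List Lab} (hv : v.length = J) {a : X}
    (ha : ∀ ω, 0 < A.w ω → ∃ l, A.P ω l = v ∧ A.x ω l = a) (j : Fin (Mm k)) :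
    ∃ i, S.an (S.cfg j i) = a := by
  have y := h.yh hk hs
  obtain ⟨o1, o2⟩ := hs.occupied hk (v := v) fun ω hω => by
    obtain ⟨l, h1, -⟩ := ha ω hω
    exact ⟨l, h1 ▸ List.suffix_refl _⟩
  have h1 := y.occupied o1 o2
  have h2 := h.c.sum_pk v
  rw [Finset.sum_eq_zero (s := univ) (f := fun b => YY S.qh S.rk (b :: v))
    fun b _ => y.yOK.deep _ (by simp [hv]), sub_zero] at h2
  have h3 : 0 < pk (S.cfg j) v := by
    by_contra hc
    have h4 : ∑ j', (pk (S.cfg j') v : ℤ) < ∑ _j' : Fin (Mm k), (1 : ℤ) := by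
      refine Finset.sum_lt_sum (fun j' _ => ?_) ⟨j, Finset.mem_univ _, by omega⟩
      have := h.c.balp v j' j
      omega
    simp only [Finset.sum_const, Finset.card_univ, Fintype.card_fin, nsmul_eq_mul, mul_one] at h4
    omega
  obtain ⟨i, hi⟩ := pk_pos.1 h3
  obtain ⟨ω, hω⟩ : ∃ ω, 0 < A.w ω := by
    by_contra hc
    have h5 : ∑ ω, A.w ω ≤ 0 := Finset.sum_nonpos fun ω _ => not_lt.1 fun h6 => hc ⟨ω, h6⟩
    have h6 := hs.sum
    linarith
  obtain ⟨l, l1, l2⟩ := ha ω hω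
  have h7 := h.a v a (hi ▸ (h.park hk hs j i).1) ⟨ω, l, hω, l1 ▸ List.suffix_refl _, l2⟩
  exact ⟨i, hsep _ _ (by rw [hi, ← hv]; exact h7)⟩

end Vale.Agent.P304
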