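import Vale.Agent.P304.TY

/-! P304 TREE: the anchor potential `PhiA`.
Plan. `PhiA_lip`: up step: members only leave, a staying member costs `dist (x l) (x' l)`, `flag_chain`. Down step: positions are fixed; an entering member of a flagged `v` is within
`30 wt` of the anchor (`le_nu`, `Snap.exists_mem` give an old member, which is also a new member; `Valid.a`, `Snap.geo`), `td_eq`.
`PhiA_upd`, node by node (the posterior mean of `∑ l, I1 (v <:+ P ω l) * c` is `ν' v * c`, `Nn_eq`): flagged before and after with the anchor kept: `0`; reset: the move `Dl` is `> 18 wt`,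
every new member gains `≥ Dl - 12 wt ≥ Dl / 3`; not flagged after: `≤ 0`; newly flagged: `≤ 6 wt ν' v`, and then either a suffix of `v` changed its rank (`dirty_le`, total `12 DZ`),
or a child `a :: v` that was heavy changed its rank and `ν' v < th (2 er + 4) < 2 th (2 er) ≤ 2 ν (a :: v)` (`TS_child`, total `24 DZ`). -/

namespace Vale.Agent.P304

open Finset

variable {Lab : Type} [Fintype Lab] [DecidableEq Lab] {k : ℕ} {X : Type} [MetricSpace X]
  {Ω : Type} [Fintype Ω] {W : ℝ} {J : ℕ}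
variable {A A' : Pic Ω Lab X k} {S S' : St Lab X k}

theorem PhiA_nonneg (S : St Lab X k) (p : Fin k → List Lab) (x : Fin k → X) : 0 ≤ PhiA J S p x := by
  exact sum_nonneg fun v _ => mul_nonneg (I1_nonneg _)
    (sum_nonneg fun l _ => mul_nonneg (I1_nonneg _) dist_nonneg)

theorem tpota_chain (hk : 2 ≤ k) (hs : Snap W J A) (h : Valid W J A S) (p : Fin k → List Lab)
    {d : Fin k → ℝ} (hd : ∀ l, 0 ≤ d l) :
    ∑ v ∈ allN Lab J, I1 (Flag S.rk v) * ∑ l, I1 (v <:+ p l) * d l ≤ Sk k * ∑ l, d l := by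
  simp only [mul_sum]
  rw [sum_comm]
  refine sum_le_sum fun l _ => ?_
  simp only [← mul_assoc, ← sum_mul]
  exact mul_le_mul_of_nonneg_right (flag_chain hk hs.nuOK h.r _) (hd l)

theorem tpota_mem (hs : Snap W J A) (h : Valid W J A S) {v : List Lab} (hv : Flag S.rk v) : ∃ y, A.Mem v y :=
  hs.exists_mem ((th_pos _).trans_le (le_nu h.r hv.1))

theorem PhiA_init (hk : 2 ≤ k) (hs : Snap W J A) (h : Valid W J A S) (p : Fin k → List Lab) {x : Fin k → X}
    {D : ℝ} (hD : ∀ l v, dist (x l) (S.an v) ≤ D) : PhiA J S p x ≤ Sk k * k * D := by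
  have hD0 : 0 ≤ D := dist_nonneg.trans (hD ⟨0, by omega⟩ [])
  refine le_trans (sum_le_sum fun v _ => mul_le_mul_of_nonneg_left (sum_le_sum fun l _ =>
    mul_le_mul_of_nonneg_left (hD l v) (I1_nonneg _)) (I1_nonneg _))
    ((tpota_chain hk hs h p fun _ => hD0).trans (le_of_eq ?_))
  simp [mul_assoc]

theorem Step.PhiA_lip (h : Step W J A A' S S') {ω : Ω} (hω : 0 < A'.w ω) :
    PhiA J S (A'.P ω) (A'.x ω) - PhiA J S (A.P ω) (A.x ω) ≤
      Sk k * ∑ l, dist (A.x ω l) (A'.x ω l) + 30 * ∑ l, td W J (A.P ω l) (A'.P ω l) := by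
  have t0 : 0 ≤ ∑ l, td W J (A.P ω l) (A'.P ω l) := sum_nonneg fun l _ => td_nonneg h.hW _ _
  have d0 : 0 ≤ ∑ l, dist (A.x ω l) (A'.x ω l) := sum_nonneg fun l _ => dist_nonneg
  unfold PhiA
  rw [← sum_sub_distrib]
  simp only [← mul_sub, ← sum_sub_distrib]
  rcases h.m.dir with up | ⟨hw, dn⟩
  · refine le_trans (sum_le_sum fun v _ => mul_le_mul_of_nonneg_left (sum_le_sum fun l _ => ?_) (I1_nonneg _))
      ((tpota_chain h.hk h.s h.v (A'.P ω) (d := fun l => dist (A.x ω l) (A'.x ω l))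
        fun _ => dist_nonneg).trans (le_add_of_nonneg_right (by positivity)))
    by_cases c : v <:+ A'.P ω l
    · rw [I1_of c, I1_of (c.trans (up ω l).1), one_mul, one_mul, one_mul]
      linarith [dist_triangle_left (A'.x ω l) (S.an v) (A.x ω l)]
    · rw [I1_of_not c, zero_mul, zero_mul, zero_sub, neg_nonpos]
      exact mul_nonneg (I1_nonneg _) dist_nonneg
  · refine le_trans ?_ (le_add_of_nonneg_left (by positivity))
    simp only [td_eq, TS, mul_sum]
    rw [sum_comm]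
    refine sum_le_sum fun l _ => sum_le_sum fun v _ => ?_
    have hw0 := wt_pos h.hW v.length
    by_cases f : Flag S.rk v
    swap
    · rw [I1_of_not f, zero_mul]
      positivity
    rw [I1_of f, one_mul, (dn ω l).2]
    by_cases c : v <:+ A.P ω l
    · rw [I1_of c, I1_of (c.trans (dn ω l).1), sub_self]
      positivity
    by_cases c' : v <:+ A'.P ω l
    swap
    · rw [I1_of_not c, I1_of_not c', sub_self]
      positivity
    obtain ⟨_, a, l', ha, hv, rfl⟩ := tpota_mem h.s h.v f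
    have g1 := h.v.a v _ f ⟨a, l', ha, hv, rfl⟩
    have g2 := h.s'.geo v _ _ ⟨ω, l, hω, c', rfl⟩ ⟨a, l', hw ▸ ha, hv.trans (dn a l').1, rfl⟩
    rw [(dn ω l).2, (dn a l').2] at g2
    rw [I1_of_not c, I1_of c']
    have := dist_triangle_right (A.x ω l) (S.an v) (A.x a l')
    norm_num
    linarith

theorem tpota_mean (hs : Snap W J A) {v : List Lab} {g : X → ℝ} {c : ℝ} (hg : ∀ y, A.Mem v y → g y ≤ c) :
    ∑ ω, A.w ω * ∑ l, I1 (v <:+ A.P ω l) * g (A.x ω l) ≤ nu A.w A.P v * c := by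
  rw [nu, sum_mul]
  refine sum_le_sum fun ω _ => ?_
  rcases (hs.nonneg ω).eq_or_lt with z | z
  · simp [← z]
  rw [mul_assoc, Nn_eq, sum_mul]
  refine mul_le_mul_of_nonneg_left (sum_le_sum fun l _ => ?_) z.le
  by_cases c : v <:+ A.P ω l
  · rw [I1_of c, one_mul, one_mul]
    exact hg _ ⟨ω, l, z, c, rfl⟩
  · rw [I1_of_not c, zero_mul, zero_mul]

theorem tpota_node (h : Step W J A A' S S') (v : List Lab) :
    ∑ ω, A'.w ω * ∑ l, I1 (v <:+ A'.P ω l) * (I1 (Flag S'.rk v) * dist (A'.x ω l) (S'.an v) -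
      I1 (Flag S.rk v) * dist (A'.x ω l) (S.an v)) ≤
    -(I1 (Flag S.rk v ∧ Flag S'.rk v) * (nu A'.w A'.P v * dist (S.an v) (S'.an v)) / 3) +
      6 * (wt W v.length * (I1 (∃ z, z <:+ v ∧ S.rk z ≠ S'.rk z) * nu A'.w A'.P v)) +
      12 * (wt W v.length * ∑ a, I1 (S.rk (a :: v) ≠ S'.rk (a :: v)) *
        (nu A.w A.P (a :: v) + nu A'.w A'.P (a :: v))) := by
  have hw := wt_pos h.hW v.length
  have n := h.s.nuOK
  have n' := h.s'.nuOK
  have p1 : 0 ≤ I1 (∃ z, z <:+ v ∧ S.rk z ≠ S'.rk z) * nu A'.w A'.P v := mul_nonneg (I1_nonneg _) (n'.nonneg v)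
  have p0 : ∀ a, 0 ≤ I1 (S.rk (a :: v) ≠ S'.rk (a :: v)) * (nu A.w A.P (a :: v) + nu A'.w A'.P (a :: v)) :=
    fun a => mul_nonneg (I1_nonneg _) (add_nonneg (n.nonneg _) (n'.nonneg _))
  have p2 := sum_nonneg fun a (_ : a ∈ univ) => p0 a
  have p3 := mul_nonneg hw.le p1
  have p4 := mul_nonneg hw.le p2
  by_cases f' : Flag S'.rk v
  swap
  · have := tpota_mean h.s' (v := v) (c := 0) (g := fun y => I1 (Flag S'.rk v) * dist y (S'.an v) -
      I1 (Flag S.rk v) * dist y (S.an v)) fun y _ => by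
        rw [I1_of_not f', zero_mul, zero_sub, neg_nonpos]
        exact mul_nonneg (I1_nonneg _) dist_nonneg
    rw [I1_of_not fun k : Flag S.rk v ∧ Flag S'.rk v => f' k.2]
    linarith
  by_cases f : Flag S.rk v
  · have := tpota_mean h.s' (v := v) (c := -(dist (S.an v) (S'.an v) / 3))
      (g := fun y => I1 (Flag S'.rk v) * dist y (S'.an v) - I1 (Flag S.rk v) * dist y (S.an v)) fun y hy => by
        rw [I1_of f, I1_of f', one_mul, one_mul]
        rcases h.u.a v f' with ⟨-, e⟩ | ⟨m, e⟩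
        · simp [e]
        · obtain ⟨y0, m0, e0⟩ := e f
          have g1 := h.s'.geo v _ _ m m0
          have g2 := h.s'.geo v _ _ hy m
          linarith [dist_triangle (S.an v) (S'.an v) y0, dist_triangle_left (S.an v) (S'.an v) y]
    rw [I1_of (⟨f, f'⟩ : Flag S.rk v ∧ Flag S'.rk v)]
    linarith
  have m : A'.Mem v (S'.an v) := ((h.u.a v f').resolve_left fun k => f k.1).1
  have := tpota_mean h.s' (v := v) (c := 6 * wt W v.length)
    (g := fun y => I1 (Flag S'.rk v) * dist y (S'.an v) - I1 (Flag S.rk v) * dist y (S.an v)) fun y hy => by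
      rw [I1_of_not f, I1_of f', one_mul, zero_mul, sub_zero]
      exact h.s'.geo v _ _ hy m
  rw [I1_of_not fun k : Flag S.rk v ∧ Flag S'.rk v => f k.1]
  by_cases d : ∃ z, z <:+ v ∧ S.rk z ≠ S'.rk z
  · rw [I1_of d]
    linarith
  have e : er S.rk v = er S'.rk v := er_congr fun u hu => by
    by_contra k
    exact d ⟨u, hu, k⟩
  obtain ⟨a, ha⟩ : ∃ a, Heavy S.rk a v := by
    by_contra k
    exact f ⟨e ▸ f'.1, fun a ha => k ⟨a, ha⟩⟩
  have ne : S.rk (a :: v) ≠ S'.rk (a :: v) := fun k => f'.2 a ⟨f'.1, e ▸ k ▸ ha.2⟩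
  have b1 := nu_lt n' h.v'.r v
  have b2 := th_add_four (2 * er S'.rk v)
  have b3 : th (2 * er S'.rk v) ≤ nu A.w A.P (a :: v) :=
    (th_strictMono.monotone (by have := ha.2; omega)).trans ((h.v.r (a :: v)).2 (ha.1.trans_le ha.2))
  have b4 := single_le_sum (fun a _ => p0 a) (mem_univ a)
  rw [I1_of ne, one_mul] at b4
  have b5 := n'.nonneg (a :: v)
  have b6 := mul_le_mul_of_nonneg_left (show nu A'.w A'.P v ≤ 2 * ∑ a, I1 (S.rk (a :: v) ≠ S'.rk (a :: v)) *
    (nu A.w A.P (a :: v) + nu A'.w A'.P (a :: v)) by linarith) hw.le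
  linarith

theorem Step.PhiA_upd (h : Step W J A A' S S') :
    ∑ ω, A'.w ω * (PhiA J S' (A'.P ω) (A'.x ω) - PhiA J S (A'.P ω) (A'.x ω)) ≤
      -(DA J A' S S' / 3) + 36 * DZ W J A A' S S' := by
  have n := h.s.nuOK
  have n' := h.s'.nuOK
  have e : ∑ ω, A'.w ω * (PhiA J S' (A'.P ω) (A'.x ω) - PhiA J S (A'.P ω) (A'.x ω)) =
      ∑ v ∈ allN Lab J, ∑ ω, A'.w ω * ∑ l, I1 (v <:+ A'.P ω l) *
        (I1 (Flag S'.rk v) * dist (A'.x ω l) (S'.an v) - I1 (Flag S.rk v) * dist (A'.x ω l) (S.an v)) := by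
    rw [sum_comm]
    refine sum_congr rfl fun ω _ => ?_
    rw [← mul_sum, PhiA, PhiA, ← sum_sub_distrib]
    congr 1
    refine sum_congr rfl fun v _ => ?_
    rw [mul_sum, mul_sum, ← sum_sub_distrib]
    exact sum_congr rfl fun l _ => by ring
  rw [e]
  refine (sum_le_sum fun v _ => tpota_node h v).trans ?_
  rw [sum_add_distrib, sum_add_distrib, sum_neg_distrib, ← sum_div, ← mul_sum, ← mul_sum]
  have a1 := dirty_le (J := J) h.hW n'.nonneg n'.sub fun z => S.rk z ≠ S'.rk z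
  have a2 : TS W J (fun z => I1 (S.rk z ≠ S'.rk z) * nu A'.w A'.P z) ≤ DZ W J A A' S S' :=
    TS_mono h.hW fun v _ => mul_le_mul_of_nonneg_left (le_add_of_nonneg_left (n.nonneg v)) (I1_nonneg _)
  have a3 := TS_child (J := J) W (f := fun v => I1 (S.rk v ≠ S'.rk v) * (nu A.w A.P v + nu A'.w A'.P v))
    fun v hv => by rw [n.deep v hv, n'.deep v hv, add_zero, mul_zero]
  have a4 : 0 ≤ W * (I1 (S.rk [] ≠ S'.rk []) * (nu A.w A.P [] + nu A'.w A'.P [])) :=
    mul_nonneg h.hW.le (mul_nonneg (I1_nonneg _) (add_nonneg (n.nonneg _) (n'.nonneg _)))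
  unfold DZ at a2 ⊢
  unfold DA
  unfold TS at a1 a2 a3 ⊢
  linarith

end Vale.Agent.P304
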