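import Vale.Agent.P304.TBar
import Vale.Agent.P304.TRank

/-! P304 TREE: the integer masses `YY`.
Plan. `mu_le`: for light `a :: v`, `s = Sk - rk ≥ 1`, `bar (2s) q ≤ mu ≤ bar (2s-2) q ≤ bar (2 (Sk - er v)) q` (`bar_close`, `bar_anti`).
`YY_key` by induction on `v`: root `m = k`; light `m = mu`; heavy `m = m v - ∑ siblings mu` (`BarOK.sup`, `fl_add`, `fl_sum`).
For `sub`: a heavy child gives equality (siblings are not heavy by `heavy_unique`); no heavy child: `∑ fl mu ≤ fl (∑ mu) ≤ fl m`; inactive `v`: everything is `0`.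
`YY_le_th` by induction (heavy: `YY (a :: v) ≤ YY v`; light: `fl_le`, `mu ≤ ν`), then `th (2r+4) ≤ (7/6)^4 th (2r)`. -/

namespace Vale.Agent.P304

open Finset

variable {Lab : Type} [Fintype Lab] [DecidableEq Lab] {k : ℕ} {X : Type} [MetricSpace X]
  {Ω : Type} [Fintype Ω] {W : ℝ} {J : ℕ}

structure YH (k J : ℕ) (ν : List Lab → ℝ) (q qh : List Lab → Fin k → ℝ) (rk : List Lab → ℕ) : Prop where
  hk : 2 ≤ k
  n : NuOK k J ν
  b : BarOK ν q
  q : QhOK q qh
  r : ∀ v, RkV (ν v) (rk v)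

theorem Valid.yh (hk : 2 ≤ k) {A : Pic Ω Lab X k} {S : St Lab X k} (hs : Snap W J A) (h : Valid W J A S) :
    YH k J (nu A.w A.P) (qq A.w A.P) S.qh S.rk := by
  exact ⟨hk, hs.nuOK, hs.barOK hk, h.q, h.r⟩

theorem mu_nonneg (qh : List Lab → Fin k → ℝ) (rk : List Lab → ℕ) (a : Lab) (v : List Lab) :
    0 ≤ mu qh rk a v := by
  unfold mu
  split_ifs
  · exact bar_nonneg _ _
  · exact le_rfl

variable {ν : List Lab → ℝ} {q qh : List Lab → Fin k → ℝ} {rk : List Lab → ℕ}

theorem YY_heavy {a : Lab} {v : List Lab} (h : Heavy rk a v) :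
    YY qh rk (a :: v) = YY qh rk v - ∑ b ∈ univ.erase a, fl k (mu qh rk b v) := by
  rw [YY, if_pos h]

theorem YY_not_heavy {a : Lab} {v : List Lab} (h : ¬Heavy rk a v) :
    YY qh rk (a :: v) = fl k (mu qh rk a v) := by
  rw [YY, if_neg h]

theorem fl_mu_nonneg (a : Lab) (v : List Lab) : 0 ≤ fl k (mu qh rk a v) :=
  (fl_zero k).symm.trans_le (fl_mono k (mu_nonneg qh rk a v))

theorem YH.er_le (h : YH k J ν q qh rk) (v : List Lab) : er rk v ≤ Sk k :=
  (er_le_rk rk v).trans (rk_le_Sk h.hk h.n h.r v)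

theorem YH.root_pos (h : YH k J ν q qh rk) : 0 < er rk [] := by
  refine rk_pos (h.r []) ?_
  rw [h.n.root]
  exact_mod_cast (by have := h.hk; omega : 1 ≤ k)

theorem YH.mu_le (h : YH k J ν q qh rk) (a : Lab) (v : List Lab) :
    mu qh rk a v ≤ bar k (2 * (Sk k - er rk v)) (q (a :: v)) := by
  unfold mu
  split_ifs with hl
  · have := h.er_le v
    have := hl.2
    obtain ⟨e, he⟩ : ∃ e, 2 * (Sk k - rk (a :: v)) - 1 = e + 1 := ⟨2 * (Sk k - rk (a :: v)) - 2, by omega⟩
    rw [he]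
    exact (bar_close h.hk e fun i => (h.q (a :: v) i).1).2.trans (bar_anti h.hk (by omega) (h.b.nonneg _))
  · exact bar_nonneg _ _

theorem YH.le_mu (h : YH k J ν q qh rk) {a : Lab} {v : List Lab} (hl : Light rk a v) :
    bar k (2 * (Sk k - er rk (a :: v))) (q (a :: v)) ≤ mu qh rk a v := by
  have := h.er_le v
  have := hl.2
  rw [mu, if_pos hl, hl.er_eq]
  have he : 2 * (Sk k - rk (a :: v)) = 2 * (Sk k - rk (a :: v)) - 1 + 1 := by omega
  conv_lhs => rw [he]
  exact (bar_close h.hk _ fun i => (h.q (a :: v) i).1).1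

theorem YH.key (h : YH k J ν q qh rk) {v : List Lab} (hv : 0 < er rk v) :
    ∃ m, bar k (2 * (Sk k - er rk v)) (q v) ≤ m ∧ fl k m ≤ YY qh rk v := by
  induction v with
  | nil => exact ⟨k, (h.b.le_nu _ _).trans h.n.root.le, (fl_root h.hk).le⟩
  | cons a v ih =>
    rcases active_iff.1 hv with hh | hl
    · obtain ⟨m, h1, h2⟩ := ih hh.1
      refine ⟨m - ∑ b ∈ univ.erase a, mu qh rk b v, ?_, ?_⟩
      · have s1 := h.b.sup (2 * (Sk k - er rk v)) (by omega) v
        rw [← add_sum_erase _ _ (mem_univ a)] at s1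
        have s2 := sum_le_sum fun b (_ : b ∈ univ.erase a) => h.mu_le b v
        rw [hh.er_eq]
        linarith
      · have s1 := fl_add k (m - ∑ b ∈ univ.erase a, mu qh rk b v) (∑ b ∈ univ.erase a, mu qh rk b v)
        have s2 := fl_sum k (univ.erase a) fun b => mu qh rk b v
        rw [sub_add_cancel] at s1
        rw [YY_heavy hh]
        linarith
    · exact ⟨_, h.le_mu hl, (YY_not_heavy fun k => k.not_light hl).ge⟩

theorem YH.inactive (h : YH k J ν q qh rk) {v : List Lab} (hv : er rk v = 0) : YY qh rk v = 0 := by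
  cases v with
  | nil => exact absurd hv h.root_pos.ne'
  | cons a v =>
    have k1 : ¬Heavy rk a v := fun k => (active_iff.2 (Or.inl k)).ne' hv
    have k2 : ¬Light rk a v := fun k => (active_iff.2 (Or.inr k)).ne' hv
    rw [YY_not_heavy k1, mu, if_neg k2, fl_zero]

theorem YH.sum_heavy (h : YH k J ν q qh rk) {a : Lab} {v : List Lab} (ha : Heavy rk a v) :
    ∑ b, YY qh rk (b :: v) = YY qh rk v := by
  rw [← add_sum_erase _ _ (mem_univ a), YY_heavy ha, sum_congr rfl fun b hb =>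
    YY_not_heavy fun k => (mem_erase.1 hb).1 (heavy_unique h.n h.r k ha), sub_add_cancel]

theorem YH.sum_inactive (h : YH k J ν q qh rk) {v : List Lab} (hv : er rk v = 0) :
    ∑ b, YY qh rk (b :: v) = YY qh rk v := by
  rw [h.inactive hv]
  exact sum_eq_zero fun b _ => h.inactive (Nat.eq_zero_of_le_zero (hv ▸ er_anti rk (List.suffix_cons b v)))

theorem YH.yOK (h : YH k J ν q qh rk) : YOK (Mm k) k J (YY qh rk) := by
  refine ⟨rfl, fun v => ?_, fun v => ?_, fun v hv => h.inactive ?_⟩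
  · rcases (er rk v).eq_zero_or_pos with z | z
    · exact (h.inactive z).ge
    · obtain ⟨m, h1, h2⟩ := h.key z
      exact ((fl_zero k).symm.trans_le (fl_mono k ((bar_nonneg _ _).trans h1))).trans h2
  · rcases (er rk v).eq_zero_or_pos with z | z
    · exact (h.sum_inactive z).le
    by_cases c : ∃ a, Heavy rk a v
    · exact (h.sum_heavy c.choose_spec).le
    obtain ⟨m, h1, h2⟩ := h.key z
    rw [sum_congr rfl fun a _ => YY_not_heavy fun k => c ⟨a, k⟩]
    exact (fl_sum k _ _).trans ((fl_mono k (((sum_le_sum fun b _ => h.mu_le b v).trans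
      (h.b.sup _ (by omega) v)).trans h1)).trans h2)
  · exact Nat.eq_zero_of_le_zero (rk_deep h.n h.r hv ▸ er_le_rk rk v)

theorem YH.flag (h : YH k J ν q qh rk) {v : List Lab} (hv : ∑ a, YY qh rk (a :: v) < YY qh rk v) :
    Flag rk v := by
  refine ⟨Nat.pos_of_ne_zero fun z => hv.ne (h.sum_inactive z), fun a ha => hv.ne (h.sum_heavy ha)⟩

theorem YH.le_th (h : YH k J ν q qh rk) (v : List Lab) :
    (YY qh rk v : ℝ) ≤ 5 / 4 * Mm k * th (2 * er rk v + 4) := by
  have hM : (0 : ℝ) ≤ Mm k := Nat.cast_nonneg _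
  induction v with
  | nil =>
    have := nu_lt h.n h.r []
    rw [h.n.root] at this
    have hk : (0 : ℝ) ≤ k := Nat.cast_nonneg _
    simp only [YY]
    push_cast
    nlinarith [mul_le_mul_of_nonneg_left this.le hM, mul_nonneg hM hk]
  | cons a v ih =>
    by_cases hh : Heavy rk a v
    · rw [hh.er_eq, YY_heavy hh]
      refine le_trans ?_ ih
      exact_mod_cast sub_le_self _ (sum_nonneg fun b _ => fl_mu_nonneg b v)
    · rw [YY_not_heavy hh]
      refine (fl_le h.hk (mu_nonneg _ _ _ _)).trans (mul_le_mul_of_nonneg_left ?_ (by positivity))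
      exact ((h.mu_le a v).trans (h.b.le_nu _ _)).trans (nu_lt h.n h.r _).le

theorem YH.le_nu (h : YH k J ν q qh rk) (v : List Lab) : (YY qh rk v : ℝ) ≤ 3 * Mm k * ν v := by
  have hM : (0 : ℝ) ≤ Mm k := Nat.cast_nonneg _
  have h0 := h.n.nonneg v
  rcases (er rk v).eq_zero_or_pos with z | z
  · rw [h.inactive z]
    push_cast
    positivity
  · have h1 := th_add_four (2 * er rk v)
    have h2 := P304.le_nu h.r z
    have h3 := mul_le_mul_of_nonneg_left (show th (2 * er rk v + 4) ≤ 2 * ν v by linarith) hM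
    nlinarith [h.le_th v, mul_nonneg hM h0]

theorem YH.occupied (h : YH k J ν q qh rk) {v : List Lab} (h1 : 1 ≤ ν v) {i : Fin k} (h2 : q v i = 0) :
    (Mm k : ℤ) ≤ YY qh rk v := by
  obtain ⟨m, k1, k2⟩ := h.key (v := v) (er_pos fun u hu => rk_pos (h.r u) (h1.trans (h.n.anti hu)))
  exact (le_fl h.hk ((le_bar h.hk (by omega) h2).trans k1)).trans k2

end Vale.Agent.P304
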