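import Vale.Agent.P304.TBreg
import Vale.Agent.P304.TY

/-! P304 TREE: the potentials `PhiQ` and `PhiR`.
Plan. Exchange the sums (`TS_sum`, `TS_mul`), `phq_mean`, `phr_mean`; then `TS_mono` and the scalar lemmas; `sum_bb`, `TS_Nn_le`.
`PhiR_init`: nodes of depth `< n₀` have `Nn ∈ {0, k}`; for the others `phr_self_le` and `dirty_le` with `Z z := z.length = n₀`, `ν = Nn p`
(`∑ v ∈ nodes Lab n, Nn p v ≤ k`, since every list has at most one suffix of a given length). -/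

namespace Vale.Agent.P304

open Finset

variable {Lab : Type} [Fintype Lab] [DecidableEq Lab] {k : ℕ} {X : Type} [MetricSpace X]
  {Ω : Type} [Fintype Ω] {W : ℝ} {J : ℕ}
variable {A A' : Pic Ω Lab X k} {S S' : St Lab X k}

theorem tpotqr_meanQ {w : Ω → ℝ} (hw : ∑ ω, w ω = 1) (S : St Lab X k) (P : Ω → Fin k → List Lab) :
    ∑ ω, w ω * PhiQ W J S (P ω) = TS W J fun v => ∑ i, phq k (S.qh v i) (qq w P v i) := by
  simp only [PhiQ, ← TS_mul, ← TS_sum, mul_sum]
  congr 1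
  funext v
  rw [sum_comm]
  exact sum_congr rfl fun i _ => phq_mean _ hw _ _ _

theorem tpotqr_meanR {w : Ω → ℝ} (hw : ∑ ω, w ω = 1) (S : St Lab X k) (P : Ω → Fin k → List Lab) :
    ∑ ω, w ω * PhiR W J S (P ω) = TS W J fun v => phr k (S.nh v) (nu w P v) := by
  simp only [PhiR, ← TS_mul, ← TS_sum]
  congr 1
  funext v
  exact phr_mean _ hw _ _ _

theorem tpotqr_one (hW : 0 < W) (n₀ : ℕ) (b : List Lab) :
    TS W J (fun z => I1 (z.length = n₀) * I1 (z <:+ b)) ≤ wt W n₀ := by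
  refine le_trans (sum_le_sum (g := fun v => if v = b.drop (b.length - n₀) then wt W n₀ else 0)
    fun v _ => ?_) ?_
  · have := wt_pos hW n₀
    beta_reduce
    by_cases h : v.length = n₀ ∧ v <:+ b
    · rw [if_pos (by rw [← h.1]; exact List.suffix_iff_eq_drop.1 h.2), I1_of h.1, I1_of h.2, h.1]
      simp
    · have e : I1 (v.length = n₀) * I1 (v <:+ b) = 0 := by
        rcases not_and_or.1 h with h | h <;> simp [I1_of_not h]
      rw [e, mul_zero]
      positivity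
  · have := wt_pos hW n₀
    rw [sum_ite_eq']
    split_ifs
    exacts [le_rfl, this.le]

theorem PhiQ_nonneg (hk : 2 ≤ k) (hW : 0 < W) (hs : Snap W J A) (h : Valid W J A S) :
    0 ≤ ∑ ω, A.w ω * PhiQ W J S (A.P ω) := by
  rw [tpotqr_meanQ hs.sum]
  exact TS_nonneg hW fun v => sum_nonneg fun i _ =>
    phq_nonneg k (h.q v i).2.1 ((hs.barOK hk).nonneg v i) ((hs.barOK hk).le_one v i)

theorem PhiQ_init {p : Fin k → List Lab} (h : ∀ v i, S.qh v i = bb p v i) : PhiQ W J S p = 0 := by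
  simp only [PhiQ, TS, h, bb, phq_self, sum_const_zero, mul_zero]

theorem PhiQ_lip (hk : 2 ≤ k) (hW : 0 < W) (h : Valid W J A S) (p p' : Fin k → List Lab) :
    PhiQ W J S p' - PhiQ W J S p ≤ 3 * Lk k * ∑ l, td W J (p l) (p' l) := by
  refine le_trans ?_ (mul_le_mul_of_nonneg_left (TS_Nn_le hW p p')
    (by linarith [two_le_Lk (one_le_two.trans hk)]))
  rw [PhiQ, PhiQ, ← TS_sub, ← TS_mul]
  refine TS_mono hW fun v _ => ?_
  rw [← sum_bb, mul_sum, ← sum_sub_distrib]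
  exact sum_le_sum fun i _ => phq_lip hk (h.q v i).2.1 (h.q v i).2.2 _ _

theorem Step.PhiQ_upd (h : Step W J A A' S S') :
    ∑ ω, A'.w ω * (PhiQ W J S' (A'.P ω) - PhiQ W J S (A'.P ω)) ≤ -(eta k / 3 * DQ W J S S') := by
  simp only [mul_sub, sum_sub_distrib]
  rw [tpotqr_meanQ h.s'.sum, tpotqr_meanQ h.s'.sum, DQ, ← TS_sub, ← neg_mul, ← TS_mul]
  refine TS_mono h.hW fun v _ => ?_
  rw [mul_sum, ← sum_sub_distrib]
  refine sum_le_sum fun i _ => ?_
  rcases h.u.q v i with e | ⟨e, hc⟩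
  · simp [e]
  · rw [e, neg_mul]
    exact phq_drop h.hk (h.v.q v i).2.1 ((h.s'.barOK h.hk).nonneg v i) hc

theorem PhiR_nonneg (hk : 2 ≤ k) (hW : 0 < W) (hs : Snap W J A) (h : Valid W J A S) :
    0 ≤ ∑ ω, A.w ω * PhiR W J S (A.P ω) := by
  rw [tpotqr_meanR hs.sum]
  exact TS_nonneg hW fun v => phr_nonneg hk (h.n v).1 (hs.nuOK.nonneg v) (hs.nuOK.le_k v)

theorem PhiR_init (hk : 2 ≤ k) (hW : 0 < W) {p : Fin k → List Lab} (h : ∀ v, S.nh v = Nn p v) {n₀ : ℕ}
    (hn : ∀ v : List Lab, v.length < n₀ → ∀ l l', v <:+ p l → v <:+ p l') :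
    PhiR W J S p ≤ 4 * k * Lk k * wt W n₀ := by
  have hL : 0 ≤ 2 * Lk k := by linarith [two_le_Lk (one_le_two.trans hk)]
  have h1 : PhiR W J S p ≤
      2 * Lk k * TS W J fun c => I1 (∃ z, z <:+ c ∧ z.length = n₀) * (Nn p c : ℝ) := by
    rw [PhiR, ← TS_mul]
    refine TS_mono hW fun v _ => ?_
    rw [h]
    rcases lt_or_ge v.length n₀ with hv | hv
    · refine le_trans (le_of_eq ?_) (mul_nonneg hL (mul_nonneg (I1_nonneg _) (Nat.cast_nonneg _)))
      rcases Nat.eq_zero_or_pos (Nn p v) with e | e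
      · rw [e, Nat.cast_zero, phr_zero]
      · obtain ⟨l, hl⟩ := Nn_pos.1 e
        rw [show Nn p v = k by simp [Nn, hn v hv l _ hl], phr_full hk]
    · rw [I1_of ⟨v.drop (v.length - n₀), List.drop_suffix _ _, by rw [List.length_drop]; omega⟩,
        one_mul]
      exact phr_self_le hk (Nat.cast_nonneg _)
  have h2 := dirty_le (J := J) hW (ν := fun c => (Nn p c : ℝ)) (fun _ => Nat.cast_nonneg _)
    (fun v => by rw [Nn_split p v]; push_cast; exact le_add_of_nonneg_left (Nat.cast_nonneg _))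
    fun z => z.length = n₀
  have h3 : (TS W J fun z => I1 (z.length = n₀) * (Nn p z : ℝ)) ≤ k * wt W n₀ := by
    simp only [Nn_eq, mul_sum, TS_sum]
    refine (sum_le_sum fun l _ => tpotqr_one hW n₀ (p l)).trans ?_
    simp
  nlinarith [mul_le_mul_of_nonneg_left (h2.trans (mul_le_mul_of_nonneg_left h3 zero_le_two)) hL]

theorem PhiR_lip (hk : 2 ≤ k) (hW : 0 < W) (h : Valid W J A S) (p p' : Fin k → List Lab) :
    PhiR W J S p' - PhiR W J S p ≤ 4 * Lk k * ∑ l, td W J (p l) (p' l) := by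
  refine le_trans ?_ (mul_le_mul_of_nonneg_left (TS_Nn_le hW p p')
    (by linarith [two_le_Lk (one_le_two.trans hk)]))
  rw [PhiR, PhiR, ← TS_sub, ← TS_mul]
  exact TS_mono hW fun v _ => phr_lip hk (h.n v).1 (h.n v).2.1 _ _

theorem Step.PhiR_upd (h : Step W J A A' S S') :
    ∑ ω, A'.w ω * (PhiR W J S' (A'.P ω) - PhiR W J S (A'.P ω)) ≤ -(DZ W J A A' S S' / 600) := by
  simp only [mul_sub, sum_sub_distrib]
  rw [tpotqr_meanR h.s'.sum, tpotqr_meanR h.s'.sum, DZ, ← TS_sub, div_eq_inv_mul, ← neg_mul,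
    ← TS_mul]
  refine TS_mono h.hW fun v _ => ?_
  rcases h.u.r v with ⟨e, e'⟩ | ⟨e, hc⟩
  · simp [e, e', I1_of_not]
  · rw [e, I1_of (P := S.rk v ≠ S'.rk v) fun e' => hc (e' ▸ h.v'.r v), one_mul, neg_mul,
      ← div_eq_inv_mul]
    exact phr_drop (h.v.n v) (h.v.r v) (h.s'.nuOK.nonneg v) hc

end Vale.Agent.P304
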