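import Vale.Agent.P304.TTree

/-! P304 TREE: rounding of one level.
Plan. `round_col`: induction on `|∑ a - c|`: add one at a minimal entry or remove one at a maximal entry.
`round_row`: induction on `∑ j, |∑ i, b j i - ρ j|`; a row above and a row below the target exist, the first has the larger sum, so in some column its entry is larger (by exactly one): swap. -/

namespace Vale.Agent.P304

open Finset

variable {Lab : Type} [Fintype Lab] [DecidableEq Lab] {k : ℕ} {X : Type} [MetricSpace X]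
  {Ω : Type} [Fintype Ω] {W : ℝ} {J : ℕ}

/-- balanced family -/
def Bal {M : ℕ} (a : Fin M → ℕ) : Prop := ∀ j j', a j ≤ a j' + 1

theorem tround1_up {M : ℕ} (hM : 0 < M) {a : Fin M → ℕ} (ha : Bal a) (d : ℕ) :
    ∃ b : Fin M → ℕ, Bal b ∧ (∀ j, a j ≤ b j) ∧ ∑ j, b j = ∑ j, a j + d := by
  induction d with
  | zero => exact ⟨a, ha, fun _ => le_rfl, rfl⟩
  | succ d ih =>
    obtain ⟨b, h1, h2, h3⟩ := ih
    obtain ⟨m, -, hm⟩ := exists_min_image univ b ⟨⟨0, hM⟩, mem_univ _⟩
    refine ⟨fun j => b j + if j = m then 1 else 0, fun j j' => ?_, fun j => ?_, ?_⟩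
    · have h4 := h1 j j'
      have h5 := hm j' (mem_univ _)
      by_cases hj : j = m
      · subst hj
        simp only [if_true]
        omega
      · simp only [if_neg hj]
        omega
    · have := h2 j
      beta_reduce
      omega
    · rw [sum_add_distrib, h3]
      simp [add_assoc]

theorem tround1_down {M : ℕ} (hM : 0 < M) {a : Fin M → ℕ} (ha : Bal a) (d : ℕ) (hd : d ≤ ∑ j, a j) :
    ∃ b : Fin M → ℕ, Bal b ∧ (∀ j, b j ≤ a j) ∧ ∑ j, b j + d = ∑ j, a j := by
  induction d with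
  | zero => exact ⟨a, ha, fun _ => le_rfl, rfl⟩
  | succ d ih =>
    obtain ⟨b, h1, h2, h3⟩ := ih (by omega)
    obtain ⟨m, -, hm⟩ := exists_max_image univ b ⟨⟨0, hM⟩, mem_univ _⟩
    have hm0 : 0 < b m := by
      by_contra h
      have h4 : ∑ j, b j = 0 := sum_eq_zero fun j _ => by
        have := hm j (mem_univ _)
        omega
      omega
    have h6 : ∀ j, (b j - if j = m then 1 else 0) + (if j = m then 1 else 0) = b j := fun j => by
      by_cases hj : j = m
      · subst hj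
        simp only [if_true]
        omega
      · simp only [if_neg hj]
        omega
    refine ⟨fun j => b j - if j = m then 1 else 0, fun j j' => ?_, fun j => ?_, ?_⟩
    · have h4 := h1 j j'
      have h5 := hm j (mem_univ _)
      by_cases hj : j' = m
      · subst hj
        simp only [if_true]
        omega
      · simp only [if_neg hj]
        omega
    · have := h2 j
      beta_reduce
      omega
    · have h7 : ∑ j, ((b j - if j = m then 1 else 0) + if j = m then 1 else 0) = ∑ j, b j :=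
        sum_congr rfl fun j _ => h6 j
      rw [sum_add_distrib, sum_ite_eq', if_pos (mem_univ _)] at h7
      rw [← h3, ← h7]
      ring

theorem round_col {M : ℕ} (hM : 0 < M) {a : Fin M → ℕ} (ha : Bal a) (c : ℕ) :
    ∃ b : Fin M → ℕ, Bal b ∧ ∑ j, b j = c ∧ ∑ j, |(a j : ℤ) - b j| = |∑ j, (a j : ℤ) - c| := by
  rcases le_total (∑ j, a j) c with h | h
  · obtain ⟨b, h1, h2, h3⟩ := tround1_up hM ha (c - ∑ j, a j)
    have h4 : ∑ j, b j = c := by omega
    refine ⟨b, h1, h4, ?_⟩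
    have h5 : ∀ j, |(a j : ℤ) - b j| = -((a j : ℤ) - b j) := fun j =>
      abs_of_nonpos (sub_nonpos.mpr (Nat.cast_le.mpr (h2 j)))
    have h6 : ∑ j, (a j : ℤ) ≤ c := by exact_mod_cast h
    simp only [h5]
    rw [abs_of_nonpos (sub_nonpos.mpr h6), sum_neg_distrib, sum_sub_distrib, ← h4]
    push_cast
    rfl
  · obtain ⟨b, h1, h2, h3⟩ := tround1_down hM ha (∑ j, a j - c) (by omega)
    have h4 : ∑ j, b j = c := by omega
    refine ⟨b, h1, h4, ?_⟩
    have h5 : ∀ j, |(a j : ℤ) - b j| = (a j : ℤ) - b j := fun j =>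
      abs_of_nonneg (sub_nonneg.mpr (Nat.cast_le.mpr (h2 j)))
    have h6 : (c : ℤ) ≤ ∑ j, (a j : ℤ) := by exact_mod_cast h
    simp only [h5]
    rw [abs_of_nonneg (sub_nonneg.mpr h6), sum_sub_distrib, ← h4]
    push_cast
    rfl

theorem tround1_swap {M : ℕ} {I : Type} [Fintype I] {b : Fin M → I → ℕ}
    (hb : ∀ i, Bal fun j => b j i) {ρ : Fin M → ℕ} (hρ : Bal ρ)
    (hs : ∑ j, ρ j = ∑ j, ∑ i, b j i) (hne : ¬∀ j, ∑ i, b j i = ρ j) :
    ∃ b₁ : Fin M → I → ℕ, (∀ i, Bal fun j => b₁ j i) ∧ (∀ i, ∑ j, b₁ j i = ∑ j, b j i) ∧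
      ∑ j, |∑ i, (b₁ j i : ℤ) - ρ j| + 2 = ∑ j, |∑ i, (b j i : ℤ) - ρ j| ∧
      ∑ i, ∑ j, |(b j i : ℤ) - b₁ j i| ≤ 2 := by
  classical
  have h1 : ∃ j, ρ j < ∑ i, b j i := by
    by_contra h
    push Not at h
    exact hne fun j => (sum_eq_sum_iff_of_le fun j _ => h j).mp hs.symm j (mem_univ _)
  have h2 : ∃ j, ∑ i, b j i < ρ j := by
    by_contra h
    push Not at h
    exact hne fun j => ((sum_eq_sum_iff_of_le fun j _ => h j).mp hs j (mem_univ _)).symm
  obtain ⟨j, hj⟩ := h1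
  obtain ⟨j', hj'⟩ := h2
  have hjj : j ≠ j' := by
    rintro rfl
    omega
  have h3 : ∑ i, b j' i < ∑ i, b j i := by
    have := hρ j' j
    omega
  obtain ⟨i, -, hi⟩ := exists_lt_of_sum_lt h3
  have hi' : b j i = b j' i + 1 := by
    have := hb i j j'
    beta_reduce at this
    omega
  let b₁ : Fin M → I → ℕ := fun m i' => if i' = i then b (Equiv.swap j j' m) i' else b m i'
  have key : ∀ m i', (b₁ m i' : ℤ) = b m i' + if i' = i then
      ((if m = j' then 1 else 0) - if m = j then 1 else 0) else 0 := fun m i' => by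
    simp only [b₁]
    by_cases h : i' = i
    · subst h
      simp only [if_true]
      by_cases hm : m = j
      · subst hm
        rw [Equiv.swap_apply_left, if_neg hjj, if_pos rfl, hi']
        push_cast
        ring
      · by_cases hm' : m = j'
        · subst hm'
          rw [Equiv.swap_apply_right, if_neg hm, if_pos rfl, hi']
          push_cast
          ring
        · rw [Equiv.swap_apply_of_ne_of_ne hm hm', if_neg hm, if_neg hm']
          ring
    · simp only [if_neg h, add_zero]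
  refine ⟨b₁, fun i' m m' => ?_, fun i' => ?_, ?_, ?_⟩
  · simp only [b₁]
    split_ifs
    · exact hb i' _ _
    · exact hb i' _ _
  · simp only [b₁]
    split_ifs
    · exact Equiv.sum_comp (Equiv.swap j j') fun m => b m i'
    · rfl
  · have h4 : ∀ m, |∑ i', (b₁ m i' : ℤ) - ρ m| + ((if m = j' then 1 else 0) + if m = j then 1 else 0) =
        |∑ i', (b m i' : ℤ) - ρ m| := fun m => by
      simp only [key, sum_add_distrib, sum_ite_eq', mem_univ, if_true]
      have hj1 : (ρ j : ℤ) < ∑ i, (b j i : ℤ) := by exact_mod_cast hj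
      have hj2 : ∑ i, (b j' i : ℤ) < ρ j' := by exact_mod_cast hj'
      by_cases hm : m = j
      · subst hm
        rw [if_neg hjj, if_pos rfl, abs_of_nonneg (by linarith), abs_of_nonneg (by linarith)]
        ring
      · by_cases hm' : m = j'
        · subst hm'
          rw [if_neg hm, if_pos rfl, abs_of_nonpos (by linarith), abs_of_nonpos (by linarith)]
          ring
        · simp only [if_neg hm, if_neg hm', sub_self, add_zero]
    rw [← sum_congr rfl fun m _ => h4 m, sum_add_distrib, sum_add_distrib]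
    simp only [sum_ite_eq', mem_univ, if_true]
    norm_num
  · have h4 : ∀ i' m, |(b m i' : ℤ) - b₁ m i'| ≤ if i' = i then
        ((if m = j' then 1 else 0) + if m = j then 1 else 0) else 0 := fun i' m => by
      rw [key]
      split_ifs <;> simp
    refine (sum_le_sum fun i' _ => sum_le_sum fun m _ => h4 i' m).trans ?_
    rw [sum_comm]
    simp only [sum_add_distrib, sum_ite_eq', mem_univ, if_true]
    norm_num

theorem tround1_row {M : ℕ} {I : Type} [Fintype I] {ρ : Fin M → ℕ} (hρ : Bal ρ) (n : ℕ) :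
    ∀ b : Fin M → I → ℕ, (∀ i, Bal fun j => b j i) → ∑ j, ρ j = ∑ j, ∑ i, b j i →
      ∑ j, |∑ i, (b j i : ℤ) - ρ j| < n →
      ∃ b' : Fin M → I → ℕ, (∀ i, Bal fun j => b' j i) ∧ (∀ i, ∑ j, b' j i = ∑ j, b j i) ∧
        (∀ j, ∑ i, b' j i = ρ j) ∧
          ∑ i, ∑ j, |(b j i : ℤ) - b' j i| ≤ ∑ j, |∑ i, (b j i : ℤ) - ρ j| := by
  induction n with
  | zero =>
    intro b _ _ h
    exact absurd (sum_nonneg fun j _ => abs_nonneg _) (not_le.mpr h)
  | succ n ih =>
    intro b hb hs hn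
    by_cases hne : ∀ j, ∑ i, b j i = ρ j
    · refine ⟨b, hb, fun _ => rfl, hne, ?_⟩
      simp only [sub_self, abs_zero, sum_const_zero]
      exact sum_nonneg fun j _ => abs_nonneg _
    · obtain ⟨b₁, h1, h2, h3, h4⟩ := tround1_swap hb hρ hs hne
      have hs₁ : ∑ j, ρ j = ∑ j, ∑ i, b₁ j i := by
        rw [hs, sum_comm, sum_comm (f := fun j i => b₁ j i)]
        exact sum_congr rfl fun i _ => (h2 i).symm
      push_cast at hn
      obtain ⟨b', g1, g2, g3, g4⟩ := ih b₁ h1 hs₁ (by linarith)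
      refine ⟨b', g1, fun i => (g2 i).trans (h2 i), g3, ?_⟩
      have h5 : ∑ i, ∑ j, |(b j i : ℤ) - b' j i| ≤
          ∑ i, ∑ j, (|(b j i : ℤ) - b₁ j i| + |(b₁ j i : ℤ) - b' j i|) :=
        sum_le_sum fun i _ => sum_le_sum fun j _ => abs_sub_le _ _ _
      simp only [sum_add_distrib] at h5
      linarith

theorem round_row {M : ℕ} {I : Type} [Fintype I] {b : Fin M → I → ℕ} (hb : ∀ i, Bal fun j => b j i)
    {ρ : Fin M → ℕ} (hρ : Bal ρ) (hs : ∑ j, ρ j = ∑ j, ∑ i, b j i) :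
    ∃ b' : Fin M → I → ℕ, (∀ i, Bal fun j => b' j i) ∧ (∀ i, ∑ j, b' j i = ∑ j, b j i) ∧
      (∀ j, ∑ i, b' j i = ρ j) ∧ ∑ i, ∑ j, |(b j i : ℤ) - b' j i| ≤ ∑ j, |∑ i, (b j i : ℤ) - ρ j| :=
  tround1_row hρ ((∑ j, |∑ i, (b j i : ℤ) - ρ j|).toNat + 1) b hb hs (by
    have := Int.self_le_toNat (∑ j, |∑ i, (b j i : ℤ) - ρ j|)
    push_cast
    linarith)

theorem round_one {M : ℕ} (hM : 0 < M) {I : Type} [Fintype I] {a : Fin M → I → ℕ}
    (ha : ∀ i, Bal fun j => a j i) (c : I → ℕ) {ρ : Fin M → ℕ} (hρ : Bal ρ) (hs : ∑ j, ρ j = ∑ i, c i) :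
    ∃ a' : Fin M → I → ℕ, (∀ i, Bal fun j => a' j i) ∧ (∀ i, ∑ j, a' j i = c i) ∧
      (∀ j, ∑ i, a' j i = ρ j) ∧ ∑ i, ∑ j, |(a j i : ℤ) - a' j i| ≤
        2 * ∑ i, |∑ j, (a j i : ℤ) - c i| + ∑ j, |∑ i, (a j i : ℤ) - ρ j| := by
  choose b h1 h2 h3 using fun i => round_col hM (ha i) (c i)
  have hs₁ : ∑ j, ρ j = ∑ j, ∑ i, b i j := by
    rw [hs, sum_comm]
    exact sum_congr rfl fun i _ => (h2 i).symm
  obtain ⟨a', g1, g2, g3, g4⟩ := round_row (b := fun j i => b i j) h1 hρ hs₁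
  refine ⟨a', g1, fun i => (g2 i).trans (h2 i), g3, ?_⟩
  have h5 : ∑ i, ∑ j, |(a j i : ℤ) - a' j i| ≤
      ∑ i, ∑ j, (|(a j i : ℤ) - b i j| + |(b i j : ℤ) - a' j i|) :=
    sum_le_sum fun i _ => sum_le_sum fun j _ => abs_sub_le _ _ _
  have h6 : ∑ j, |∑ i, (b i j : ℤ) - ρ j| ≤
      ∑ j, (∑ i, |(a j i : ℤ) - b i j| + |∑ i, (a j i : ℤ) - ρ j|) := by
    refine sum_le_sum fun j _ => (abs_sub_le _ (∑ i, (a j i : ℤ)) _).trans (add_le_add ?_ le_rfl)
    rw [abs_sub_comm, ← sum_sub_distrib]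
    exact abs_sum_le_sum_abs _ _
  simp only [sum_add_distrib] at h5 h6
  rw [sum_comm] at h6
  simp only [h3] at h5 h6
  linarith

end Vale.Agent.P304
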