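import Vale.Agent.P304.TY
import Vale.Agent.P304.TRound

/-! P304 TREE: existence of the states.
Plan. `exists_upd`: `qh' = if Close .. then qh else qq`, `(rk', nh') = if RkV ν' rk then (rk, nh) else (exists_rank, ν')`, anchors: keep if flagged before and after and still within `24 wt` of
all new members, otherwise a member position (exists when flagged: `le_nu`, `Snap.exists_mem`; `Snap.geo` gives validity); `YH.yOK`, `round`.
`exists_init`: `qh = bb p`, `nh = Nn p`, rank from `exists_rank`, anchor `s l` for a member `l` if there is one, else `s ⟨0, _⟩`; for constant pictures `qq = bb p`, `nu = Nn p`;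
`YY` does not depend on the weights, take any one (`A`) to get `exists_cfg`. -/

namespace Vale.Agent.P304

open Finset

variable {Lab : Type} [Fintype Lab] [DecidableEq Lab] {k : ℕ} {X : Type} [MetricSpace X]
  {Ω : Type} [Fintype Ω] {W : ℝ} {J : ℕ}
variable {A A' : Pic Ω Lab X k} {S S' : St Lab X k}

theorem tupd_qq (hk : 2 ≤ k) (hs : Snap W J A) (v : List Lab) (i : Fin k) :
    0 ≤ qq A.w A.P v i ∧ qq A.w A.P v i ≤ 1 :=
  ⟨(hs.barOK hk).nonneg v i, (hs.barOK hk).le_one v i⟩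

theorem tupd_wt (hW : 0 < W) (m : ℕ) : 0 ≤ wt W m := by
  unfold wt
  positivity

theorem exists_upd (hk : 2 ≤ k) (hW : 0 < W) (h : Valid W J A S) (hs : Snap W J A') :
    ∃ S' : St Lab X k, Valid W J A' S' ∧ Upd W J A' S S' := by
  classical
  have hn := hs.nuOK
  have hq : ∀ v i, ∃ y, (Close k (qq A'.w A'.P v i) y ∧ 0 ≤ y ∧ y ≤ 1) ∧ (y = S.qh v i ∨
      (y = qq A'.w A'.P v i ∧ ¬Close k (qq A'.w A'.P v i) (S.qh v i))) := fun v i => by
    by_cases hc : Close k (qq A'.w A'.P v i) (S.qh v i)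
    · exact ⟨_, ⟨hc, (h.q v i).2⟩, Or.inl rfl⟩
    · exact ⟨_, ⟨close_self hk (tupd_qq hk hs v i).1, tupd_qq hk hs v i⟩, Or.inr ⟨rfl, hc⟩⟩
  choose qh hq1 hq2 using hq
  have hr : ∀ v, ∃ r y, RkV (nu A'.w A'.P v) r ∧ NhV k r y ∧ ((r = S.rk v ∧ y = S.nh v) ∨
      (y = nu A'.w A'.P v ∧ ¬RkV (nu A'.w A'.P v) (S.rk v))) := fun v => by
    by_cases hc : RkV (nu A'.w A'.P v) (S.rk v)
    · exact ⟨_, _, hc, h.n v, Or.inl ⟨rfl, rfl⟩⟩
    · obtain ⟨r, h1, h2⟩ := exists_rank (hn.nonneg v) (hn.le_k v)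
      exact ⟨r, _, h1, h2, Or.inr ⟨rfl, hc⟩⟩
  choose rk nh hr1 hr2 hr3 using hr
  have ha : ∀ v, ∃ z, (∀ y, Flag rk v → A'.Mem v y → dist z y ≤ 24 * wt W v.length) ∧
      (Flag rk v → (Flag S.rk v ∧ z = S.an v) ∨ (A'.Mem v z ∧
        (Flag S.rk v → ∃ y, A'.Mem v y ∧ 24 * wt W v.length < dist (S.an v) y))) := fun v => by
    by_cases hf : Flag rk v
    · by_cases hc : Flag S.rk v ∧ ∀ y, A'.Mem v y → dist (S.an v) y ≤ 24 * wt W v.length
      · exact ⟨S.an v, fun y _ hy => hc.2 y hy, fun _ => Or.inl ⟨hc.1, rfl⟩⟩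
      · obtain ⟨z, hz⟩ := hs.exists_mem ((th_pos _).trans_le (le_nu hr1 hf.1))
        refine ⟨z, fun y _ hy => (hs.geo v z y hz hy).trans ?_, fun _ => Or.inr ⟨hz, fun hf' => ?_⟩⟩
        · linarith [tupd_wt hW v.length]
        · by_contra hne
          exact hc ⟨hf', fun y hy => not_lt.1 fun hlt => hne ⟨y, hy, hlt⟩⟩
    · exact ⟨S.an v, fun _ hf' => absurd hf' hf, fun hf' => absurd hf' hf⟩
  choose an ha1 ha2 using ha
  have hY : YH k J (nu A'.w A'.P) (qq A'.w A'.P) qh rk := ⟨hk, hn, hs.barOK hk, hq1, hr1⟩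
  obtain ⟨cfg, hc1, hc2⟩ := round (Mm_pos hk) hW h.c hY.yOK
  exact ⟨⟨qh, rk, nh, an, cfg⟩, ⟨hq1, hr1, hr2, ha1, hc1⟩, hq2, hr3, ha2, hc2⟩

theorem exists_init (hk : 2 ≤ k) (hW : 0 < W) (p : Fin k → List Lab) (s : Fin k → X) (hs : Snap W J A)
    (hp : A.P = fun _ => p) (hx : A.x = fun _ => s) :
    ∃ S : St Lab X k, (∀ v i, S.qh v i = bb p v i) ∧ (∀ v, S.nh v = Nn p v) ∧ (∀ v, ∃ l, S.an v = s l) ∧
      ∀ B : Pic Ω Lab X k, Snap W J B → (B.P = fun _ => p) → (B.x = fun _ => s) → Valid W J B S := by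
  classical
  have hq : ∀ B : Pic Ω Lab X k, Snap W J B → (B.P = fun _ => p) → qq B.w B.P = bb p := by
    intro B hB e
    funext v i
    simp only [qq, e, ← sum_mul, hB.sum, one_mul]
  have hnu : ∀ B : Pic Ω Lab X k, Snap W J B → (B.P = fun _ => p) →
      nu B.w B.P = fun v => (Nn p v : ℝ) := by
    intro B hB e
    funext v
    simp only [nu, e, ← sum_mul, hB.sum, one_mul]
  have hr : ∀ v, ∃ r, RkV (Nn p v) r ∧ NhV k r (Nn p v) := fun v =>
    exists_rank (Nat.cast_nonneg _) (by exact_mod_cast Nn_le p v)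
  choose rk hr1 hr2 using hr
  have hq1 : QhOK (bb p) (bb p) := fun v i => by
    have := tupd_qq hk hs v i
    rw [hq A hs hp] at this
    exact ⟨close_self hk this.1, this⟩
  have ha : ∀ v, ∃ l, (∃ l', v <:+ p l') → v <:+ p l := fun v => by
    by_cases hc : ∃ l', v <:+ p l'
    · obtain ⟨l, hl⟩ := hc
      exact ⟨l, fun _ => hl⟩
    · exact ⟨⟨0, by omega⟩, fun hc' => absurd hc' hc⟩
  choose la hla using ha
  have hY : YH k J (nu A.w A.P) (qq A.w A.P) (bb p) rk :=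
    ⟨hk, hs.nuOK, hs.barOK hk, by rw [hq A hs hp]; exact hq1, by rw [hnu A hs hp]; exact hr1⟩
  obtain ⟨cfg, hc⟩ := exists_cfg (Mm_pos hk) hY.yOK
  refine ⟨⟨bb p, rk, fun v => Nn p v, fun v => s (la v), cfg⟩, fun _ _ => rfl, fun _ => rfl,
    fun v => ⟨la v, rfl⟩, fun B hB e1 e2 => ⟨?_, ?_, hr2, ?_, hc⟩⟩
  · rw [hq B hB e1]; exact hq1
  · rw [hnu B hB e1]; exact hr1
  · rintro v y - ⟨ω, l, h1, h2, h3⟩
    have h4 : B.Mem v (s (la v)) := ⟨ω, la v, h1, by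
      rw [e1] at h2 ⊢
      exact hla v ⟨l, h2⟩, by rw [e2]⟩
    refine (hB.geo v _ y h4 ⟨ω, l, h1, h2, h3⟩).trans ?_
    linarith [tupd_wt hW v.length]

end Vale.Agent.P304
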