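import Vale.Agent.P304.TMove
import Vale.Agent.P304.TPotQR
import Vale.Agent.P304.TPotA
import Vale.Agent.P304.TPhys
import Vale.Agent.P304.TUpd

/-! P304 TREE: assembly. -/

namespace Vale.Agent.P304

open Finset

variable {Lab : Type} [Fintype Lab] [DecidableEq Lab] {k : ℕ} {X : Type} [MetricSpace X]
  {Ω : Type} [Fintype Ω] {W : ℝ} {J : ℕ}
variable {A A' : Pic Ω Lab X k} {S S' : St Lab X k}

noncomputable def Phi (W : ℝ) (J : ℕ) (S : St Lab X k) (p : Fin k → List Lab) (x : Fin k → X) : ℝ :=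
  211200 * Sk k * PhiQ W J S p + 16034400 * PhiR W J S p + 9 * PhiA J S p x

theorem Step.ineq (h : Step W J A A' S S') :
    ∑ ω, A'.w ω * ((∑ j, ∑ l, dist (S.an (S.cfg j l)) (S'.an (S'.cfg j l))) / Mm k +
      Phi W J S' (A'.P ω) (A'.x ω) - Phi W J S (A.P ω) (A.x ω) -
      (10 ^ 8 * Lk k ^ 2 * ∑ l, td W J (A.P ω l) (A'.P ω l) +
        10 ^ 8 * Lk k * ∑ l, dist (A.x ω l) (A'.x ω l))) ≤ 0 := by
  have hk := h.hk
  have hW := h.hW
  have hM : (0 : ℝ) < Mm k := by exact_mod_cast Mm_pos hk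
  have hS : (0 : ℝ) < Sk k := by exact_mod_cast Sk_pos hk
  have hS5 := Sk_le hk
  have hL := two_le_Lk (k := k) (by omega)
  set c := (∑ j, ∑ l, dist (S.an (S.cfg j l)) (S'.an (S'.cfg j l))) / Mm k with hc
  have c1 : c ≤ 35200 * DQ W J S S' + 26400 * DZ W J A A' S S' + 3 * DA J A' S S' := by
    rw [hc, div_le_iff₀ hM]
    nlinarith [h.phys, h.move_le]
  have pt : ∀ ω, A'.w ω * (c + Phi W J S' (A'.P ω) (A'.x ω) - Phi W J S (A.P ω) (A.x ω) -
      (10 ^ 8 * Lk k ^ 2 * ∑ l, td W J (A.P ω l) (A'.P ω l) +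
        10 ^ 8 * Lk k * ∑ l, dist (A.x ω l) (A'.x ω l))) ≤
      A'.w ω * c + 211200 * Sk k * (A'.w ω * (PhiQ W J S' (A'.P ω) - PhiQ W J S (A'.P ω))) +
        16034400 * (A'.w ω * (PhiR W J S' (A'.P ω) - PhiR W J S (A'.P ω))) +
        9 * (A'.w ω * (PhiA J S' (A'.P ω) (A'.x ω) - PhiA J S (A'.P ω) (A'.x ω))) := by
    intro ω
    rcases (h.s'.nonneg ω).eq_or_lt with z | z
    · simp [← z]
    have t0 : 0 ≤ ∑ l, td W J (A.P ω l) (A'.P ω l) := sum_nonneg fun l _ => td_nonneg hW _ _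
    have d0 : 0 ≤ ∑ l, dist (A.x ω l) (A'.x ω l) := sum_nonneg fun l _ => dist_nonneg
    have a1 := PhiQ_lip hk hW h.v (A.P ω) (A'.P ω)
    have a2 := PhiR_lip hk hW h.v (A.P ω) (A'.P ω)
    have a3 := h.PhiA_lip z
    generalize ∑ l, td W J (A.P ω l) (A'.P ω l) = t at *
    generalize ∑ l, dist (A.x ω l) (A'.x ω l) = d at *
    have b1 : 211200 * Sk k * (PhiQ W J S (A'.P ω) - PhiQ W J S (A.P ω)) ≤ 3168000 * Lk k ^ 2 * t := by
      calc _ ≤ 211200 * Sk k * (3 * Lk k * t) := by gcongr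
        _ ≤ 211200 * (5 * Lk k) * (3 * Lk k * t) := by gcongr
        _ = _ := by ring
    have b2 : 2 * (Lk k * t) ≤ Lk k ^ 2 * t := by nlinarith [mul_nonneg (by linarith : 0 ≤ Lk k) t0]
    have b3 : 2 * t ≤ Lk k * t := by nlinarith
    have b4 : Sk k * d ≤ 5 * Lk k * d := by gcongr
    have b5 : 0 ≤ Lk k * d := by positivity
    rw [← mul_assoc, mul_comm _ (A'.w ω), mul_assoc (A'.w ω), ← mul_add, mul_left_comm, ← mul_add,
      mul_left_comm 9, ← mul_add]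
    refine mul_le_mul_of_nonneg_left ?_ z.le
    unfold Phi
    nlinarith
  refine (sum_le_sum fun ω _ => pt ω).trans ?_
  rw [sum_add_distrib, sum_add_distrib, sum_add_distrib, ← sum_mul, h.s'.sum, ← mul_sum, ← mul_sum, ← mul_sum]
  have q1 : 211200 * Sk k * ∑ ω, A'.w ω * (PhiQ W J S' (A'.P ω) - PhiQ W J S (A'.P ω)) ≤
      -(35200 * DQ W J S S') := by
    refine (mul_le_mul_of_nonneg_left h.PhiQ_upd (by positivity)).trans (le_of_eq ?_)
    unfold eta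
    field_simp
    ring
  linarith [h.PhiR_upd, h.PhiA_upd]

theorem tree : TreeStmt := by
  refine ⟨10 ^ 8, by norm_num, ?_⟩
  intro k hk Ω _ F X _ Lab _ _ W J T n₀ D s p₀ p x hW hsep hlen hp0 hx0 hD hn₀ hgeo hstep
  have hL := two_le_Lk (k := k) (by omega)
  have hM : (0 : ℝ) < Mm k := by exact_mod_cast Mm_pos hk
  let pic : ℕ → Ω → Pic Ω Lab X k := fun t ω => ⟨F.cw t ω, p t, x t⟩
  have pic_congr : ∀ t ω ω', F.rel t ω ω' → pic t ω = pic t ω' := fun t ω ω' h => by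
    simp only [pic, F.cw_congr h]
  have snap : ∀ t ω, Snap W J (pic t ω) := fun t ω =>
    ⟨F.cw_nonneg t ω, F.sum_cw t ω, hlen t, by
      rintro v _ _ ⟨a, l, ha, hv, rfl⟩ ⟨b, l', hb, hv', rfl⟩
      exact hgeo t a b l l' v (F.rel_trans (F.rel_symm (F.cw_pos_iff.1 ha)) (F.cw_pos_iff.1 hb)) hv hv'⟩
  have move : ∀ t ω, Move W (pic t ω) (pic (t + 1) ω) := fun t ω =>
    ⟨fun a ha => F.cw_pos_iff.2 (F.anti _ _ _ (F.cw_pos_iff.1 ha)),
      (hstep t).imp id fun h => ⟨F.cw_succ_eq h.1 ω, h.2⟩⟩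
  obtain ⟨ω₀⟩ := F.nonempty
  obtain ⟨S₀, i1, i2, i3, i4⟩ := exists_init hk hW p₀ s (snap 0 ω₀) (funext hp0) (funext hx0)
  obtain ⟨st, ad, st0, val, upd⟩ := F.exists_adapted S₀ (fun t ω S => Valid W J (pic t ω) S)
    (fun t ω S S' => Upd W J (pic (t + 1) ω) S S') (fun t ω ω' a h => by rw [pic_congr t ω ω' h]; exact id)
    (fun t ω ω' a b h => by rw [pic_congr _ ω ω' h]; exact id)
    (fun ω => i4 _ (snap 0 ω) (funext hp0) (funext hx0)) fun t ω a h => exists_upd hk hW h (snap _ ω)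
  let V : Fin (Mm k) → ℕ → Ω → Fin k → X := fun j t ω i => (st t ω).an ((st t ω).cfg j i)
  have tel := F.telescope T (fun t ω => (∑ j, ∑ l, dist (V j t ω l) (V j (t + 1) ω l)) / Mm k)
    (fun t ω => 10 ^ 8 * Lk k ^ 2 * ∑ l, td W J (p t ω l) (p (t + 1) ω l) +
      10 ^ 8 * Lk k * ∑ l, dist (x t ω l) (x (t + 1) ω l))
    (fun t ω => Phi W J (st t ω) (p t ω) (x t ω)) (fun t _ ω => by
      refine le_trans (le_of_eq (F.ce_congr fun a ha => ?_)) (Step.ineq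
        ⟨hk, hW, snap t ω, snap _ ω, move t ω, val t ω, val _ ω, upd t ω⟩)
      simp only [V, ← ad _ _ _ ha, ← ad _ _ _ (F.anti _ _ _ ha)]
      rfl) fun ω => by
      rw [F.ce_congr (g := fun a => Phi W J (st T ω) (p T a) (x T a)) fun a ha => by rw [← ad _ _ _ ha]]
      have a1 := PhiQ_nonneg hk hW (snap T ω) (val T ω)
      have a2 := PhiR_nonneg hk hW (snap T ω) (val T ω)
      have a3 : 0 ≤ ∑ a, F.cw T ω a * PhiA J (st T ω) (p T a) (x T a) :=
        sum_nonneg fun a _ => mul_nonneg (F.cw_nonneg _ _ _) (PhiA_nonneg _ _ _)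
      simp only [Phi, mul_add, sum_add_distrib, mul_left_comm (F.cw T ω _), ← mul_sum]
      positivity
  have hD0 : 0 ≤ D := dist_nonneg.trans (hD ⟨0, by omega⟩ ⟨0, by omega⟩)
  have hw := wt_pos hW n₀
  have hdist : ∀ l v, dist (s l) (S₀.an v) ≤ D := fun l v => by
    obtain ⟨l', e⟩ := i3 v
    rw [e]
    exact hD l l'
  have init : F.E (fun ω => Phi W J (st 0 ω) (p 0 ω) (x 0 ω)) + k * D ≤ 10 ^ 8 * k * Lk k * (wt W n₀ + D) := by
    simp only [st0, hp0, hx0, F.E_const, Phi, PhiQ_init i1]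
    have a1 := PhiR_init (J := J) hk hW i2 hn₀
    have a2 := PhiA_init hk (snap 0 ω₀) (i4 _ (snap 0 ω₀) (funext hp0) (funext hx0)) p₀ hdist
    have a3 : (Sk k : ℝ) * k * D ≤ 5 * Lk k * k * D := by gcongr; exact Sk_le hk
    have a4 : (2 : ℝ) * (k * D) ≤ Lk k * (k * D) := by gcongr
    have a5 : 0 ≤ (k : ℝ) * Lk k * wt W n₀ := by positivity
    have a6 : 0 ≤ (k : ℝ) * D := by positivity
    nlinarith
  obtain ⟨j, -, hj⟩ := exists_le_of_sum_le (s := (univ : Finset (Fin (Mm k))))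
    ⟨⟨0, Mm_pos hk⟩, mem_univ _⟩
    (f := fun j => F.E fun ω => ∑ t ∈ range T, ∑ l, dist (V j t ω l) (V j (t + 1) ω l))
    (g := fun _ => F.E fun ω => ∑ t ∈ range T, (∑ j, ∑ l, dist (V j t ω l) (V j (t + 1) ω l)) / Mm k) (by
      rw [sum_const, card_univ, Fintype.card_fin, nsmul_eq_mul, ← F.E_mul, ← F.E_sum]
      refine F.E_mono fun ω => le_of_eq ?_
      rw [sum_comm, ← sum_div, mul_div_cancel₀ _ hM.ne'])
  refine ⟨V j, fun t ω ω' h => by simp only [V, ad _ _ _ h], fun t ω v a hv ha =>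
    (val t ω).serve hk (snap t ω) hsep hv (fun b hb => ha b (F.cw_pos_iff.1 hb)) j, ?_⟩
  have first : F.E (fun ω => ∑ i, dist (s i) (V j 0 ω i)) ≤ k * D := by
    rw [← F.E_const (k * D)]
    refine F.E_mono fun ω => ?_
    simp only [V, st0]
    simpa using sum_le_card_nsmul univ _ D fun i _ => hdist i (S₀.cfg j i)
  simp only [sum_add_distrib, ← mul_sum, F.E_add, F.E_mul] at tel
  rw [F.E_add]
  linarith

end Vale.Agent.P304
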